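import Vale.Agent.P352X.Defs
import Vale.Agent.P352X.SN.Dom
import Vale.Agent.P352X.SN.Rep

/-!
# P352X, row API1: generators of one parameter unitary groups
-/

set_option linter.all false

open MeasureTheory Filter Topology
open scoped ComplexConjugate

namespace Vale.Agent.P352X

open Complex (I)

noncomputable section

variable {H H' : Type*} [NormedAddCommGroup H] [InnerProductSpace ℂ H] [CompleteSpace H]
  [NormedAddCommGroup H'] [InnerProductSpace ℂ H'] [CompleteSpace H']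
  {W W₁ W₂ : ℝ → H →L[ℂ] H} {W' : ℝ → H' →L[ℂ] H'} {ψ φ k m x y a b : H}

/-! ## no hypothesis on `W` -/

lemma neg_I_I (k : H) : -I • I • k = k := by
  rw [smul_smul, neg_mul, Complex.I_mul_I, neg_neg, one_smul]

lemma I_neg_I (k : H) : I • -I • k = k := by
  rw [smul_smul, mul_neg, Complex.I_mul_I, neg_neg, one_smul]

lemma Gn.dm (h : Gn W ψ k) : Dm W ψ := HasDerivAt.differentiableAt h

lemma Gn.gen_eq (h : Gn W ψ k) : gen W ψ = k := by
  rw [gen, HasDerivAt.deriv h, neg_I_I]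

lemma Dm.gn (h : Dm W ψ) : Gn W ψ (gen W ψ) := by
  rw [Gn, gen, I_neg_I]
  exact DifferentiableAt.hasDerivAt h

lemma gn_iff : Gn W ψ k ↔ Dm W ψ ∧ gen W ψ = k :=
  ⟨fun h => ⟨h.dm, h.gen_eq⟩, fun h => h.2 ▸ h.1.gn⟩

lemma dm_iff : Dm W ψ ↔ ∃ k, Gn W ψ k := ⟨fun h => ⟨_, h.gn⟩, fun ⟨_, h⟩ => h.dm⟩

lemma Gn.unique (h : Gn W ψ k) (h' : Gn W ψ m) : k = m := h.gen_eq.symm.trans h'.gen_eq

lemma Gn.cast (h : Gn W ψ k) (e : φ = ψ) (e' : m = k) : Gn W φ m := by rwa [e, e']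

lemma gn_of_hasDerivAt {u : H} (h : HasDerivAt (fun t => W t ψ) u 0) : Gn W ψ (-I • u) := by
  rwa [Gn, I_neg_I]

lemma gn_zero : Gn W 0 0 := by
  simpa only [Gn, map_zero, smul_zero] using hasDerivAt_const (0 : ℝ) (0 : H)

lemma gn_of_fix (h : ∀ t, W t ψ = ψ) : Gn W ψ 0 := by
  simpa only [Gn, h, smul_zero] using hasDerivAt_const (0 : ℝ) ψ

lemma Gn.add (h : Gn W ψ k) (h' : Gn W φ m) : Gn W (ψ + φ) (k + m) := by
  simpa only [Gn, map_add, smul_add] using HasDerivAt.fun_add h h'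

lemma Gn.smul (c : ℂ) (h : Gn W ψ k) : Gn W (c • ψ) (c • k) := by
  simpa only [Gn, map_smul, smul_comm I c] using HasDerivAt.fun_const_smul c h

lemma Gn.rsmul (c : ℝ) (h : Gn W ψ k) : Gn W (c • ψ) (c • k) := h.smul (c : ℂ)

lemma Gn.neg (h : Gn W ψ k) : Gn W (-ψ) (-k) := by simpa only [neg_one_smul] using h.smul (-1)

lemma Gn.sub (h : Gn W ψ k) (h' : Gn W φ m) : Gn W (ψ - φ) (k - m) := by
  simpa only [sub_eq_add_neg] using h.add h'.neg

lemma Gn.sum {ι : Type*} (s : Finset ι) {f g : ι → H} (h : ∀ i ∈ s, Gn W (f i) (g i)) :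
    Gn W (∑ i ∈ s, f i) (∑ i ∈ s, g i) := by
  classical
  induction s using Finset.induction_on with
  | empty => simpa using gn_zero
  | insert i s hi ih =>
    rw [Finset.sum_insert hi, Finset.sum_insert hi]
    exact (h i (Finset.mem_insert_self _ _)).add (ih fun j hj => h j (Finset.mem_insert_of_mem hj))

lemma dm_zero : Dm W 0 := gn_zero.dm
lemma Dm.add (h : Dm W ψ) (h' : Dm W φ) : Dm W (ψ + φ) := (h.gn.add h'.gn).dm
lemma Dm.smul (c : ℂ) (h : Dm W ψ) : Dm W (c • ψ) := (h.gn.smul c).dm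
lemma Dm.rsmul (c : ℝ) (h : Dm W ψ) : Dm W (c • ψ) := (h.gn.rsmul c).dm
lemma Dm.neg (h : Dm W ψ) : Dm W (-ψ) := h.gn.neg.dm
lemma Dm.sub (h : Dm W ψ) (h' : Dm W φ) : Dm W (ψ - φ) := (h.gn.sub h'.gn).dm
lemma Dm.sum {ι : Type*} (s : Finset ι) {f : ι → H} (h : ∀ i ∈ s, Dm W (f i)) :
    Dm W (∑ i ∈ s, f i) := (Gn.sum s fun i hi => (h i hi).gn).dm

lemma gen_zero : gen W 0 = 0 := gn_zero.gen_eq
lemma gen_add (h : Dm W ψ) (h' : Dm W φ) : gen W (ψ + φ) = gen W ψ + gen W φ :=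
  (h.gn.add h'.gn).gen_eq
lemma gen_smul (c : ℂ) (h : Dm W ψ) : gen W (c • ψ) = c • gen W ψ := (h.gn.smul c).gen_eq
lemma gen_rsmul (c : ℝ) (h : Dm W ψ) : gen W (c • ψ) = c • gen W ψ := (h.gn.rsmul c).gen_eq
lemma gen_neg (h : Dm W ψ) : gen W (-ψ) = -gen W ψ := h.gn.neg.gen_eq
lemma gen_sub (h : Dm W ψ) (h' : Dm W φ) : gen W (ψ - φ) = gen W ψ - gen W φ :=
  (h.gn.sub h'.gn).gen_eq
lemma gen_sum {ι : Type*} (s : Finset ι) {f : ι → H} (h : ∀ i ∈ s, Dm W (f i)) :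
    gen W (∑ i ∈ s, f i) = ∑ i ∈ s, gen W (f i) := (Gn.sum s fun i hi => (h i hi).gn).gen_eq

/-- the domain as a submodule -/
def dmS (W : ℝ → H →L[ℂ] H) : Submodule ℂ H where
  carrier := {ψ | Dm W ψ}
  add_mem' := Dm.add
  zero_mem' := dm_zero
  smul_mem' := fun c _ => Dm.smul c

/-- the generator as a linear map on its domain -/
def genL (W : ℝ → H →L[ℂ] H) : dmS W →ₗ[ℂ] H where
  toFun ψ := gen W ψ
  map_add' ψ φ := gen_add ψ.2 φ.2
  map_smul' c ψ := gen_smul c ψ.2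

lemma Gn.congr (h : Gn W ψ k) (e : ∀ᶠ t in 𝓝 (0 : ℝ), W₁ t φ = W t ψ) : Gn W₁ φ k :=
  HasDerivAt.congr_of_eventuallyEq h e

/-- change of the parameter, with an intertwiner -/
lemma Gn.reparam (h : Gn W ψ k) (A : H →L[ℂ] H') {r : ℝ → ℝ} {c : ℝ} (r0 : r 0 = 0)
    (hr : HasDerivAt r c 0) {ψ' : H'} (e : ∀ᶠ t in 𝓝 (0 : ℝ), W' t ψ' = A (W (r t) ψ)) :
    Gn W' ψ' (c • A k) := by
  have h1 : HasDerivAt (fun t => W t ψ) (I • k) (r 0) := r0.symm ▸ h
  have h2 := (A.restrictScalars ℝ).hasFDerivAt.comp_hasDerivAt 0 (h1.scomp 0 hr)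
  refine HasDerivAt.congr_of_eventuallyEq (h2.congr_deriv ?_) e
  rw [map_smul (A.restrictScalars ℝ), smul_comm I c]
  exact congrArg _ (A.map_smul I k)

lemma Gn.scale (h : Gn W ψ k) (A : H →L[ℂ] H') (c : ℝ) {ψ' : H'}
    (e : ∀ t, W' t ψ' = A (W (c * t) ψ)) : Gn W' ψ' (c • A k) :=
  h.reparam A (mul_zero c) (by simpa using (hasDerivAt_id (0 : ℝ)).const_mul c) (.of_forall e)

/-- bounded intertwiners -/
lemma Gn.map (h : Gn W ψ k) (A : H →L[ℂ] H') (e : ∀ t, W' t (A ψ) = A (W t ψ)) :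
    Gn W' (A ψ) (A k) := by
  simpa only [one_smul] using h.scale A 1 (W' := W') (ψ' := A ψ) (by simpa only [one_mul] using e)

lemma Gn.comm (h : Gn W ψ k) {A : H →L[ℂ] H} (e : ∀ t, A * W t = W t * A) : Gn W (A ψ) (A k) :=
  h.map A fun t => (DFunLike.congr_fun (e t) ψ).symm

lemma Dm.map (h : Dm W ψ) (A : H →L[ℂ] H') (e : ∀ t, W' t (A ψ) = A (W t ψ)) :
    Dm W' (A ψ) ∧ gen W' (A ψ) = A (gen W ψ) := gn_iff.1 (h.gn.map A e)

lemma Dm.comm (h : Dm W ψ) {A : H →L[ℂ] H} (e : ∀ t, A * W t = W t * A) :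
    Dm W (A ψ) ∧ gen W (A ψ) = A (gen W ψ) := gn_iff.1 (h.gn.comm e)

/-- antilinear intertwiners -/
lemma Gn.anti (h : Gn W ψ k) (J : H ≃ₗᵢ⋆[ℂ] H') (c : ℝ) {ψ' : H'}
    (e : ∀ t, W' t ψ' = J (W (c * t) ψ)) : Gn W' ψ' (-c • J k) := by
  let A : H →L[ℝ] H' := ⟨⟨⟨J, J.map_add⟩, fun r x => show J (r • x) = r • J x by
    rw [← Complex.coe_smul, map_smulₛₗ, Complex.conj_ofReal, Complex.coe_smul]⟩, J.continuous⟩
  have h1 : HasDerivAt (fun t => W t ψ) (I • k) (c * 0) := (mul_zero c).symm ▸ h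
  have h2 := A.hasFDerivAt.comp_hasDerivAt 0
    (h1.scomp 0 ((hasDerivAt_id (0 : ℝ)).const_mul c))
  refine HasDerivAt.congr_of_eventuallyEq (h2.congr_deriv ?_) (.of_forall e)
  rw [map_smul, mul_one]
  show c • J (I • k) = _
  rw [map_smulₛₗ, Complex.conj_I, neg_smul, neg_smul, smul_neg, smul_neg, smul_comm]

lemma Gn.anti_neg (h : Gn W ψ k) (J : H ≃ₗᵢ⋆[ℂ] H') (e : ∀ t, J (W t ψ) = W' (-t) (J ψ)) :
    Gn W' (J ψ) (J k) := by
  simpa using h.anti J (-1) (W' := W') (ψ' := J ψ) fun t => by rw [e, neg_one_mul, neg_neg]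

lemma Gn.anti_pos (h : Gn W ψ k) (J : H ≃ₗᵢ⋆[ℂ] H') (e : ∀ t, J (W t ψ) = W' t (J ψ)) :
    Gn W' (J ψ) (-J k) := by
  simpa using h.anti J 1 (W' := W') (ψ' := J ψ) fun t => by rw [e, one_mul]

/-- strong limits of bounded operators applied to convergent vectors -/
lemma tendsto_apply {ι : Type*} {l : Filter ι} {A : ι → H →L[ℂ] H'} {f : ι → H} {C : ℝ} {z : H'}
    (hA : ∀ᶠ i in l, ‖A i‖ ≤ C) (hf : Tendsto f l (𝓝 x)) (h : Tendsto (fun i => A i x) l (𝓝 z)) :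
    Tendsto (fun i => A i (f i)) l (𝓝 z) := by
  have h1 : Tendsto (fun i => A i (f i - x)) l (𝓝 0) :=
    squeeze_zero_norm' (hA.mono fun i hi => (A i).le_of_opNorm_le hi _)
      (by simpa using (tendsto_iff_norm_sub_tendsto_zero.1 hf).const_mul C)
  simpa using h1.add h

/-- the product rule for a strongly continuous bounded family -/
lemma hasDerivAt_apply {A : ℝ → H →L[ℂ] H'} {f : ℝ → H} {t₀ C : ℝ} {f' : H} {u : H'}
    (hA : ∀ᶠ t in 𝓝 t₀, ‖A t‖ ≤ C) (hc : ContinuousAt (fun t => A t f') t₀)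
    (hf : HasDerivAt f f' t₀) (h : HasDerivAt (fun t => A t (f t₀)) u t₀) :
    HasDerivAt (fun t => A t (f t)) (u + A t₀ f') t₀ := by
  rw [hasDerivAt_iff_tendsto_slope] at hf h ⊢
  refine (h.add (tendsto_apply (hA.filter_mono nhdsWithin_le_nhds) hf
    (hc.tendsto.mono_left nhdsWithin_le_nhds))).congr fun t => ?_
  simp only [slope_def_module, ContinuousLinearMap.map_smul_of_tower, map_sub, ← smul_add]
  congr 1
  abel

/-! ## strongly continuous unitary groups -/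

/-- strongly continuous one parameter unitary groups -/
abbrev UG (W : ℝ → H →L[ℂ] H) : Prop := SN.URep fun t z => W t z

lemma inner_unitary {A : H →L[ℂ] H} (h : A ∈ unitary (H →L[ℂ] H)) (v w : H) :
    inner ℂ (A v) (A w) = inner ℂ v w := by
  rw [← ContinuousLinearMap.adjoint_inner_right, ← ContinuousLinearMap.star_eq_adjoint,
    ← ContinuousLinearMap.mul_apply, (Unitary.mem_iff.1 h).1, ContinuousLinearMap.one_apply]

lemma UG.of (h0 : W 0 = 1) (ha : ∀ s t, W (s + t) = W s * W t)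
    (hu : ∀ t, W t ∈ unitary (H →L[ℂ] H)) (hc : ∀ z, Continuous fun t => W t z) : UG W :=
  ⟨fun v => by rw [h0]; rfl, fun s t v => by rw [ha]; rfl, fun t => inner_unitary (hu t), hc⟩

namespace UG

variable (g : UG W)
include g

lemma zero' : W 0 = 1 := ContinuousLinearMap.ext g.zero
lemma add' (s t : ℝ) : W (s + t) = W s * W t := ContinuousLinearMap.ext (g.add s t)
lemma nrm (t : ℝ) (v : H) : ‖W t v‖ = ‖v‖ := g.norm t v
lemma adj' (t : ℝ) (v w : H) : inner ℂ v (W t w) = inner ℂ (W (-t) v) w := by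
  rw [g.adj, neg_neg]
lemma opn (t : ℝ) : ‖W t‖ ≤ 1 :=
  ContinuousLinearMap.opNorm_le_bound _ zero_le_one fun v => by rw [g.nrm, one_mul]
lemma star_eq (t : ℝ) : star (W t) = W (-t) := by
  rw [ContinuousLinearMap.star_eq_adjoint, eq_comm, ContinuousLinearMap.eq_adjoint_iff]
  exact fun x y => (g.adj' t x y).symm
lemma mul_inv (t : ℝ) : W t * W (-t) = 1 := by rw [← g.add', add_neg_cancel, g.zero']
lemma inv_mul (t : ℝ) : W (-t) * W t = 1 := by rw [← g.add', neg_add_cancel, g.zero']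
lemma uni (t : ℝ) : W t ∈ unitary (H →L[ℂ] H) :=
  Unitary.mem_iff.2 ⟨by rw [g.star_eq, g.inv_mul], by rw [g.star_eq, g.mul_inv]⟩

lemma tendsto {ι : Type*} {l : Filter ι} {r : ι → ℝ} {f : ι → H} {t : ℝ} (hr : Tendsto r l (𝓝 t))
    (hf : Tendsto f l (𝓝 x)) : Tendsto (fun i => W (r i) (f i)) l (𝓝 (W t x)) :=
  tendsto_apply (.of_forall fun i => g.opn _) hf (((g.cont x).tendsto t).comp hr)

lemma cont' {X : Type*} [TopologicalSpace X] {r : X → ℝ} {f : X → H} (hr : Continuous r)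
    (hf : Continuous f) : Continuous fun i => W (r i) (f i) :=
  continuous_iff_continuousAt.2 fun _ => g.tendsto hr.continuousAt hf.continuousAt

lemma scale (c : ℝ) : UG fun t => W (c * t) :=
  g.comp (A := fun t => c * t) (mul_add c) (by fun_prop)

lemma neg : UG fun t => W (-t) := g.comp (A := fun t => -t) neg_add continuous_neg

lemma cj {A : H →L[ℂ] H} (h : A ∈ unitary (H →L[ℂ] H)) : UG fun t => A * W t * star A :=
  SN.URep.conj g (W := A) (W' := (star A : H →L[ℂ] H))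
    (fun v => DFunLike.congr_fun (Unitary.mem_iff.1 h).2 v)
    (fun v => DFunLike.congr_fun (Unitary.mem_iff.1 h).1 v) A.continuous (.inl (inner_unitary h))

lemma mul (g' : UG W₁) (h : ∀ s t, W s * W₁ t = W₁ t * W s) : UG fun t => W t * W₁ t :=
  (SN.URep.prod g g' fun s t v => DFunLike.congr_fun (h s t) v).comp (A := fun t => (t, t))
    (fun _ _ => rfl) (by fun_prop)

lemma shift (h : Gn W ψ k) (s : ℝ) : Gn W (W s ψ) (W s k) := h.map (W s) fun t => g.comm t s ψ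

lemma dm_shift (h : Dm W ψ) (s : ℝ) : Dm W (W s ψ) := (g.shift h.gn s).dm

lemma gen_shift (h : Dm W ψ) (s : ℝ) : gen W (W s ψ) = W s (gen W ψ) := (g.shift h.gn s).gen_eq

lemma hasDerivAt (h : Gn W ψ k) (s : ℝ) : HasDerivAt (fun t => W t ψ) (I • W s k) s := by
  have h1 : HasDerivAt (fun t => W t (W s ψ)) (I • W s k) (s - s) :=
    (sub_self s).symm ▸ g.shift h s
  refine (h1.comp_sub_const s s).congr_of_eventuallyEq (.of_forall fun t => ?_)
  show _ = W (t - s) (W s ψ)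
  rw [← g.add, sub_add_cancel]

/-- the product rule: `d/dt W (r t) (f t)` -/
lemma hasDerivAt_comp {r : ℝ → ℝ} {f : ℝ → H} {t r' : ℝ} {f' : H} (hr : HasDerivAt r r' t)
    (hf : HasDerivAt f f' t) (h : Gn W (f t) k) :
    HasDerivAt (fun t => W (r t) (f t)) (r' • I • W (r t) k + W (r t) f') t :=
  hasDerivAt_apply (A := fun t => W (r t)) (.of_forall fun _ => g.opn _)
    ((g.cont f').continuousAt.comp hr.continuousAt) hf ((g.hasDerivAt h _).scomp t hr)

/-- products of groups -/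
lemma gn_mul (h : Gn W ψ k) (h0 : W₁ 0 ψ = ψ) (h' : Gn W₁ ψ m) :
    Gn (fun t => W t * W₁ t) ψ (k + m) := by
  have := g.hasDerivAt_comp (hasDerivAt_id 0) h' (h0.symm ▸ h)
  simp only [id, g.zero, one_smul, ← smul_add] at this
  exact this

/-- symmetry -/
lemma symm (h : Gn W x a) (h' : Gn W y b) : inner ℂ x b = inner ℂ a y := by
  have h1 := HasDerivAt.inner ℂ h h'
  simp only [g.inn, g.zero, inner_smul_left, inner_smul_right, Complex.conj_I] at h1
  have h2 := h1.unique (hasDerivAt_const _ _)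
  exact mul_left_cancel₀ Complex.I_ne_zero (by linear_combination h2)

lemma im_zero (h : Gn W x a) : (inner ℂ x a).im = 0 :=
  Complex.conj_eq_iff_im.1 (by rw [inner_conj_symm, g.symm h h])

lemma integral_eq (h : Gn W ψ k) (s t : ℝ) : ∫ r in s..t, I • W r k = W t ψ - W s ψ :=
  intervalIntegral.integral_eq_sub_of_hasDerivAt (fun r _ => g.hasDerivAt h r)
    (((g.cont k).const_smul I).intervalIntegrable _ _)

lemma lip (h : Gn W ψ k) (t : ℝ) : ‖W t ψ - ψ‖ ≤ ‖k‖ * |t| := by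
  have := intervalIntegral.norm_integral_le_of_norm_le_const (a := 0) (b := t) (C := ‖k‖)
    (f := fun r => I • W r k) fun r _ => by rw [norm_smul, Complex.norm_I, one_mul, g.nrm]
  rwa [g.integral_eq h, g.zero, sub_zero] at this

lemma lip' (h : Gn W ψ k) (s t : ℝ) : ‖W t ψ - W s ψ‖ ≤ ‖k‖ * |t - s| := by
  have := g.lip (g.shift h s) (t - s)
  rwa [← g.add, sub_add_cancel, g.nrm] at this

lemma gn_of_integral (h : ∀ᶠ t in 𝓝 (0 : ℝ), W t ψ - ψ = ∫ r in (0 : ℝ)..t, I • W r k) :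
    Gn W ψ k := by
  have h1 := (Continuous.integral_hasStrictDerivAt (f := fun r => I • W r k)
    ((g.cont k).const_smul I) 0 0).hasDerivAt.add_const ψ
  rw [g.zero] at h1
  exact h1.congr_of_eventuallyEq (h.mono fun t e => eq_add_of_sub_eq e)

/-- the spectral calculus of the generator -/
lemma exC : Nonempty (SN.BC (fun p t : ℝ => p * t) fun t z => W t z) :=
  SN.exists_BC SN.isPair_mul g

lemma dm_of_lip {K : ℝ} (h : ∃ᶠ t : ℝ in 𝓝[≠] 0, ‖W t ψ - ψ‖ ≤ K * |t|) :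
    Dm W ψ ∧ ‖gen W ψ‖ ≤ K := by
  obtain ⟨C⟩ := g.exC
  obtain ⟨a, b⟩ := C.dom_of_lip₁ h
  have : Gn W ψ _ := C.hasDerivAt_iff₁.2 ⟨a, rfl⟩
  exact ⟨this.dm, this.gen_eq ▸ b⟩

lemma dm_of_lip_pos {K δ : ℝ} (hδ : 0 < δ) (h : ∀ t ∈ Set.Ioo 0 δ, ‖W t ψ - ψ‖ ≤ K * t) :
    Dm W ψ ∧ ‖gen W ψ‖ ≤ K :=
  g.dm_of_lip ((Eventually.frequently (by
    filter_upwards [Ioo_mem_nhdsGT hδ] with t ht
    rw [abs_of_pos ht.1]
    exact h t ht)).filter_mono (nhdsGT_le_nhdsNE 0))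

/-- one sided derivatives, or derivatives along a sequence -/
lemma gn_of_slope {l : Filter ℝ} [l.NeBot] (hl : l ≤ 𝓝[≠] 0)
    (h : Tendsto (fun t : ℝ => t⁻¹ • (W t ψ - ψ)) l (𝓝 (I • k))) : Gn W ψ k := by
  obtain ⟨C⟩ := g.exC
  obtain ⟨a, b⟩ := C.dom_of_slope SN.isPair_mul (y := 1) (v := ψ) hl
    (by simpa only [smul_eq_mul, mul_one] using h)
  simp only [mul_one] at a b
  exact C.hasDerivAt_iff₁.2 ⟨a, (smul_right_injective H Complex.I_ne_zero b).symm⟩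

lemma dense : Dense {ψ | Dm W ψ} := fun ψ => by
  obtain ⟨C⟩ := g.exC
  have hm : Measurable fun p : ℝ => (p : ℂ) := Complex.measurable_ofReal
  have hA : ∀ n : ℕ, MeasurableSet {p : ℝ | ‖(p : ℂ)‖ ≤ n} := SN.Calc.trunc_set hm
  have h1 := C.tendsto_Phi (l := atTop) (v := ψ) (fun n => SN.Bd.ind (hA n)) (SN.Bd.const 1)
    (K := 1) (.of_forall fun n => .of_forall fun p => (norm_indicator_le_norm_self _ _).trans
      (by simp)) (.of_forall fun p => tendsto_const_nhds.congr' (by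
        filter_upwards [tendsto_natCast_atTop_atTop.eventually_ge_atTop ‖(p : ℂ)‖] with n hn
        exact (Set.indicator_of_mem (s := {p : ℝ | ‖(p : ℂ)‖ ≤ n}) hn fun _ => (1 : ℂ)).symm))
  rw [C.one, ContinuousLinearMap.one_apply] at h1
  refine mem_closure_of_tendsto h1 (.of_forall fun n => Gn.dm (C.hasDerivAt_iff₁.2 ⟨?_, rfl⟩))
  rw [SN.Calc.dom_Phi (SN.Bd.ind (hA n)) hm]
  convert SN.Calc.Dom.of_bd (SN.Calc.trunc_bd hm n) ψ using 2 with p
  by_cases h : ‖(p : ℂ)‖ ≤ n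
  · rw [SN.Calc.trunc, Set.indicator_of_mem (by exact h), Set.indicator_of_mem (by exact h), mul_one]
  · rw [SN.Calc.trunc, Set.indicator_of_notMem (by exact h), Set.indicator_of_notMem (by exact h),
      mul_zero]

/-- self adjointness, tested on an invariant dense subset of the domain -/
lemma weak_on {S : Set H} (hS : Dense S) (hi : ∀ t, ∀ y ∈ S, W t y ∈ S) (hd : ∀ y ∈ S, Dm W y)
    (h : ∀ y ∈ S, inner ℂ y k = inner ℂ (gen W y) ψ) : Gn W ψ k := by
  refine g.gn_of_integral (.of_forall fun t => hS.eq_of_inner_right ℂ fun y hy => ?_)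
  have hc : IntervalIntegrable (fun r => I • W r k) volume 0 t :=
    ((g.cont k).const_smul I).intervalIntegrable 0 t
  rw [← innerSL_apply_apply (𝕜 := ℂ) y (∫ r in (0 : ℝ)..t, _),
    ← (innerSL ℂ y).intervalIntegral_comp_comm hc, intervalIntegral.integral_eq_sub_of_hasDerivAt
      (f := fun r => inner ℂ (W (-r) y) ψ) (f' := fun r => innerSL ℂ y (I • W r k)) (fun r _ => ?_)
      (((innerSL ℂ y).continuous.comp ((g.cont k).const_smul I)).intervalIntegrable _ _), neg_zero,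
    g.zero, inner_sub_right, g.adj']
  have h1 := (((g.hasDerivAt (hd y hy).gn (-r)).scomp r (hasDerivAt_neg r)).inner ℂ
    (hasDerivAt_const r ψ))
  refine h1.congr_deriv ?_
  rw [inner_zero_right, zero_add, innerSL_apply_apply, inner_smul_right, g.adj', h _ (hi _ y hy),
    g.gen_shift (hd y hy), neg_one_smul, inner_neg_left, inner_smul_left, Complex.conj_I, neg_mul,
    neg_neg]

/-- self adjointness -/
lemma weak (h : ∀ y b, Gn W y b → inner ℂ y k = inner ℂ b ψ) : Gn W ψ k :=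
  g.weak_on g.dense (fun t _ h => g.dm_shift h t) (fun _ h => h) fun y hy => h y _ hy.gn

end UG

end

end Vale.Agent.P352X
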