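import Vale.Agent.P352X.Api1

/-!
# P352X, row API1: closedness, integrals, cores, commutation, positive generators
-/

set_option linter.all false

open MeasureTheory Filter Topology
open scoped ComplexConjugate

namespace Vale.Agent.P352X

open Complex (I)

noncomputable section

variable {H : Type*} [NormedAddCommGroup H] [InnerProductSpace ℂ H] [CompleteSpace H]
  {W W₁ : ℝ → H →L[ℂ] H} {ψ φ k m x y a b : H}

/-- weak convergence -/
def WT {ι : Type*} (l : Filter ι) (f : ι → H) (x : H) : Prop :=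
  ∀ y, Tendsto (fun i => inner ℂ y (f i)) l (𝓝 (inner ℂ y x))

section weak

variable {ι : Type*} {l : Filter ι} {f f' : ι → H}

lemma WT.of (h : Tendsto f l (𝓝 x)) : WT l f x := fun _ => tendsto_const_nhds.inner h

lemma WT.left (h : WT l f x) (y : H) : Tendsto (fun i => inner ℂ (f i) y) l (𝓝 (inner ℂ x y)) := by
  simpa only [Function.comp_def, inner_conj_symm] using (Complex.continuous_conj.tendsto _).comp (h y)

lemma WT.map (h : WT l f x) (A : H →L[ℂ] H) : WT l (fun i => A (f i)) (A x) := fun y => by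
  simpa only [ContinuousLinearMap.adjoint_inner_left] using h (ContinuousLinearMap.adjoint A y)

lemma WT.add (h : WT l f x) (h' : WT l f' y) : WT l (fun i => f i + f' i) (x + y) := fun z => by
  simpa only [inner_add_right] using (h z).add (h' z)

lemma WT.sub (h : WT l f x) (h' : WT l f' y) : WT l (fun i => f i - f' i) (x - y) := fun z => by
  simpa only [inner_sub_right] using (h z).sub (h' z)

lemma WT.smul (c : ℂ) (h : WT l f x) : WT l (fun i => c • f i) (c • x) := fun z => by
  simpa only [inner_smul_right] using (h z).const_mul c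

lemma WT.unique [l.NeBot] (h : WT l f x) (h' : WT l f y) : x = y :=
  ext_inner_left ℂ fun z => tendsto_nhds_unique (h z) (h' z)

lemma WT.norm_le (h : WT l f x) {C : ℝ} (hC : ∃ᶠ i in l, ‖f i‖ ≤ C) : ‖x‖ ≤ C := by
  have h1 : ‖inner ℂ x x‖ ≤ ‖x‖ * C := le_of_tendsto_of_frequently (h x).norm
    (hC.mono fun i hi => (norm_inner_le_norm _ _).trans (mul_le_mul_of_nonneg_left hi
      (norm_nonneg _)))
  rw [inner_self_eq_norm_sq_to_K, norm_pow, RCLike.norm_ofReal, abs_norm, sq] at h1
  rcases (norm_nonneg x).eq_or_lt with e | e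
  · exact e ▸ hC.exists.elim fun i hi => (norm_nonneg _).trans hi
  · exact le_of_mul_le_mul_left h1 e

/-- bounded families that converge weakly on a dense set -/
lemma wt_of_dense {S : Set H} (hS : Dense S) {C : ℝ} (hC : ∀ᶠ i in l, ‖f i‖ ≤ C)
    (h : ∀ y ∈ S, Tendsto (fun i => inner ℂ y (f i)) l (𝓝 (inner ℂ y x))) : WT l f x := fun y => by
  refine Metric.tendsto_nhds.2 fun ε hε => ?_
  have p : 0 < |C| + ‖x‖ + 1 := by positivity
  obtain ⟨z, z1, z2⟩ := Metric.mem_closure_iff.1 (hS y) _ (div_pos (half_pos hε) p)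
  filter_upwards [hC, Metric.tendsto_nhds.1 (h z z1) _ (half_pos hε)] with i h1 h2
  rw [dist_eq_norm] at z2 h2 ⊢
  have e : inner ℂ y (f i) - inner ℂ y x = inner ℂ (y - z) (f i - x) +
      (inner ℂ z (f i) - inner ℂ z x) := by
    simp only [inner_sub_left, inner_sub_right]
    ring
  have h3 := (norm_inner_le_norm (𝕜 := ℂ) (y - z) (f i - x)).trans (mul_le_mul_of_nonneg_left
    ((norm_sub_le _ _).trans (add_le_add (h1.trans (le_abs_self C)) le_rfl)) (norm_nonneg _))
  rw [lt_div_iff₀ p] at z2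
  rw [e]
  linarith [norm_add_le (inner ℂ (y - z) (f i - x)) (inner ℂ z (f i) - inner ℂ z x),
    norm_nonneg (y - z)]

end weak

namespace UG

variable (g : UG W)
include g

/-- closedness, for weak limits -/
lemma closed_weak {ι : Type*} {l : Filter ι} [l.NeBot] {f u : ι → H}
    (h : ∀ᶠ i in l, Gn W (f i) (u i)) (hf : WT l f ψ) (hu : WT l u k) : Gn W ψ k :=
  g.weak fun y b hy => tendsto_nhds_unique (hu y) ((hf b).congr' (h.mono fun _ q =>
    (g.symm hy q).symm))

lemma closed {ι : Type*} {l : Filter ι} [l.NeBot] {f u : ι → H}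
    (h : ∀ᶠ i in l, Gn W (f i) (u i)) (hf : Tendsto f l (𝓝 ψ)) (hu : Tendsto u l (𝓝 k)) :
    Gn W ψ k := g.closed_weak h (.of hf) (.of hu)

lemma isClosed : IsClosed {p : H × H | Gn W p.1 p.2} :=
  isClosed_iff_forall_filter.2 fun _ _ _ h h' => g.closed (le_principal_iff.1 h)
    ((continuous_fst.tendsto _).mono_left h') ((continuous_snd.tendsto _).mono_left h')

/-- limits with bounded generators -/
lemma closed_bdd {ι : Type*} {l : Filter ι} {f : ι → H} {C : ℝ}
    (h : ∃ᶠ i in l, Dm W (f i) ∧ ‖gen W (f i)‖ ≤ C) (hf : WT l f ψ) :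
    Dm W ψ ∧ ‖gen W ψ‖ ≤ C :=
  g.dm_of_lip (Eventually.frequently (.of_forall fun t => ((hf.map (W t)).sub hf).norm_le
    (h.mono fun _ q => (g.lip q.1.gn t).trans (mul_le_mul_of_nonneg_right q.2 (abs_nonneg t)))))

lemma wt_gen {ι : Type*} {l : Filter ι} {f u : ι → H} {C : ℝ} (h : ∀ᶠ i in l, Gn W (f i) (u i))
    (hC : ∀ᶠ i in l, ‖u i‖ ≤ C) (hf : WT l f ψ) (hk : Gn W ψ k) : WT l u k :=
  wt_of_dense g.dense hC fun y hy => by
    rw [g.symm hy.gn hk]
    exact (hf _).congr' (h.mono fun _ q => (g.symm hy.gn q).symm)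

/-- Bochner integrals -/
lemma integral {X : Type*} [MeasurableSpace X] {μ : Measure X} {f u : X → H}
    (hf : Integrable f μ) (hu : Integrable u μ) (h : ∀ᵐ s ∂μ, Gn W (f s) (u s)) :
    Gn W (∫ s, f s ∂μ) (∫ s, u s ∂μ) := g.weak fun y b hy => by
  rw [← integral_inner hu, ← integral_inner hf]
  exact integral_congr_ae (h.mono fun _ q => g.symm hy q)

lemma intervalIntegral {f u : ℝ → H} {s t : ℝ} (hf : IntervalIntegrable f volume s t)
    (hu : IntervalIntegrable u volume s t) (h : ∀ r ∈ Set.uIcc s t, Gn W (f r) (u r)) :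
    Gn W (∫ r in s..t, f r) (∫ r in s..t, u r) := g.weak fun y b hy => by
  rw [← innerSL_apply_apply (𝕜 := ℂ), ← innerSL_apply_apply (𝕜 := ℂ),
    ← (innerSL ℂ y).intervalIntegral_comp_comm hu, ← (innerSL ℂ b).intervalIntegral_comp_comm hf]
  exact intervalIntegral.integral_congr fun r hr => g.symm hy (h r hr)

/-- integrals, when only a bound for the generators is known -/
lemma integral_bdd {X : Type*} [MeasurableSpace X] {μ : Measure X} {f : X → H} {c : X → ℝ}
    (hf : Integrable f μ) (hc : Integrable c μ) (h : ∀ᵐ s ∂μ, Dm W (f s) ∧ ‖gen W (f s)‖ ≤ c s) :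
    Dm W (∫ s, f s ∂μ) ∧ ‖gen W (∫ s, f s ∂μ)‖ ≤ ∫ s, c s ∂μ :=
  g.dm_of_lip (Eventually.frequently (.of_forall fun t => by
    rw [← (W t).integral_comp_comm hf, ← integral_sub ((W t).integrable_comp hf) hf,
      ← integral_mul_const]
    exact norm_integral_le_of_norm_le (hc.mul_const _) (h.mono fun _ q =>
      (g.lip q.1.gn t).trans (mul_le_mul_of_nonneg_right q.2 (abs_nonneg t)))))

lemma hasSum {ι : Type*} {f u : ι → H} (hf : HasSum f ψ) (hu : HasSum u k)
    (h : ∀ i, Gn W (f i) (u i)) : Gn W ψ k :=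
  g.closed (.of_forall fun s => Gn.sum s fun i _ => h i) hf hu

/-- averages along the group, on an interval -/
lemma smear_int {u u' : ℝ → ℂ} {s t : ℝ} (hu : ∀ r ∈ Set.uIcc s t, HasDerivAt u (u' r) r)
    (hu' : ContinuousOn u' (Set.uIcc s t)) (ψ : H) : Gn W (∫ r in s..t, u r • W r ψ)
      (-I • (u t • W t ψ - u s • W s ψ - ∫ r in s..t, u' r • W r ψ)) := g.weak fun y b hy => by
  have c0 : ContinuousOn u (Set.uIcc s t) := fun r hr => (hu r hr).continuousAt.continuousWithinAt
  have i1 : IntervalIntegrable (fun r => u r • W r ψ) volume s t :=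
    (c0.smul (g.cont ψ).continuousOn).intervalIntegrable
  have i2 : IntervalIntegrable (fun r => u' r • W r ψ) volume s t :=
    (hu'.smul (g.cont ψ).continuousOn).intervalIntegrable
  have d : ∀ r, HasDerivAt (fun r => inner ℂ y (W r ψ)) (I * inner ℂ b (W r ψ)) r := fun r => by
    have h1 := ((g.hasDerivAt hy (-r)).scomp r (hasDerivAt_neg r)).inner ℂ (hasDerivAt_const r ψ)
    simp only [g.adj']
    refine h1.congr_deriv ?_
    rw [inner_zero_right, zero_add, neg_one_smul, inner_neg_left, inner_smul_left, Complex.conj_I,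
      neg_mul, neg_neg]
  have e := intervalIntegral.integral_mul_deriv_eq_deriv_mul hu (fun r _ => d r)
    hu'.intervalIntegrable ((continuous_const.mul (continuous_const.inner (g.cont ψ))).intervalIntegrable _ _)
  rw [inner_smul_right, inner_sub_right, inner_sub_right, inner_smul_right, inner_smul_right,
    ← innerSL_apply_apply (𝕜 := ℂ) y (∫ r in s..t, _), ← innerSL_apply_apply (𝕜 := ℂ) b (∫ r in s..t, _),
    ← (innerSL ℂ y).intervalIntegral_comp_comm i2, ← (innerSL ℂ b).intervalIntegral_comp_comm i1]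
  simp only [innerSL_apply_apply, inner_smul_right, Pi.smul_apply']
  rw [← e, ← intervalIntegral.integral_const_mul]
  exact intervalIntegral.integral_congr fun r _ => by
    simp only [← mul_assoc, mul_comm (u r)]
    rw [neg_mul, Complex.I_mul_I, neg_neg, one_mul]

lemma integrable_smul {u : ℝ → ℂ} (hu : Integrable u) (ψ : H) :
    Integrable fun r => u r • W r ψ :=
  (hu.norm.mul_const ‖ψ‖).mono' (hu.1.smul (g.cont ψ).aestronglyMeasurable)
    (.of_forall fun r => by rw [norm_smul, g.nrm])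

/-- averages along the group -/
lemma smear {u u' : ℝ → ℂ} (hu : ∀ r, HasDerivAt u (u' r) r) (i : Integrable u)
    (i' : Integrable u') (ψ : H) : Gn W (∫ r, u r • W r ψ) (I • ∫ r, u' r • W r ψ) :=
  g.weak fun y b hy => by
  have d : ∀ r, HasDerivAt (fun r => inner ℂ y (W r ψ)) (I * inner ℂ b (W r ψ)) r := fun r => by
    have h1 := ((g.hasDerivAt hy (-r)).scomp r (hasDerivAt_neg r)).inner ℂ (hasDerivAt_const r ψ)
    simp only [g.adj']
    refine h1.congr_deriv ?_
    rw [inner_zero_right, zero_add, neg_one_smul, inner_neg_left, inner_smul_left, Complex.conj_I,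
      neg_mul, neg_neg]
  have j : ∀ {u : ℝ → ℂ} (z : H), Integrable u → Integrable fun r => u r * inner ℂ z (W r ψ) :=
    fun z i => by simpa only [inner_smul_right] using (g.integrable_smul i ψ).const_inner (𝕜 := ℂ) z
  have e := integral_mul_deriv_eq_deriv_mul_of_integrable (fun r _ => hu r) (fun r _ => d r)
    (by simpa only [Pi.mul_def, mul_left_comm _ I] using (j b i).const_mul I) (j y i') (j y i)
  rw [inner_smul_right, ← integral_inner (g.integrable_smul i' ψ),
    ← integral_inner (g.integrable_smul i ψ)]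
  simp only [inner_smul_right, mul_left_comm _ I, integral_const_mul] at e ⊢
  rw [← neg_eq_iff_eq_neg.2 e, mul_neg, ← mul_assoc, Complex.I_mul_I, neg_one_mul, neg_neg]

/-- invariant subspaces of the domain are cores -/
lemma core {D : Submodule ℂ H} (hD : ∀ t, ∀ v ∈ D, W t v ∈ D) (hd : ∀ v ∈ D, Dm W v)
    (h : Gn W ψ k) (hc : ψ ∈ closure (D : Set H)) : ∃ u : ℕ → H, (∀ n, u n ∈ D) ∧
      Tendsto u atTop (𝓝 ψ) ∧ Tendsto (fun n => gen W (u n)) atTop (𝓝 k) := by
  obtain ⟨C⟩ := g.exC
  obtain ⟨a, rfl⟩ := C.hasDerivAt_iff₁.1 h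
  obtain ⟨u, u1, u2, u3⟩ := C.core SN.isPair_mul hD
    (fun v hv => (C.hasDerivAt_iff₁.1 (hd v hv).gn).1) a hc
  exact ⟨u, u1, u2, u3.congr fun n => (C.hasDerivAt_iff₁.1 (hd _ (u1 n)).gn).2⟩

/-- the generators of commuting groups commute -/
lemma gen_comm (g₁ : UG W₁) (h : ∀ s t, W₁ s * W t = W t * W₁ s) (ha : Gn W ψ a) (hb : Gn W₁ ψ b)
    (hk : Gn W b k) : Gn W₁ a k := by
  refine g₁.gn_of_integral (.of_forall fun s => ?_)
  have h1 := g.intervalIntegral (s := 0) (t := s) (f := fun r => I • W₁ r b)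
    (u := fun r => I • W₁ r k) (((g₁.cont b).const_smul I).intervalIntegrable _ _)
    (((g₁.cont k).const_smul I).intervalIntegrable _ _) fun r _ => (hk.comm (h r)).smul I
  rw [g₁.integral_eq hb, g₁.zero] at h1
  exact ((ha.comm (h s)).sub ha).unique h1

section scal

variable (g₁ : UG W₁) {c : ℝ} (h : ∀ s t, W₁ s * W t = W (Real.exp (c * s) * t) * W₁ s)
include g₁ h

omit g g₁ in
/-- scaling relations: `W₁ s` preserves the domain of the generator of `W` -/
lemma scal_gn (ha : Gn W ψ a) (s : ℝ) : Gn W (W₁ s ψ) (Real.exp (-(c * s)) • W₁ s a) :=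
  ha.scale (W₁ s) _ fun t => by
    have := DFunLike.congr_fun (h s (Real.exp (-(c * s)) * t)) ψ
    rw [← mul_assoc, ← Real.exp_add, add_neg_cancel, Real.exp_zero, one_mul] at this
    exact this.symm

/-- scaling relations: `W t` preserves the common domain -/
lemma scal_shift (ha : Gn W ψ a) (hb : Gn W₁ ψ b) (t : ℝ) :
    Gn W₁ (W t ψ) (W t b + (c * t) • W t a) := by
  have h1 := g.hasDerivAt_comp (r := fun s => Real.exp (c * s) * t) (f := fun s => W₁ s ψ)
    (((hasDerivAt_id (0 : ℝ)).const_mul c).exp.mul_const t) hb (by rwa [g₁.zero])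
  simp only [id, mul_zero, Real.exp_zero, one_mul, mul_one] at h1
  refine HasDerivAt.congr_of_eventuallyEq (h1.congr_deriv ?_)
    (.of_forall fun s => DFunLike.congr_fun (h s t) ψ)
  rw [map_smul, smul_add, add_comm, smul_comm]

/-- scaling relations: `B A = A B - i c A` -/
lemma scal_comm (ha : Gn W ψ a) (hb : Gn W₁ ψ b) (hk : Gn W b k) :
    Gn W₁ a (k - (I * c) • a) := by
  have c1 : Continuous fun r => I • Real.exp (-(c * r)) • W₁ r k :=
    ((by fun_prop : Continuous fun r => Real.exp (-(c * r))).smul (g₁.cont k)).const_smul I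
  have e : ∀ s, W₁ s a = Real.exp (c * s) •
      ((∫ r in (0 : ℝ)..s, I • Real.exp (-(c * r)) • W₁ r k) + a) := fun s => by
    have h1 := g.intervalIntegral (s := 0) (t := s) (f := fun r => I • W₁ r b)
      (((g₁.cont b).const_smul I).intervalIntegrable _ _) (c1.intervalIntegrable _ _)
      fun r _ => (scal_gn h hk r).smul I
    rw [g₁.integral_eq hb, g₁.zero] at h1
    rw [← ((scal_gn h ha s).sub ha).unique h1, sub_add_cancel, smul_smul, ← Real.exp_add,
      add_neg_cancel, Real.exp_zero, one_smul]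
  have h2 := ((hasDerivAt_id (0 : ℝ)).const_mul c).exp.fun_smul
    ((c1.integral_hasStrictDerivAt 0 0).hasDerivAt.add_const a)
  refine HasDerivAt.congr_of_eventuallyEq (h2.congr_deriv ?_) (.of_forall e)
  simp only [id, mul_zero, neg_zero, Real.exp_zero, one_smul, one_mul, mul_one, g₁.zero,
    intervalIntegral.integral_same, zero_add, smul_sub, smul_smul, ← mul_assoc, Complex.I_mul_I,
    neg_one_mul, neg_smul, sub_neg_eq_add, Complex.coe_smul]

/-- scaling relations: `A B = B A + i c A` -/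
lemma scal_comm' (ha : Gn W ψ a) (hb : Gn W₁ ψ b) (hk : Gn W₁ a k) (hm : Gn W a m) :
    Gn W b (k + (I * c) • a) := by
  have c1 : Continuous fun r => I • (W r k + (c * r) • W r m) :=
    ((g.cont k).add ((by fun_prop : Continuous fun r => c * r).smul (g.cont m))).const_smul I
  have e : ∀ t, W t b = (∫ r in (0 : ℝ)..t, I • (W r k + (c * r) • W r m)) + b - (c * t) • W t a :=
    fun t => by
    have h1 := g₁.intervalIntegral (s := 0) (t := t) (f := fun r => I • W r a)
      (((g.cont a).const_smul I).intervalIntegrable _ _) (c1.intervalIntegrable _ _)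
      fun r _ => (g.scal_shift g₁ h hm hk r).smul I
    rw [g.integral_eq ha, g.zero] at h1
    rw [← ((g.scal_shift g₁ h ha hb t).sub hb).unique h1]
    abel
  have h2 := ((c1.integral_hasStrictDerivAt 0 0).hasDerivAt.add_const b).fun_sub
    (((hasDerivAt_id (0 : ℝ)).const_mul c).fun_smul (g.hasDerivAt hm 0))
  refine HasDerivAt.congr_of_eventuallyEq (h2.congr_deriv ?_) (.of_forall e)
  simp only [id, mul_zero, zero_smul, add_zero, zero_add, mul_one, g.zero, smul_add, smul_smul,
    ← mul_assoc, Complex.I_mul_I, neg_one_mul, neg_smul, Complex.coe_smul, sub_eq_add_neg]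

end scal

section pos

variable (pos : ∀ z w, Gn W z w → 0 ≤ (inner ℂ z w).re)
include pos

/-- positive generators -/
lemma sq_lip (h : Gn W ψ k) {t : ℝ} (ht : 0 ≤ t) : ‖W t ψ - ψ‖ ^ 2 ≤ 2 * t * (inner ℂ ψ k).re := by
  obtain ⟨C⟩ := g.exC
  obtain ⟨a, rfl⟩ := C.hasDerivAt_iff₁.1 h
  have p := C.ae_nonneg₁ pos ψ
  have hb := SN.isPair_mul.bd t
  have e := C.dist_sq hb (SN.Bd.const 1) ψ
  rw [C.one, C.Phi_ch, ContinuousLinearMap.one_apply] at e
  rw [e, SN.Calc.inner_Psi_self a, integral_complex_ofReal, Complex.ofReal_re, ← integral_const_mul]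
  refine integral_mono_of_nonneg (.of_forall fun _ => sq_nonneg _)
    ((a.integrable.re.congr (.of_forall fun _ => by simp)).const_mul _) (p.mono fun r hr => ?_)
  have h1 := SN.Calc.norm_expI_sub r 0 t
  rw [zero_mul, Complex.ofReal_zero, mul_zero, Complex.exp_zero, sub_zero, abs_of_nonneg hr,
    abs_of_nonneg ht, mul_comm t r] at h1
  have h2 := (norm_sub_le (SN.ch (fun p t : ℝ => p * t) t r) 1).trans_eq
    (by rw [SN.norm_ch, norm_one])
  exact ((sq _).trans_le (mul_le_mul h2 h1 (norm_nonneg _) (by norm_num))).trans_eq (by ring)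

/-- the inequality of Cauchy and Schwarz for the form of a positive generator -/
lemma form_cs (hx : Gn W x a) (hy : Gn W y b) :
    ‖inner ℂ x b‖ ^ 2 ≤ (inner ℂ x a).re * (inner ℂ y b).re := by
  have key : ∀ c : ℂ, 0 ≤ ‖c‖ ^ 2 * (inner ℂ x a).re + 2 * (conj c * inner ℂ x b).re +
      (inner ℂ y b).re := fun c => by
    have := pos _ _ ((hx.smul c).add hy)
    rw [inner_add_left, inner_add_right, inner_add_right, inner_smul_left, inner_smul_left,
      inner_smul_right, inner_smul_right, ← mul_assoc, SN.conj_mul_self, ← inner_conj_symm y a,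
      ← g.symm hx hy] at this
    simp only [Complex.add_re, Complex.mul_re, Complex.ofReal_re, Complex.ofReal_im,
      Complex.conj_re, Complex.conj_im] at this ⊢
    linarith
  have := discrim_le_zero (a := ‖inner ℂ x b‖ ^ 2 * (inner ℂ x a).re) (b := 2 * ‖inner ℂ x b‖ ^ 2)
    (c := (inner ℂ y b).re) fun r => by
      have := key (r * inner ℂ x b)
      rw [map_mul, Complex.conj_ofReal, mul_assoc (r : ℂ), SN.conj_mul_self, norm_mul, mul_pow,
        Complex.norm_real, Real.norm_eq_abs, sq_abs, ← Complex.ofReal_mul, Complex.ofReal_re] at this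
      linarith
  rw [discrim] at this
  rcases (sq_nonneg ‖inner ℂ x b‖).eq_or_lt with e | e
  · exact e ▸ mul_nonneg (pos _ _ hx) (pos _ _ hy)
  · exact le_of_mul_le_mul_left (by linarith) e

end pos

end UG

/-- the generator along a direction of a representation with a spectral calculus -/
lemma gn_iff_bc {X Y : Type*} [MeasurableSpace X] [AddCommGroup Y] [Module ℝ Y]
    [TopologicalSpace Y] {pr : X → Y → ℝ} {U : Y → H → H} (C : SN.BC pr U) (hp : SN.IsPair pr)
    {v : Y} (e : ∀ t, W t ψ = U (t • v) ψ) :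
    Gn W ψ k ↔ C.Dom (fun p => (pr p v : ℂ)) ψ ∧ C.Psi (fun p => (pr p v : ℂ)) ψ = k := by
  rw [Gn, funext e]
  exact C.hasDerivAt_iff hp

/-- groups of the form `exp (i t r(P))` -/
lemma gn_iff_phi {X : Type*} [MeasurableSpace X] (C : SN.Calc X H) {r : X → ℝ} (hr : Measurable r)
    (e : ∀ t, W t ψ = C.Phi (fun p => Complex.exp (I * (t * r p : ℝ))) ψ) :
    Gn W ψ k ↔ C.Dom (fun p => (r p : ℂ)) ψ ∧ C.Psi (fun p => (r p : ℂ)) ψ = k := by
  have e0 : C.Phi (fun p => Complex.exp (I * ((0 : ℝ) * r p : ℝ))) = 1 := by simp [C.one]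
  rw [Gn, funext e]
  refine ⟨fun h => ?_, fun ⟨h1, h2⟩ => ?_⟩
  · obtain ⟨a, b⟩ := SN.Calc.dom_of_slope (C := C) (v := ψ) hr le_rfl
      (by simpa only [zero_add, e0, ContinuousLinearMap.one_apply] using h.tendsto_slope_zero)
    exact ⟨a, (smul_right_injective H Complex.I_ne_zero b).symm⟩
  · simpa only [e0, ContinuousLinearMap.one_apply, h2] using SN.Calc.hasDerivAt_exp hr h1 0

end

end Vale.Agent.P352X
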