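import Vale.Agent.P352X.Defs
import Vale.Agent.P352.H15.Lor

/-!
# P352X, API 3a: null coordinates (helper11)
-/

set_option linter.all false

open Set Filter Topology
open scoped ContDiff

namespace Vale.Agent.P352X

open Vale.Agent.P352.GF Vale.Agent.P352.BW Vale.Agent.P352.H496 Vale.Agent.P352.H755
open Vale.Agent.P352.H246 (linv isLor_linv)

noncomputable section

variable (x y z w p : V) (u v : R2) (α β r s t : ℝ) (i : Fin 2)

/-! ### the Minkowski product -/

theorem mdot_eq : mdot x y = x 0 * y 0 - x 1 * y 1 - x 2 * y 2 - x 3 * y 3 := by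
  simp [mdot, eta, o, Fin.sum_univ_four]; ring

theorem eta_sq (m : Ix) : eta m * eta m = 1 := by unfold eta; split_ifs <;> norm_num
theorem eta_ne (m : Ix) : eta m ≠ 0 := by unfold eta; split_ifs <;> norm_num
theorem abs_eta (m : Ix) : |eta m| = 1 := by unfold eta; split_ifs <;> norm_num

theorem md_neg : mdot x (-y) = -mdot x y := by simp only [mdot_eq, Pi.neg_apply]; ring
theorem md_neg_l : mdot (-x) y = -mdot x y := by simp only [mdot_eq, Pi.neg_apply]; ring
@[simp] theorem md_zero : mdot x 0 = 0 := by simp [mdot_eq]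
@[simp] theorem md_zero_l : mdot 0 x = 0 := by simp [mdot_eq]

/-- the Minkowski product as a continuous bilinear form -/
def mdL : V →L[ℝ] V →L[ℝ] ℝ := LinearMap.toContinuousLinearMap
  { toFun := fun x => LinearMap.toContinuousLinearMap
      { toFun := fun y => mdot x y
        map_add' := md_add x
        map_smul' := fun c y => md_smul x c y }
    map_add' := fun x y => ContinuousLinearMap.ext fun z => md_add_l z x y
    map_smul' := fun c x => ContinuousLinearMap.ext fun z => md_smul_l x c z }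

@[simp] theorem mdL_apply : mdL x y = mdot x y := rfl

@[fun_prop] theorem cont_mdot {X : Type*} [TopologicalSpace X] {f g : X → V} (hf : Continuous f)
    (hg : Continuous g) : Continuous fun a => mdot (f a) (g a) := by
  simp only [mdot_eq]; fun_prop

@[fun_prop] theorem meas_mdot {X : Type*} [MeasurableSpace X] {f g : X → V} (hf : Measurable f)
    (hg : Measurable g) : Measurable fun a => mdot (f a) (g a) := by
  simp only [mdot_eq]; fun_prop

@[fun_prop] theorem smooth_mdot {X : Type*} [NormedAddCommGroup X] [NormedSpace ℝ X] {n : ℕ∞ω}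
    {f g : X → V} (hf : ContDiff ℝ n f) (hg : ContDiff ℝ n g) :
    ContDiff ℝ n fun a => mdot (f a) (g a) := by
  simp only [mdot_eq]; fun_prop

theorem abs_mdot_le : |mdot x y| ≤ 4 * ‖x‖ * ‖y‖ := by
  refine (Finset.abs_sum_le_sum_abs _ _).trans ((Finset.sum_le_card_nsmul _ _ (‖x‖ * ‖y‖)
    fun m _ => ?_).trans_eq (by simp [mul_assoc]))
  rw [abs_mul, abs_mul, abs_eta, one_mul]
  exact mul_le_mul (norm_le_pi_norm x m) (norm_le_pi_norm y m) (abs_nonneg _) (norm_nonneg _)

/-! ### the coordinates -/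

theorem al_eq : al z = (z 0 + z 1) / 2 := by simp [al, vb, mdot_eq]; ring
theorem be_eq : be z = z 0 - z 1 := by simp [be, va, mdot_eq]
@[simp] theorem tx_0 : tx z 0 = z 2 := rfl
@[simp] theorem tx_1 : tx z 1 = z 3 := rfl
theorem d2_eq : d2 u v = u 0 * v 0 + u 1 * v 1 := rfl
theorem d2_sum : d2 u v = ∑ i, u i * v i := by simp [d2]

@[simp] theorem al_pt : al (pt α β u) = α := by simp [al_eq, pt]
@[simp] theorem be_pt : be (pt α β u) = β := by simp [be_eq, pt]
@[simp] theorem tx_pt : tx (pt α β u) = u := by ext i; fin_cases i <;> simp [pt]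
@[simp] theorem pt_eta : pt (al z) (be z) (tx z) = z := by
  ext m; fin_cases m <;> simp [pt, al_eq, be_eq] <;> ring
@[simp] theorem pl_pt : pl (pt α β u) = (α, u) := by simp [pl]
@[simp] theorem pm_pt : pm (pt α β u) = (β, u) := by simp [pm]
@[simp] theorem pl_1 : (pl z).1 = al z := rfl
@[simp] theorem pl_2 : (pl z).2 = tx z := rfl
@[simp] theorem pm_1 : (pm z).1 = be z := rfl
@[simp] theorem pm_2 : (pm z).2 = tx z := rfl

variable {x y} in
theorem null_ext (h1 : al x = al y) (h2 : be x = be y) (h3 : tx x = tx y) : x = y := by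
  rw [← pt_eta x, h1, h2, h3, pt_eta]

theorem time_eq : z o = al z + be z / 2 := by simp [o, al_eq, be_eq]; ring

@[simp] theorem al_add : al (x + y) = al x + al y := md_add _ _ _
@[simp] theorem al_sub : al (x - y) = al x - al y := md_sub _ _ _
@[simp] theorem al_neg : al (-x) = -al x := md_neg _ _
@[simp] theorem al_smul : al (t • x) = t * al x := md_smul _ _ _
@[simp] theorem al_zero : al 0 = 0 := md_zero _
@[simp] theorem be_add : be (x + y) = be x + be y := md_add _ _ _
@[simp] theorem be_sub : be (x - y) = be x - be y := md_sub _ _ _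
@[simp] theorem be_neg : be (-x) = -be x := md_neg _ _
@[simp] theorem be_smul : be (t • x) = t * be x := md_smul _ _ _
@[simp] theorem be_zero : be 0 = 0 := md_zero _
@[simp] theorem tx_add : tx (x + y) = tx x + tx y := by ext i; fin_cases i <;> simp
@[simp] theorem tx_sub : tx (x - y) = tx x - tx y := by ext i; fin_cases i <;> simp
@[simp] theorem tx_neg : tx (-x) = -tx x := by ext i; fin_cases i <;> simp
@[simp] theorem tx_smul : tx (t • x) = t • tx x := by ext i; fin_cases i <;> simp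
@[simp] theorem tx_zero : tx 0 = 0 := by ext i; fin_cases i <;> simp

@[simp] theorem al_va : al va = 1 := by norm_num [al_eq, va]
@[simp] theorem be_va : be va = 0 := by norm_num [be_eq, va]
@[simp] theorem tx_va : tx va = 0 := by ext i; fin_cases i <;> simp [va]
@[simp] theorem al_vb : al vb = 0 := by norm_num [al_eq, vb]
@[simp] theorem be_vb : be vb = 1 := by norm_num [be_eq, vb]
@[simp] theorem tx_vb : tx vb = 0 := by ext i; fin_cases i <;> simp [vb]
@[simp] theorem al_tv : al (tv u) = 0 := al_pt _ _ _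
@[simp] theorem be_tv : be (tv u) = 0 := be_pt _ _ _
@[simp] theorem tx_tv : tx (tv u) = u := tx_pt _ _ _
@[simp] theorem al_ex : al (ex i) = 0 := al_tv _
@[simp] theorem be_ex : be (ex i) = 0 := be_tv _
@[simp] theorem tx_ex : tx (ex i) = e2 i := tx_tv _

theorem pt_eq : pt α β u = α • va + β • vb + tv u := null_ext (by simp) (by simp) (by simp)
theorem null_dec : z = al z • va + be z • vb + tv (tx z) := by rw [← pt_eq, pt_eta]
theorem tv_add : tv (u + v) = tv u + tv v := null_ext (by simp) (by simp) (by simp)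
theorem tv_sub : tv (u - v) = tv u - tv v := null_ext (by simp) (by simp) (by simp)
theorem tv_neg : tv (-u) = -tv u := null_ext (by simp) (by simp) (by simp)
theorem tv_smul : tv (t • u) = t • tv u := null_ext (by simp) (by simp) (by simp)
@[simp] theorem tv_zero : tv 0 = 0 := null_ext (by simp) (by simp) (by simp)
theorem tv_eq : tv u = u 0 • ex 0 + u 1 • ex 1 :=
  null_ext (by simp) (by simp) (by
    simp only [tx_tv, tx_add, tx_smul, tx_ex]; ext i; fin_cases i <;> simp [e2])
theorem pt_add (α' β' : ℝ) : pt (α + α') (β + β') (u + v) = pt α β u + pt α' β' v :=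
  null_ext (by simp) (by simp) (by simp)
theorem pt_smul : pt (t * α) (t * β) (t • u) = t • pt α β u :=
  null_ext (by simp) (by simp) (by simp)
theorem ex_0 : ex 0 = bas 2 1 := by ext m; fin_cases m <;> simp [ex, tv, pt, e2, bas]
theorem ex_1 : ex 1 = bas 3 1 := by ext m; fin_cases m <;> simp [ex, tv, pt, e2, bas]

/-! ### the transverse product -/

theorem d2_comm : d2 u v = d2 v u := by simp only [d2]; ring
theorem d2_add (w : R2) : d2 u (v + w) = d2 u v + d2 u w := by simp only [d2, Pi.add_apply]; ring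
theorem d2_add_l (w : R2) : d2 (u + v) w = d2 u w + d2 v w := by simp only [d2, Pi.add_apply]; ring
theorem d2_sub (w : R2) : d2 u (v - w) = d2 u v - d2 u w := by simp only [d2, Pi.sub_apply]; ring
theorem d2_sub_l (w : R2) : d2 (u - v) w = d2 u w - d2 v w := by simp only [d2, Pi.sub_apply]; ring
theorem d2_smul : d2 u (t • v) = t * d2 u v := by simp only [d2, Pi.smul_apply, smul_eq_mul]; ring
theorem d2_smul_l : d2 (t • u) v = t * d2 u v := by
  simp only [d2, Pi.smul_apply, smul_eq_mul]; ring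
theorem d2_neg : d2 u (-v) = -d2 u v := by simp only [d2, Pi.neg_apply]; ring
theorem d2_neg_l : d2 (-u) v = -d2 u v := by simp only [d2, Pi.neg_apply]; ring
@[simp] theorem d2_zero : d2 u 0 = 0 := by simp [d2]
@[simp] theorem d2_zero_l : d2 0 u = 0 := by simp [d2]
@[simp] theorem d2_e2 : d2 u (e2 i) = u i := by fin_cases i <;> simp [d2, e2]
@[simp] theorem d2_e2_l : d2 (e2 i) u = u i := by fin_cases i <;> simp [d2, e2]
@[simp] theorem e2_self : e2 i i = 1 := by simp [e2]
theorem d2_nonneg : 0 ≤ d2 u u := add_nonneg (mul_self_nonneg _) (mul_self_nonneg _)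
theorem d2_eq_zero : d2 u u = 0 ↔ u = 0 := by
  refine ⟨fun h => ?_, fun h => by simp [h]⟩
  have := (add_eq_zero_iff_of_nonneg (mul_self_nonneg _) (mul_self_nonneg _)).1 h
  ext i; fin_cases i
  exacts [mul_self_eq_zero.1 this.1, mul_self_eq_zero.1 this.2]
theorem d2_sq_le : d2 u v ^ 2 ≤ d2 u u * d2 v v := by
  simp only [d2]; nlinarith [sq_nonneg (u 0 * v 1 - u 1 * v 0)]
theorem sq_le_d2 : u i ^ 2 ≤ d2 u u := by
  fin_cases i <;> simp [d2] <;> nlinarith [sq_nonneg (u 0), sq_nonneg (u 1)]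
theorem norm_sq_le_d2 : ‖u‖ ^ 2 ≤ d2 u u := by
  have : ‖u‖ ≤ Real.sqrt (d2 u u) := (pi_norm_le_iff_of_nonneg (Real.sqrt_nonneg _)).2 fun i =>
    Real.abs_le_sqrt (sq_le_d2 u i)
  exact (pow_le_pow_left₀ (norm_nonneg _) this 2).trans_eq (Real.sq_sqrt (d2_nonneg u))
theorem abs_d2_le : |d2 u v| ≤ 2 * ‖u‖ * ‖v‖ := by
  have h := fun i => mul_le_mul (norm_le_pi_norm u i) (norm_le_pi_norm v i) (abs_nonneg _)
    (norm_nonneg _)
  refine (abs_add_le _ _).trans ?_
  rw [abs_mul, abs_mul]
  linarith [h 0, h 1, Real.norm_eq_abs (u 0), Real.norm_eq_abs (u 1), show |u 0| * |v 0| ≤ _ from h 0,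
    show |u 1| * |v 1| ≤ _ from h 1]
theorem d2_le_norm : d2 u u ≤ 2 * ‖u‖ ^ 2 := (le_abs_self _).trans ((abs_d2_le u u).trans_eq (by ring))

theorem mdot_null : mdot x y = al x * be y + be x * al y - d2 (tx x) (tx y) := by
  simp only [mdot_eq, al_eq, be_eq, d2, tx_0, tx_1]; ring
theorem mu_eq : mu p = 2 * al p * be p - d2 (tx p) (tx p) := by rw [mu, mdot_null]; ring
theorem md_va : mdot va z = be z := rfl
theorem md_vb : mdot vb z = al z := rfl
theorem md_va' : mdot z va = be z := md_comm _ _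
theorem md_vb' : mdot z vb = al z := md_comm _ _
theorem md_tv : mdot (tv u) z = -d2 u (tx z) := by simp [mdot_null]
theorem md_tv' : mdot z (tv u) = -d2 (tx z) u := by simp [mdot_null]
theorem md_ex : mdot (ex i) z = -tx z i := by simp [mdot_null]
theorem md_ex' : mdot z (ex i) = -tx z i := by simp [mdot_null]
theorem null_va : IsNull va := ⟨be_va, by norm_num [va, o]⟩
theorem null_vb : IsNull vb := ⟨al_vb, by norm_num [vb, o]⟩
theorem md_ab : mdot va vb = 1 := be_vb
@[simp] theorem mu_neg : mu (-p) = mu p := by simp [mu, md_neg, md_neg_l]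
theorem mu_smul : mu (t • p) = t ^ 2 * mu p := by simp only [mu, md_smul, md_smul_l]; ring
theorem mu_pt : mu (pt α β u) = 2 * α * β - d2 u u := by simp [mu_eq]

theorem nn_va : nn p va = 2 * be p ^ 2 := by simp [nn, md_va]
theorem nn_vb : nn p vb = 2 * al p ^ 2 := by simp [nn, md_vb]
theorem nn_tv : nn p (tv u) = 2 * d2 u (tx p) ^ 2 + mu p * d2 u u := by simp [nn, md_tv]
theorem nn_ex : nn p (ex i) = 2 * tx p i ^ 2 + mu p := by simp [nn, md_ex]

/-! ### linear maps, continuity -/

def alL : V →L[ℝ] ℝ := mdL vb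
def beL : V →L[ℝ] ℝ := mdL va
def txL : V →L[ℝ] R2 := LinearMap.toContinuousLinearMap ⟨⟨tx, tx_add⟩, fun t x => tx_smul x t⟩
def tvL : R2 →L[ℝ] V := LinearMap.toContinuousLinearMap ⟨⟨tv, tv_add⟩, fun t x => tv_smul x t⟩
def plL : V →L[ℝ] P3 := alL.prod txL
def pmL : V →L[ℝ] P3 := beL.prod txL
@[simp] theorem alL_apply : alL z = al z := rfl
@[simp] theorem beL_apply : beL z = be z := rfl
@[simp] theorem txL_apply : txL z = tx z := rfl
@[simp] theorem tvL_apply : tvL u = tv u := rfl
@[simp] theorem plL_apply : plL z = pl z := rfl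
@[simp] theorem pmL_apply : pmL z = pm z := rfl

/-- `z ↦ ((al, x), be)` -/
def plE : V ≃L[ℝ] P3 × ℝ := LinearEquiv.toContinuousLinearEquiv
  { (plL.prod beL).toLinearMap with
    invFun := fun y => pt y.1.1 y.2 y.1.2
    left_inv := pt_eta
    right_inv := fun y => by simp }

/-- `p ↦ ((p_a, q), p_b)` -/
def pmE : V ≃L[ℝ] P3 × ℝ := LinearEquiv.toContinuousLinearEquiv
  { (pmL.prod alL).toLinearMap with
    invFun := fun y => pt y.2 y.1.1 y.1.2
    left_inv := pt_eta
    right_inv := fun y => by simp }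

@[simp] theorem plE_apply : plE z = (pl z, be z) := rfl
@[simp] theorem pmE_apply : pmE z = (pm z, al z) := rfl
@[simp] theorem plE_symm (y : P3 × ℝ) : plE.symm y = pt y.1.1 y.2 y.1.2 := rfl
@[simp] theorem pmE_symm (y : P3 × ℝ) : pmE.symm y = pt y.2 y.1.1 y.1.2 := rfl

@[fun_prop] theorem cont_al : Continuous al := alL.continuous
@[fun_prop] theorem cont_be : Continuous be := beL.continuous
@[fun_prop] theorem cont_tx : Continuous tx := txL.continuous
@[fun_prop] theorem cont_tv : Continuous tv := tvL.continuous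
@[fun_prop] theorem cont_pl : Continuous pl := plL.continuous
@[fun_prop] theorem cont_pm : Continuous pm := pmL.continuous
@[fun_prop] theorem cont_mu : Continuous mu := cont_mdot continuous_id continuous_id
@[fun_prop] theorem meas_al : Measurable al := cont_al.measurable
@[fun_prop] theorem meas_be : Measurable be := cont_be.measurable
@[fun_prop] theorem meas_tx : Measurable tx := cont_tx.measurable
@[fun_prop] theorem meas_tv : Measurable tv := cont_tv.measurable
@[fun_prop] theorem meas_pl : Measurable pl := cont_pl.measurable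
@[fun_prop] theorem meas_pm : Measurable pm := cont_pm.measurable
@[fun_prop] theorem meas_mu : Measurable mu := cont_mu.measurable
@[fun_prop] theorem smooth_al {n : ℕ∞ω} : ContDiff ℝ n al := alL.contDiff
@[fun_prop] theorem smooth_be {n : ℕ∞ω} : ContDiff ℝ n be := beL.contDiff
@[fun_prop] theorem smooth_tx {n : ℕ∞ω} : ContDiff ℝ n tx := txL.contDiff
@[fun_prop] theorem smooth_tv {n : ℕ∞ω} : ContDiff ℝ n tv := tvL.contDiff
@[fun_prop] theorem smooth_pl {n : ℕ∞ω} : ContDiff ℝ n pl := plL.contDiff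
@[fun_prop] theorem smooth_pm {n : ℕ∞ω} : ContDiff ℝ n pm := pmL.contDiff
@[fun_prop] theorem smooth_mu {n : ℕ∞ω} : ContDiff ℝ n mu := smooth_mdot contDiff_id contDiff_id

@[fun_prop] theorem cont_d2 {X : Type*} [TopologicalSpace X] {f g : X → R2} (hf : Continuous f)
    (hg : Continuous g) : Continuous fun a => d2 (f a) (g a) := by
  simp only [d2]; fun_prop
@[fun_prop] theorem meas_d2 {X : Type*} [MeasurableSpace X] {f g : X → R2} (hf : Measurable f)
    (hg : Measurable g) : Measurable fun a => d2 (f a) (g a) := by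
  simp only [d2]; fun_prop
@[fun_prop] theorem smooth_d2 {X : Type*} [NormedAddCommGroup X] [NormedSpace ℝ X] {n : ℕ∞ω}
    {f g : X → R2} (hf : ContDiff ℝ n f) (hg : ContDiff ℝ n g) :
    ContDiff ℝ n fun a => d2 (f a) (g a) := by
  simp only [d2]; fun_prop
@[fun_prop] theorem cont_pt {X : Type*} [TopologicalSpace X] {f g : X → ℝ} {h : X → R2}
    (hf : Continuous f) (hg : Continuous g) (hh : Continuous h) :
    Continuous fun a => pt (f a) (g a) (h a) :=
  plE.symm.continuous.comp ((hf.prodMk hh).prodMk hg)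
@[fun_prop] theorem meas_pt {X : Type*} [MeasurableSpace X] {f g : X → ℝ} {h : X → R2}
    (hf : Measurable f) (hg : Measurable g) (hh : Measurable h) :
    Measurable fun a => pt (f a) (g a) (h a) :=
  plE.symm.continuous.measurable.comp ((hf.prodMk hh).prodMk hg)
@[fun_prop] theorem smooth_pt {X : Type*} [NormedAddCommGroup X] [NormedSpace ℝ X] {n : ℕ∞ω}
    {f g : X → ℝ} {h : X → R2} (hf : ContDiff ℝ n f) (hg : ContDiff ℝ n g) (hh : ContDiff ℝ n h) :
    ContDiff ℝ n fun a => pt (f a) (g a) (h a) :=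
  plE.symm.contDiff.comp ((hf.prodMk hh).prodMk hg)

theorem abs_al_le : |al z| ≤ ‖z‖ := by
  rw [al_eq, abs_div, abs_two]
  linarith [abs_add_le (z 0) (z 1), show |z 0| ≤ _ from norm_le_pi_norm z 0,
    show |z 1| ≤ _ from norm_le_pi_norm z 1]
theorem abs_be_le : |be z| ≤ 2 * ‖z‖ := by
  rw [be_eq]
  linarith [abs_sub (z 0) (z 1), show |z 0| ≤ _ from norm_le_pi_norm z 0,
    show |z 1| ≤ _ from norm_le_pi_norm z 1]
theorem norm_tx_le : ‖tx z‖ ≤ ‖z‖ := (pi_norm_le_iff_of_nonneg (norm_nonneg _)).2 fun i => by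
  fin_cases i
  exacts [norm_le_pi_norm z 2, norm_le_pi_norm z 3]
theorem norm_pt_le : ‖pt α β u‖ ≤ |α| + |β| + ‖u‖ :=
  (pi_norm_le_iff_of_nonneg (by positivity)).2 fun m => by
    have h0 : |u 0| ≤ _ := norm_le_pi_norm u 0
    have h1 : |u 1| ≤ _ := norm_le_pi_norm u 1
    have h2 : |β / 2| ≤ |β| := by rw [abs_div, abs_two]; linarith [abs_nonneg β]
    fin_cases m <;> simp [pt] <;>
      linarith [abs_add_le α (β / 2), abs_sub α (β / 2), abs_nonneg α, abs_nonneg β, norm_nonneg u]

/-! ### the cone -/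

theorem mem_Fc : p ∈ Fc ↔ 0 < be p ∧ 0 < mu p := by
  change 0 < mu p ∧ 0 < p o ↔ _
  rw [mu_eq, time_eq p]
  have := d2_nonneg (tx p)
  refine ⟨fun ⟨a, b⟩ => ⟨by nlinarith, a⟩, fun ⟨a, b⟩ => ⟨b, by nlinarith⟩⟩

theorem mem_Fc' : p ∈ Fc ↔ 0 < al p ∧ 0 < mu p := by
  rw [mem_Fc, mu_eq]
  have := d2_nonneg (tx p)
  refine ⟨fun ⟨a, b⟩ => ⟨by nlinarith, b⟩, fun ⟨a, b⟩ => ⟨by nlinarith, b⟩⟩

theorem isOpen_Fc : IsOpen Fc := by
  rw [show Fc = {p | 0 < be p ∧ 0 < mu p} from Set.ext fun p => mem_Fc p]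
  exact (isOpen_lt continuous_const cont_be).inter (isOpen_lt continuous_const cont_mu)

theorem meas_Fc : MeasurableSet Fc := isOpen_Fc.measurableSet

/-- the closed cone -/
theorem cone_iff : 0 ≤ p o ∧ 0 ≤ mu p ↔ 0 ≤ al p ∧ 0 ≤ be p ∧ d2 (tx p) (tx p) ≤ 2 * al p * be p := by
  rw [mu_eq, time_eq p]
  have := d2_nonneg (tx p)
  refine ⟨fun ⟨a, b⟩ => ⟨?_, ?_, by linarith⟩, fun ⟨a, b, c⟩ => ⟨by linarith, by linarith⟩⟩
  · by_contra! h; nlinarith
  · by_contra! h; nlinarith

variable {p t} in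
theorem Fc_smul (ht : 0 < t) : t • p ∈ Fc ↔ p ∈ Fc := by
  simp [mem_Fc, mu_smul, ht]

variable {x y} in
theorem md_pos (hx : x ∈ Fc) (hy : y ∈ Fc) : 0 < mdot x y := by
  obtain ⟨a1, a2⟩ := (mem_Fc x).1 hx
  obtain ⟨b1, b2⟩ := (mem_Fc y).1 hy
  have a3 := ((mem_Fc' x).1 hx).1
  have b3 := ((mem_Fc' y).1 hy).1
  rw [mu_eq] at a2 b2
  rw [mdot_null, sub_pos]
  refine lt_of_le_of_lt (le_abs_self _) (abs_lt_of_sq_lt_sq ((d2_sq_le _ _).trans_lt ?_)
    (by positivity))
  have := mul_lt_mul'' (sub_pos.1 a2) (sub_pos.1 b2) (d2_nonneg _) (d2_nonneg _)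
  nlinarith [sq_nonneg (al x * be y - be x * al y)]

variable {x y} in
theorem Fc_add (hx : x ∈ Fc) (hy : y ∈ Fc) : x + y ∈ Fc := by
  have := md_pos hx hy
  rw [mem_Fc] at hx hy ⊢
  refine ⟨by simpa using add_pos hx.1 hy.1, ?_⟩
  simp only [mu, md_add, md_add_l, md_comm y x] at hx hy ⊢
  linarith

theorem convex_Fc : Convex ℝ Fc := convex_iff_forall_pos.2 fun _ hx _ hy _ _ a b _ =>
  Fc_add ((Fc_smul a).2 hx) ((Fc_smul b).2 hy)

section lor
variable {L : Ix → V} (hL : IsLor L)
include hL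

theorem mu_lor : mu (sim 1 L 0 p) = mu p := md_LL hL p p

theorem linv_sim : sim 1 (linv L) 0 (sim 1 L 0 p) = p := by
  refine (simE 1 L one_pos hL).injective ?_
  rw [simE_apply, simE_apply, sim_linv hL]

theorem md_lor : mdot (sim 1 L 0 x) y = mdot x (sim 1 (linv L) 0 y) := by
  rw [← md_LL hL x, sim_linv hL]

theorem md_lor' : mdot x (sim 1 L 0 y) = mdot (sim 1 (linv L) 0 x) y := by
  rw [md_comm, md_lor _ _ hL, md_comm]

variable {p} in
theorem Fc_lor (hp : p ∈ Fc) : sim 1 L 0 p ∈ Fc := by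
  have h1 := P352.H15.isNull_lor (isLor_linv hL) null_va
  refine (mem_Fc _).2 ⟨?_, (mu_lor p hL).symm ▸ hp.1⟩
  rw [← md_va, md_lor' _ _ hL]
  generalize sim 1 (linv L) 0 va = n at h1
  obtain ⟨a1, a2, a3⟩ := (cone_iff n).1 ⟨h1.2.le, h1.1.ge⟩
  obtain ⟨b1, b2⟩ := (mem_Fc p).1 hp
  have b3 := ((mem_Fc' p).1 hp).1
  have a4 := h1.2
  rw [time_eq n] at a4
  rw [mu_eq] at b2
  rw [mdot_null, sub_pos]
  have c : 0 < al n * be p + be n * al p := by
    rcases a1.eq_or_lt with h | h
    · have : 0 < be n := by linarith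
      positivity
    · positivity
  rcases (d2_nonneg (tx n)).eq_or_lt with h | h
  · rw [(d2_eq_zero _).1 h.symm, d2_zero_l]; exact c
  refine lt_of_le_of_lt (le_abs_self _) (abs_lt_of_sq_lt_sq ((d2_sq_le _ _).trans_lt ?_) c.le)
  have := mul_lt_mul' a3 (sub_pos.1 b2) (d2_nonneg _) (h.trans_le a3)
  nlinarith [sq_nonneg (al n * be p - be n * al p)]

theorem Fc_lor_iff : sim 1 L 0 p ∈ Fc ↔ p ∈ Fc :=
  ⟨fun h => linv_sim p hL ▸ Fc_lor (isLor_linv hL) h, Fc_lor hL⟩

end lor

/-! ### the point maps -/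

@[simp] theorem al_jr : al (jr z) = -al z := al_pt _ _ _
@[simp] theorem be_jr : be (jr z) = -be z := be_pt _ _ _
@[simp] theorem tx_jr : tx (jr z) = tx z := tx_pt _ _ _
@[simp] theorem jr_jr : jr (jr z) = z := null_ext (by simp) (by simp) (by simp)
theorem jr_apply (m : Ix) : jr z m = sj m * z m := by
  fin_cases m <;> simp [jr, pt, sj, al_eq, be_eq] <;> ring
theorem sj_sq (m : Ix) : sj m * sj m = 1 := by fin_cases m <;> simp [sj]
theorem md_jr : mdot (jr x) (jr y) = mdot x y := by simp [mdot_null]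
@[simp] theorem al_scp : al (scp r s z) = r * al z := al_pt _ _ _
@[simp] theorem be_scp : be (scp r s z) = s * be z := be_pt _ _ _
@[simp] theorem tx_scp : tx (scp r s z) = Real.sqrt (r * s) • tx z := tx_pt _ _ _
@[simp] theorem al_gap : al (gap u z) = al z + d2 u (tx z) + d2 u u * be z / 2 := al_pt _ _ _
@[simp] theorem be_gap : be (gap u z) = be z := be_pt _ _ _
@[simp] theorem tx_gap : tx (gap u z) = tx z + be z • u := tx_pt _ _ _
@[simp] theorem al_gbp : al (gbp s z) = al z := al_pt _ _ _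
@[simp] theorem be_gbp : be (gbp s z) = be z + s * tx z 0 + s ^ 2 * al z / 2 := be_pt _ _ _
@[simp] theorem tx_gbp : tx (gbp s z) = tx z + (s * al z) • e2 0 := tx_pt _ _ _

@[simp] theorem scp_one : scp 1 1 z = z := null_ext (by simp) (by simp) (by simp)
@[simp] theorem gap_zero : gap 0 z = z := null_ext (by simp) (by simp) (by simp)
@[simp] theorem gbp_zero : gbp 0 z = z := null_ext (by simp) (by simp) (by simp)
variable {r s} in
theorem scp_scp {r' s' : ℝ} (hr : 0 ≤ r) (hs : 0 ≤ s) :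
    scp r s (scp r' s' z) = scp (r * r') (s * s') z := null_ext (by simp [mul_assoc])
  (by simp [mul_assoc]) (by
    rw [tx_scp, tx_scp, tx_scp, smul_smul, ← Real.sqrt_mul (mul_nonneg hr hs), mul_mul_mul_comm])
theorem gap_gap : gap u (gap v z) = gap (u + v) z := null_ext
  (by simp only [al_gap, tx_gap, be_gap, d2_add, d2_add_l, d2_smul, d2_comm v u]; ring) (by simp)
  (by simp only [tx_gap, be_gap]; module)
theorem gbp_gbp : gbp s (gbp t z) = gbp (s + t) z := null_ext (by simp)
  (by simp only [be_gbp, tx_gbp, al_gbp, Pi.add_apply, Pi.smul_apply, e2_self, smul_eq_mul]; ring)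
  (by simp only [tx_gbp, al_gbp]; module)
variable {r s} in
theorem md_scp (h : 0 ≤ r * s) : mdot (scp r s x) (scp r s y) = r * s * mdot x y := by
  simp only [mdot_null, al_scp, be_scp, tx_scp, d2_smul, d2_smul_l, ← mul_assoc,
    Real.mul_self_sqrt h]
  ring
variable {r s} in
theorem md_scp_l : mdot (scp r s x) y = mdot x (scp s r y) := by
  simp only [mdot_null, al_scp, be_scp, tx_scp, d2_smul, d2_smul_l, mul_comm s r]
  ring
theorem md_gap : mdot (gap u x) (gap u y) = mdot x y := by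
  simp only [mdot_null, al_gap, be_gap, tx_gap, d2_add, d2_add_l, d2_smul, d2_smul_l,
    d2_comm (tx x) u]
  ring
theorem md_gbp : mdot (gbp s x) (gbp s y) = mdot x y := by
  simp only [mdot_null, al_gbp, be_gbp, tx_gbp, d2_add, d2_add_l, d2_smul, d2_smul_l, d2_e2, d2_e2_l,
    e2_self, Pi.add_apply, Pi.smul_apply, smul_eq_mul]
  ring

def jrL : V →L[ℝ] V := plE.symm.toContinuousLinearMap ∘L ((-alL).prod txL).prod (-beL)
def scpL (r s : ℝ) : V →L[ℝ] V :=
  plE.symm.toContinuousLinearMap ∘L ((r • alL).prod (Real.sqrt (r * s) • txL)).prod (s • beL)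
def gapL (u : R2) : V →L[ℝ] V := ContinuousLinearMap.id ℝ V +
  (-mdL (tv u) + (d2 u u / 2) • beL).smulRight va + beL.smulRight (tv u)
def gbpL (s : ℝ) : V →L[ℝ] V := ContinuousLinearMap.id ℝ V +
  (-(s • mdL (ex 0)) + (s ^ 2 / 2) • alL).smulRight vb + (s • alL).smulRight (ex 0)
@[simp] theorem jrL_apply : jrL z = jr z := rfl
@[simp] theorem scpL_apply : scpL r s z = scp r s z := rfl
@[simp] theorem gapL_apply : gapL u z = gap u z :=
  null_ext (by simp [gapL, md_tv]; ring) (by simp [gapL]) (by simp [gapL])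
@[simp] theorem gbpL_apply : gbpL s z = gbp s z :=
  null_ext (by simp [gbpL]) (by simp [gbpL, md_ex]; ring) (by simp [gbpL])

@[fun_prop] theorem cont_jr : Continuous jr := jrL.continuous
@[fun_prop] theorem cont_scp : Continuous (scp r s) := (scpL r s).continuous
@[fun_prop] theorem cont_gap {X : Type*} [TopologicalSpace X] {f : X → R2} {g : X → V}
    (hf : Continuous f) (hg : Continuous g) : Continuous fun a => gap (f a) (g a) := by
  unfold gap; fun_prop
@[fun_prop] theorem cont_gbp {X : Type*} [TopologicalSpace X] {f : X → ℝ} {g : X → V}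
    (hf : Continuous f) (hg : Continuous g) : Continuous fun a => gbp (f a) (g a) := by
  unfold gbp; fun_prop

variable {p r s} in
theorem Fc_scp (hr : 0 < r) (hs : 0 < s) : scp r s p ∈ Fc ↔ p ∈ Fc := by
  simp [mem_Fc, mu, md_scp _ _ (mul_pos hr hs).le, hr, hs]
theorem Fc_gap : gap u p ∈ Fc ↔ p ∈ Fc := by simp [mem_Fc, mu, md_gap]
theorem Fc_gbp : gbp s p ∈ Fc ↔ p ∈ Fc := by simp [mem_Fc', mu, md_gbp]

end

end Vale.Agent.P352X
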