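import Mathlib.Analysis.VonNeumannAlgebra.Basic
import Mathlib.Analysis.InnerProductSpace.ProdL2
import Mathlib.Analysis.InnerProductSpace.Adjoint
import Mathlib.Analysis.SpecificLimits.Basic

/-!
# P352X, row TR (abstract part): bounded truncations of operators affiliated to a von Neumann algebra
-/

set_option linter.all false

noncomputable section

open Filter Topology WithLp

namespace Vale.Agent.P352X.TR

variable {H : Type*} [NormedAddCommGroup H] [InnerProductSpace ℂ H] [CompleteSpace H]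

/-- `H ⊕ H` -/
abbrev HH (H : Type*) := WithLp 2 (H × H)

/-- first inclusion -/
def i1 : H →L[ℂ] HH H :=
  (prodContinuousLinearEquiv 2 ℂ H H).symm.toContinuousLinearMap ∘L ContinuousLinearMap.inl ℂ H H

/-- second inclusion -/
def i2 : H →L[ℂ] HH H :=
  (prodContinuousLinearEquiv 2 ℂ H H).symm.toContinuousLinearMap ∘L ContinuousLinearMap.inr ℂ H H

/-- diagonal operator -/
def dg (Y : H →L[ℂ] H) : HH H →L[ℂ] HH H :=
  i1 ∘L Y ∘L fstL 2 ℂ H H + i2 ∘L Y ∘L sndL 2 ℂ H H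

lemma i1_apply (x : H) : i1 x = toLp 2 (x, (0 : H)) := rfl
lemma i2_apply (x : H) : i2 x = toLp 2 ((0 : H), x) := rfl

lemma pair_eq (x y : H) : (toLp 2 (x, y) : HH H) = i1 x + i2 y := by
  rw [i1_apply, i2_apply, ← toLp_add]; simp

lemma dg_apply (Y : H →L[ℂ] H) (z : HH H) : dg Y z = toLp 2 (Y z.fst, Y z.snd) := by
  rw [pair_eq]; rfl

lemma inner_pair (x y : H) (z : HH H) :
    inner ℂ (toLp 2 (x, y) : HH H) z = inner ℂ x z.fst + inner ℂ y z.snd := by
  rw [prod_inner_apply]; rfl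

lemma inner_dg (Y : H →L[ℂ] H) (z w : HH H) :
    inner ℂ (dg Y z) w = inner ℂ z (dg (star Y) w) := by
  rw [dg_apply, dg_apply, prod_inner_apply, prod_inner_apply]
  simp only [ContinuousLinearMap.star_eq_adjoint]
  show inner ℂ (Y z.fst) w.fst + inner ℂ (Y z.snd) w.snd =
    inner ℂ z.fst (ContinuousLinearMap.adjoint Y w.fst) +
      inner ℂ z.snd (ContinuousLinearMap.adjoint Y w.snd)
  rw [ContinuousLinearMap.adjoint_inner_right, ContinuousLinearMap.adjoint_inner_right]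

lemma norm_i1 (x : H) : ‖(i1 x : HH H)‖ = ‖x‖ := by rw [i1_apply]; exact norm_toLp_fst 2 H H x
lemma norm_i2 (x : H) : ‖(i2 x : HH H)‖ = ‖x‖ := by rw [i2_apply]; exact norm_toLp_snd 2 H H x

/-- a projection onto a subspace invariant under `A` and `A*` commutes with `A` -/
lemma proj_comm {E : Type*} [NormedAddCommGroup E] [InnerProductSpace ℂ E] (N : Submodule ℂ E)
    [N.HasOrthogonalProjection] (A B : E →L[ℂ] E)
    (hAB : ∀ z w, inner ℂ (A z) w = inner ℂ z (B w)) (hA : ∀ z ∈ N, A z ∈ N)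
    (hB : ∀ z ∈ N, B z ∈ N) (z : E) : N.starProjection (A z) = A (N.starProjection z) := by
  refine Submodule.eq_starProjection_of_mem_of_inner_eq_zero
    (hA _ (N.starProjection_apply_mem z)) fun w hw => ?_
  rw [← map_sub, hAB]
  exact Submodule.starProjection_inner_eq_zero _ _ (hB w hw)

variable {D : Type*}

/-- the orthogonal complement of the graph -/
def NN (M : VonNeumannAlgebra H) (e X : D → H) (t : ℂ) : Submodule ℂ (HH H) :=
  (Submodule.span ℂ {z : HH H | ∃ Y ∈ M.commutant, ∃ v, z = toLp 2 (Y (e v), t • Y (X v))})ᗮ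

instance (M : VonNeumannAlgebra H) (e X : D → H) (t : ℂ) :
    (NN M e X t).HasOrthogonalProjection := by
  unfold NN; infer_instance

lemma mem_NN {M : VonNeumannAlgebra H} {e X : D → H} {t : ℂ} {z : HH H} :
    z ∈ NN M e X t ↔ ∀ Y ∈ M.commutant, ∀ v,
      inner ℂ (toLp 2 (Y (e v), t • Y (X v)) : HH H) z = 0 := by
  unfold NN
  rw [Submodule.mem_orthogonal]
  constructor
  · intro h Y hY v
    exact h _ (Submodule.subset_span ⟨Y, hY, v, rfl⟩)
  · intro h u hu
    induction hu using Submodule.span_induction with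
    | mem x hx => obtain ⟨Y, hY, v, rfl⟩ := hx; exact h Y hY v
    | zero => simp
    | add x y _ _ hx hy => rw [inner_add_left, hx, hy, add_zero]
    | smul c x _ hx => rw [inner_smul_left, hx, mul_zero]

lemma dg_mem {M : VonNeumannAlgebra H} {e X : D → H} {t : ℂ} {Y : H →L[ℂ] H}
    (hY : Y ∈ M.commutant) {z : HH H} (hz : z ∈ NN M e X t) : dg Y z ∈ NN M e X t := by
  rw [mem_NN] at hz ⊢
  intro Y' hY' v
  have h := inner_dg (star Y) (toLp 2 (Y' (e v), t • Y' (X v))) z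
  rw [star_star] at h
  rw [← h, dg_apply]
  have := hz (star Y * Y') (mul_mem (star_mem hY) hY') v
  convert this using 3
  simp

lemma comm_NN {M : VonNeumannAlgebra H} (e X : D → H) (t : ℂ) {Y : H →L[ℂ] H}
    (hY : Y ∈ M.commutant) (z : HH H) :
    (NN M e X t).starProjection (dg Y z) = dg Y ((NN M e X t).starProjection z) :=
  proj_comm _ _ _ (inner_dg Y) (fun _ hz => dg_mem hY hz) (fun _ hz => dg_mem (star_mem hY) hz) z

/-- the truncation -/
def Xt (M : VonNeumannAlgebra H) (e X : D → H) (t : ℂ) : H →L[ℂ] H :=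
  (-t⁻¹) • (sndL 2 ℂ H H ∘L (NN M e X t).starProjection ∘L i1)

lemma Xt_apply (M : VonNeumannAlgebra H) (e X : D → H) (t : ℂ) (x : H) :
    Xt M e X t x = (-t⁻¹) • ((NN M e X t).starProjection (i1 x)).snd := rfl

lemma Xt_mem (M : VonNeumannAlgebra H) (e X : D → H) (t : ℂ) : Xt M e X t ∈ M := by
  suffices h : Xt M e X t ∈ M.commutant.commutant by rwa [M.commutant_commutant] at h
  rw [VonNeumannAlgebra.mem_commutant_iff]
  intro Y hY
  ext x
  have h1 : (i1 (Y x) : HH H) = dg Y (i1 x) := by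
    rw [dg_apply, i1_apply, i1_apply]; simp
  rw [ContinuousLinearMap.mul_apply, ContinuousLinearMap.mul_apply, Xt_apply, Xt_apply, h1,
    comm_NN e X t hY, dg_apply, map_smul]
  rfl

lemma star_Xt (M : VonNeumannAlgebra H) (e X : D → H) (t : ℝ) (x : H) :
    star (Xt M e X t) x = (-(t : ℂ)⁻¹) • ((NN M e X t).starProjection (i2 x)).fst := by
  refine ext_inner_left ℂ fun y => ?_
  rw [ContinuousLinearMap.star_eq_adjoint, ContinuousLinearMap.adjoint_inner_right, Xt_apply,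
    inner_smul_left, inner_smul_right]
  congr 1
  · simp
  · have h := (NN M e X t).inner_starProjection_left_eq_right (i1 y) (i2 x)
    rw [i1_apply y, inner_pair, prod_inner_apply] at h
    simpa [i1_apply, i2_apply] using h

theorem trunc_t (M : VonNeumannAlgebra H) (e X X' : D → H)
    (h : ∀ Y ∈ M.commutant, ∀ v w, inner ℂ (X' w) (Y (e v)) = inner ℂ (e w) (Y (X v)))
    (t : ℝ) (ht : 0 < t) : ∃ Z ∈ M, ∃ A B : H →L[ℂ] H, (∀ x, ‖A x‖ ≤ ‖x‖) ∧ (∀ x, ‖B x‖ ≤ ‖x‖) ∧
      (∀ v, Z (e v) = A (X v)) ∧ (∀ v, star Z (e v) = B (X' v)) ∧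
      (∀ v, ‖A (e v) - e v‖ ≤ t * ‖X' v‖) ∧ (∀ v, ‖B (e v) - e v‖ ≤ t * ‖X v‖) := by
  set N := NN M e X t with hN
  set R := N.starProjection with hR
  have ht' : (t : ℂ) ≠ 0 := by exact_mod_cast ht.ne'
  have hRn : ∀ z, ‖R z‖ ≤ ‖z‖ := N.norm_starProjection_apply_le
  have h0 : ∀ v, R (i1 (e v)) + (t : ℂ) • R (i2 (X v)) = 0 := by
    intro v
    rw [← map_smul, ← map_smul, ← map_add, ← pair_eq, hR, Submodule.starProjection_apply_eq_zero_iff,
      Submodule.mem_orthogonal']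
    intro u hu
    have := mem_NN.1 hu 1 (one_mem _) v
    simpa using this
  have h1 : ∀ u, (-(t : ℂ)) • R (i1 (X' u)) + R (i2 (e u)) = toLp 2 ((-(t : ℂ)) • X' u, e u) := by
    intro u
    rw [← map_smul, ← map_smul, ← map_add, ← pair_eq, hR, Submodule.starProjection_eq_self_iff,
      hN, mem_NN]
    intro Y hY v
    rw [inner_pair]
    show inner ℂ (Y (e v)) ((-(t : ℂ)) • X' u) + inner ℂ ((t : ℂ) • Y (X v)) (e u) = 0
    rw [inner_smul_right, inner_smul_left, ← inner_conj_symm (Y (e v)), h Y hY,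
      inner_conj_symm]
    simp
  have nt : ∀ x : H, ‖(t : ℂ) • x‖ = t * ‖x‖ := fun x => by
    rw [norm_smul, Complex.norm_real, Real.norm_of_nonneg ht.le]
  refine ⟨Xt M e X t, Xt_mem M e X t, sndL 2 ℂ H H ∘L R ∘L i2,
    1 - fstL 2 ℂ H H ∘L R ∘L i1, fun x => ?_, fun x => ?_, fun v => ?_, fun v => ?_, fun v => ?_,
    fun v => ?_⟩
  · exact (WithLp.norm_snd_le _ _).trans ((hRn _).trans (norm_i2 x).le)
  · have : (1 - fstL 2 ℂ H H ∘L R ∘L i1) x = (Nᗮ.starProjection (i1 x)).fst := by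
      rw [Submodule.starProjection_orthogonal_val]; simp [i1_apply, hR]
    rw [this]
    exact (WithLp.norm_fst_le _ _).trans ((Nᗮ.norm_starProjection_apply_le _).trans (norm_i1 x).le)
  · have h2 := congrArg WithLp.snd (h0 v)
    rw [Xt_apply]
    change (R (i1 (e v))).snd + (t : ℂ) • (R (i2 (X v))).snd = 0 at h2
    change (-(t : ℂ)⁻¹) • (R (i1 (e v))).snd = (R (i2 (X v))).snd
    rw [eq_neg_of_add_eq_zero_left h2, smul_neg, neg_smul, neg_neg, smul_smul,
      inv_mul_cancel₀ ht', one_smul]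
  · have h2 := congrArg WithLp.fst (h1 v)
    rw [star_Xt]
    change (-(t : ℂ)) • (R (i1 (X' v))).fst + (R (i2 (e v))).fst = (-(t : ℂ)) • X' v at h2
    change (-(t : ℂ)⁻¹) • (R (i2 (e v))).fst = X' v - (R (i1 (X' v))).fst
    rw [eq_sub_of_add_eq' h2, ← smul_sub, smul_smul]
    simp [inv_mul_cancel₀ ht']
  · have h2 := congrArg WithLp.snd (h1 v)
    change (-(t : ℂ)) • (R (i1 (X' v))).snd + (R (i2 (e v))).snd = e v at h2
    change ‖(R (i2 (e v))).snd - e v‖ ≤ _
    have : (R (i2 (e v))).snd - e v = (t : ℂ) • (R (i1 (X' v))).snd := by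
      rw [neg_smul, neg_add_eq_iff_eq_add] at h2
      rw [sub_eq_iff_eq_add]; exact h2
    rw [this, nt]
    exact mul_le_mul_of_nonneg_left
      ((WithLp.norm_snd_le _ _).trans ((hRn _).trans (norm_i1 _).le)) ht.le
  · have h2 := congrArg WithLp.fst (h0 v)
    change (R (i1 (e v))).fst + (t : ℂ) • (R (i2 (X v))).fst = 0 at h2
    change ‖e v - (R (i1 (e v))).fst - e v‖ ≤ _
    have : e v - (R (i1 (e v))).fst - e v = (t : ℂ) • (R (i2 (X v))).fst := by
      rw [eq_neg_of_add_eq_zero_left h2]; abel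
    rw [this, nt]
    exact mul_le_mul_of_nonneg_left
      ((WithLp.norm_fst_le _ _).trans ((hRn _).trans (norm_i2 _).le)) ht.le

/-- contractions that converge to the identity on a dense set converge strongly -/
lemma tendsto_of_dense (e : D → H) (he : DenseRange e) (A : ℕ → H →L[ℂ] H)
    (hA : ∀ n x, ‖A n x‖ ≤ ‖x‖) (h : ∀ v, Tendsto (fun n => A n (e v)) atTop (𝓝 (e v))) (x : H) :
    Tendsto (fun n => A n x) atTop (𝓝 x) := by
  rw [Metric.tendsto_atTop]
  intro ε hε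
  obtain ⟨v, hv⟩ := he.exists_dist_lt x (show 0 < ε / 3 by positivity)
  obtain ⟨N, hN⟩ := Metric.tendsto_atTop.1 (h v) (ε / 3) (by positivity)
  refine ⟨N, fun n hn => ?_⟩
  have h1 := hN n hn
  have h2 : dist (A n x) (A n (e v)) ≤ dist x (e v) := by
    rw [dist_eq_norm, dist_eq_norm, ← map_sub]; exact hA n _
  have h3 := dist_triangle4 (A n x) (A n (e v)) (e v) x
  rw [dist_comm (e v) x] at h3
  linarith

/-- **Row TR, abstract form.** -/
theorem trunc (M : VonNeumannAlgebra H) (e X X' : D → H) (he : DenseRange e)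
    (h : ∀ Y ∈ M.commutant, ∀ v w, inner ℂ (X' w) (Y (e v)) = inner ℂ (e w) (Y (X v))) :
    ∃ Z : ℕ → H →L[ℂ] H, (∀ n, Z n ∈ M) ∧
      (∀ v, Tendsto (fun n => Z n (e v)) atTop (𝓝 (X v))) ∧
      (∀ v, Tendsto (fun n => star (Z n) (e v)) atTop (𝓝 (X' v))) ∧
      (∀ n v, ‖Z n (e v)‖ ≤ ‖X v‖) ∧ (∀ n v, ‖star (Z n) (e v)‖ ≤ ‖X' v‖) := by
  choose Z hZ A B hA hB h1 h2 h3 h4 using fun n : ℕ =>
    trunc_t M e X X' h (1 / ((n : ℝ) + 1)) (by positivity)
  have key : ∀ (C : ℕ → H →L[ℂ] H) (c : D → ℝ),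
      (∀ n v, ‖C n (e v) - e v‖ ≤ 1 / ((n : ℝ) + 1) * c v) →
      ∀ v, Tendsto (fun n => C n (e v)) atTop (𝓝 (e v)) := by
    intro C c hc v
    rw [tendsto_iff_norm_sub_tendsto_zero]
    refine squeeze_zero (fun _ => norm_nonneg _) (fun n => hc n v) ?_
    simpa using (tendsto_one_div_add_atTop_nhds_zero_nat (𝕜 := ℝ)).mul_const (c v)
  refine ⟨Z, hZ, fun v => ?_, fun v => ?_, fun n v => ?_, fun n v => ?_⟩
  · simp only [h1]
    exact tendsto_of_dense e he A hA (key A _ h3) _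
  · simp only [h2]
    exact tendsto_of_dense e he B hB (key B _ h4) _
  · rw [h1]; exact hA n _
  · rw [h2]; exact hB n _

end Vale.Agent.P352X.TR
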