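import Vale.Agent.P352.BW.T.Spec
import Vale.Agent.P352X.TR0

/-!
# P352X, row TR: bounded truncations of affiliated operators
-/

set_option linter.all false

noncomputable section

open Filter Topology
open UniformSpace (Completion)

namespace Vale.Agent.P352X

open Vale.Agent.P352 Vale.Agent.P352.BW

variable {D : Type*} [NormedAddCommGroup D] [InnerProductSpace ℂ D]

/-- **Row TR.** An operator `X` on `D`, affiliated to `M` with adjoint `X'`, is the pointwise limit
on `D` of operators `Z n ∈ M`, with `(Z n)* → X'` on `D`, and norm bounds. -/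
theorem tr_afs {M : VonNeumannAlgebra (Completion D)} {X X' : D → D} (h : BW.T.Afs M X X') :
    ∃ Z : ℕ → Completion D →L[ℂ] Completion D, (∀ n, Z n ∈ M) ∧
      (∀ v : D, Tendsto (fun n => Z n (v : Completion D)) atTop (𝓝 ((X v : D) : Completion D))) ∧
      (∀ v : D, Tendsto (fun n => star (Z n) (v : Completion D)) atTop
        (𝓝 ((X' v : D) : Completion D))) ∧
      (∀ n (v : D), ‖Z n (v : Completion D)‖ ≤ ‖X v‖) ∧
      (∀ n (v : D), ‖star (Z n) (v : Completion D)‖ ≤ ‖X' v‖) := by
  obtain ⟨Z, h1, h2, h3, h4, h5⟩ := TR.trunc M (fun v : D => (v : Completion D))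
    (fun v => ((X v : D) : Completion D)) (fun v => ((X' v : D) : Completion D))
    Completion.denseRange_coe h.2
  exact ⟨Z, h1, h2, h3, fun n v => (h4 n v).trans (Completion.norm_coe _).le,
    fun n v => (h5 n v).trans (Completion.norm_coe _).le⟩

/-- `Aff` with a given adjoint is `Afs`. -/
theorem afs_of_aff {M : VonNeumannAlgebra (Completion D)} {X X' : D → D}
    (hadj : ∀ v w, inner ℂ (X v) w = inner ℂ v (X' w)) (h : Aff M X) : BW.T.Afs M X X' := by
  obtain ⟨X'', h1, h2⟩ := h
  have e : X'' = X' := funext fun w => ext_inner_left ℂ fun v => by rw [← h1, hadj]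
  subst e
  exact ⟨h1, h2⟩

/-- **Row TR**, for `Aff`. -/
theorem tr_aff {M : VonNeumannAlgebra (Completion D)} {X X' : D → D}
    (hadj : ∀ v w, inner ℂ (X v) w = inner ℂ v (X' w)) (h : Aff M X) :
    ∃ Z : ℕ → Completion D →L[ℂ] Completion D, (∀ n, Z n ∈ M) ∧
      (∀ v : D, Tendsto (fun n => Z n (v : Completion D)) atTop (𝓝 ((X v : D) : Completion D))) ∧
      (∀ v : D, Tendsto (fun n => star (Z n) (v : Completion D)) atTop
        (𝓝 ((X' v : D) : Completion D))) ∧
      (∀ n (v : D), ‖Z n (v : Completion D)‖ ≤ ‖X v‖) ∧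
      (∀ n (v : D), ‖star (Z n) (v : Completion D)‖ ≤ ‖X' v‖) :=
  tr_afs (afs_of_aff hadj h)

end Vale.Agent.P352X
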