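import Vale.Agent.P352X.Api1B
import Vale.Agent.P352X.TR
import Vale.Agent.P352.BW.H820.Tk0

/-!
# P352X, row API1: the calculus of the pairs `Pr`
-/

set_option linter.all false

open MeasureTheory Filter Topology
open scoped ComplexConjugate BoundedContinuousFunction

namespace Vale.Agent.P352X

open Vale.Agent.P352 Vale.Agent.P352.BW
open Vale.Agent.P132 (ModData jconj)
open UniformSpace (Completion)
open Complex (I)

noncomputable section

variable {H : Type*} [NormedAddCommGroup H] [InnerProductSpace ℂ H] [CompleteSpace H]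
  {M M' : VonNeumannAlgebra H} {ξ ξ' ψ ψ' φ φ' k k' : H} {X Y Z : H →L[ℂ] H}

/-! ## von Neumann algebras -/

lemma star_inner (Z : H →L[ℂ] H) (v w : H) : inner ℂ (star Z v) w = inner ℂ v (Z w) :=
  ContinuousLinearMap.adjoint_inner_left Z w v

lemma inner_star (Z : H →L[ℂ] H) (v w : H) : inner ℂ v (star Z w) = inner ℂ (Z v) w :=
  ContinuousLinearMap.adjoint_inner_right Z v w

lemma norm_star_apply_le (Z : H →L[ℂ] H) (v : H) : ‖star Z v‖ ≤ ‖Z‖ * ‖v‖ :=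
  norm_star Z ▸ (star Z).le_opNorm v

lemma comm_anti (h : ∀ X ∈ M, X ∈ M') : ∀ Z ∈ M'.commutant, Z ∈ M.commutant := fun _ hZ =>
  VonNeumannAlgebra.mem_commutant_iff.2 fun g hg =>
    VonNeumannAlgebra.mem_commutant_iff.1 hZ g (h g hg)

lemma comm_mul (hX : X ∈ M) (hZ : Z ∈ M.commutant) : X * Z = Z * X :=
  VonNeumannAlgebra.mem_commutant_iff.1 hZ X hX

lemma comm_apply (hX : X ∈ M) (hZ : Z ∈ M.commutant) (v : H) : X (Z v) = Z (X v) :=
  DFunLike.congr_fun (comm_mul hX hZ) v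

lemma mem_of_comm (h : ∀ Z ∈ M.commutant, ∀ v, Z (X v) = X (Z v)) : X ∈ M := by
  rw [← M.commutant_commutant, VonNeumannAlgebra.mem_commutant_iff]
  exact fun Z hZ => ContinuousLinearMap.ext (h Z hZ)

lemma mem_cc : X ∈ M.commutant.commutant ↔ X ∈ M := by rw [M.commutant_commutant]

lemma smul_mem_vn (c : ℂ) (h : X ∈ M) : c • X ∈ M := mem_of_comm fun Z hZ v => by
  rw [ContinuousLinearMap.smul_apply, ContinuousLinearMap.smul_apply, map_smul, comm_apply h hZ]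

/-- von Neumann algebras are weakly closed -/
lemma mem_of_wt {ι : Type*} {l : Filter ι} [l.NeBot] {A : ι → H →L[ℂ] H} (h : ∀ᶠ i in l, A i ∈ M)
    (hA : ∀ v, WT l (fun i => A i v) (X v)) : X ∈ M :=
  mem_of_comm fun Z hZ v => ((hA v).map Z).unique fun y =>
    (hA (Z v) y).congr' (h.mono fun _ q => congrArg (inner ℂ y) (comm_apply q hZ v))

lemma mem_of_tendsto {ι : Type*} {l : Filter ι} [l.NeBot] {A : ι → H →L[ℂ] H}
    (h : ∀ᶠ i in l, A i ∈ M) (hA : Tendsto A l (𝓝 X)) : X ∈ M :=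
  mem_of_wt h fun v => .of (((ContinuousLinearMap.apply ℂ H v).continuous.tendsto X).comp hA)

/-- conjugation by a unitary, for commutants -/
lemma conj_comm {U : H →L[ℂ] H} (hU : U ∈ unitary (H →L[ℂ] H))
    (h : ∀ X ∈ M, U * X * star U ∈ M') (hZ : Z ∈ M'.commutant) : star U * Z * U ∈ M.commutant :=
  VonNeumannAlgebra.mem_commutant_iff.2 fun g hg => by
    have e := congrArg (fun A => star U * A * U) (comm_mul (h g hg) hZ)
    simp only [← mul_assoc, (Unitary.mem_iff.1 hU).1, one_mul] at e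
    simpa only [mul_assoc, (Unitary.mem_iff.1 hU).1, mul_one] using e

/-- strong integrals of bounded operators -/
lemma exists_int {S : Type*} [MeasurableSpace S] {μ : Measure S} {F : S → H →L[ℂ] H} {c : S → ℝ}
    (hc : Integrable c μ) (hb : ∀ᵐ s ∂μ, ‖F s‖ ≤ c s)
    (hm : ∀ v, AEStronglyMeasurable (fun s => F s v) μ) :
    ∃ A : H →L[ℂ] H, (∀ v, Integrable (fun s => F s v) μ) ∧ (∀ v, A v = ∫ s, F s v ∂μ) ∧
      ‖A‖ ≤ ∫ s, c s ∂μ ∧ (∀ M : VonNeumannAlgebra H, (∀ᵐ s ∂μ, F s ∈ M) → A ∈ M) ∧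
      ∀ v, AEStronglyMeasurable (fun s => star (F s) v) μ → star A v = ∫ s, star (F s) v ∂μ := by
  have b : ∀ v, ∀ᵐ s ∂μ, ‖F s v‖ ≤ c s * ‖v‖ := fun v => hb.mono fun s q => (F s).le_of_opNorm_le q v
  have i : ∀ v, Integrable (fun s => F s v) μ := fun v => (hc.mul_const _).mono' (hm v) (b v)
  have n : ∀ v, ‖∫ s, F s v ∂μ‖ ≤ (∫ s, c s ∂μ) * ‖v‖ := fun v => by
    rw [← integral_mul_const]
    exact norm_integral_le_of_norm_le (hc.mul_const _) (b v)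
  let A : H →L[ℂ] H := LinearMap.mkContinuous ⟨⟨fun v => ∫ s, F s v ∂μ, fun v w => by
    simp only [map_add, integral_add (i v) (i w)]⟩, fun a v => by
    simp only [map_smul, integral_smul, RingHom.id_apply]⟩ _ n
  have e : ∀ v, A v = ∫ s, F s v ∂μ := fun _ => rfl
  refine ⟨A, i, e, ContinuousLinearMap.opNorm_le_bound _
    (integral_nonneg_of_ae (hb.mono fun s q => (norm_nonneg _).trans q)) n,
    fun M h => mem_of_comm fun Z hZ v => ?_, fun v h => ext_inner_left ℂ fun w => ?_⟩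
  · rw [e, e, ← Z.integral_comp_comm (i v)]
    exact integral_congr_ae (h.mono fun s q => (comm_apply q hZ v).symm)
  · rw [inner_star, e, ← integral_inner ((hc.mul_const ‖v‖).mono' h (hb.mono fun s q =>
      (norm_star_apply_le _ _).trans (mul_le_mul_of_nonneg_right q (norm_nonneg _)))),
      ← inner_conj_symm, ← integral_inner (i w), ← integral_conj]
    simp only [inner_conj_symm, inner_star]

section anti

variable (J : H ≃ₗᵢ⋆[ℂ] H) (hJ : ∀ z, J (J z) = z)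

lemma J_inner (v w : H) : inner ℂ (J v) (J w) = inner ℂ w v := P132.g5_inner_J J v w

lemma J_rsmul (r : ℝ) (v : H) : J (r • v) = r • J v := by
  rw [← Complex.coe_smul, map_smulₛₗ, Complex.conj_ofReal, Complex.coe_smul]

lemma J_smul (c : ℂ) (v : H) : J (c • v) = conj c • J v := map_smulₛₗ J c v

include hJ

lemma J_left (v w : H) : inner ℂ (J v) w = inner ℂ (J w) v := by
  rw [← J_inner J v (J w), hJ]

lemma J_right (v w : H) : inner ℂ v (J w) = inner ℂ w (J v) := by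
  rw [← J_inner J, hJ]

lemma jconj_mul' (X Y : H →L[ℂ] H) : jconj J (X * Y) = jconj J X * jconj J Y := by
  ext v
  simp [hJ]

lemma jconj_star (X : H →L[ℂ] H) : star (jconj J X) = jconj J (star X) :=
  ContinuousLinearMap.ext fun v => ext_inner_left ℂ fun w => by
    rw [inner_star, P132.jconj_apply, P132.jconj_apply, J_left J hJ, J_right J hJ w, star_inner]

lemma jconj_two (X : H →L[ℂ] H) : jconj J (jconj J X) = X := by
  ext v
  simp [hJ]

lemma jconj_comm (h : ∀ X ∈ M, jconj J X ∈ M') (hZ : Z ∈ M'.commutant) :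
    jconj J Z ∈ M.commutant :=
  VonNeumannAlgebra.mem_commutant_iff.2 fun g hg => by
    have e := congrArg (jconj J) (comm_mul (h g hg) hZ)
    rwa [jconj_mul' J hJ, jconj_mul' J hJ, jconj_two J hJ] at e

end anti

/-! ## pairs -/

lemma pr_iff : Pr M ξ ψ ψ' ↔ ∀ Z ∈ M.commutant, inner ℂ ξ (Z ψ) = inner ℂ ψ' (Z ξ) := by
  simp only [Pr, star_inner]

lemma pr_iff' : Pr M ξ ψ ψ' ↔ ∀ Z ∈ M.commutant, inner ℂ (Z ξ) ψ = inner ℂ ψ' (star Z ξ) :=
  ⟨fun h Z hZ => by simpa only [star_star] using h _ (star_mem hZ),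
    fun h Z hZ => by simpa only [star_star] using h _ (star_mem hZ)⟩

namespace Pr

lemma of_mem (hX : X ∈ M) : Pr M ξ (X ξ) (star X ξ) := pr_iff.2 fun Z hZ => by
  rw [star_inner, comm_apply hX hZ]

lemma self : Pr M ξ ξ ξ := pr_iff.2 fun _ _ => rfl

lemma cast (h : Pr M ξ ψ ψ') (e : φ = ψ) (e' : φ' = ψ') : Pr M ξ φ φ' := by rwa [e, e']

lemma mono (h : Pr M ξ ψ ψ') (hM : ∀ X ∈ M, X ∈ M') : Pr M' ξ ψ ψ' :=
  fun Z hZ => h Z (comm_anti hM Z hZ)

lemma symm (h : Pr M ξ ψ ψ') : Pr M ξ ψ' ψ := fun Z hZ => by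
  rw [← inner_conj_symm, ← pr_iff'.1 h Z hZ, inner_conj_symm]

/-- the operator `Z ξ ↦ Z ψ` has the adjoint `Z ξ ↦ Z ψ'` -/
lemma two (h : Pr M ξ ψ ψ') (hY : Y ∈ M.commutant) (hZ : Z ∈ M.commutant) :
    inner ℂ (Y ψ') (Z ξ) = inner ℂ (Y ξ) (Z ψ) := by
  have := pr_iff.1 h _ (mul_mem (star_mem hY) hZ)
  rwa [ContinuousLinearMap.mul_apply, ContinuousLinearMap.mul_apply, inner_star, inner_star,
    eq_comm] at this

lemma inner_vac (h : Pr M ξ ψ ψ') : inner ℂ ξ ψ = inner ℂ ψ' ξ := pr_iff.1 h 1 (one_mem _)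

lemma zero : Pr M ξ 0 0 := fun _ _ => by rw [inner_zero_left, inner_zero_right]

lemma add (h : Pr M ξ ψ ψ') (h' : Pr M ξ φ φ') : Pr M ξ (ψ + φ) (ψ' + φ') := fun Z hZ => by
  rw [inner_add_left, inner_add_right, h Z hZ, h' Z hZ]

lemma smul (c : ℂ) (h : Pr M ξ ψ ψ') : Pr M ξ (c • ψ) (conj c • ψ') := fun Z hZ => by
  rw [inner_smul_left, inner_smul_right, h Z hZ, Complex.conj_conj]

lemma csmul (c : ℝ) (h : Pr M ξ ψ ψ') : Pr M ξ ((c : ℂ) • ψ) ((c : ℂ) • ψ') := by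
  simpa only [Complex.conj_ofReal] using h.smul c

lemma rsmul (c : ℝ) (h : Pr M ξ ψ ψ') : Pr M ξ (c • ψ) (c • ψ') := h.csmul c

lemma I_smul (h : Pr M ξ ψ ψ') : Pr M ξ (I • ψ) (-I • ψ') := by
  simpa only [Complex.conj_I] using h.smul I

lemma neg (h : Pr M ξ ψ ψ') : Pr M ξ (-ψ) (-ψ') := by simpa only [neg_one_smul] using h.rsmul (-1)

lemma sub (h : Pr M ξ ψ ψ') (h' : Pr M ξ φ φ') : Pr M ξ (ψ - φ) (ψ' - φ') := by
  simpa only [sub_eq_add_neg] using h.add h'.neg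

lemma sum {ι : Type*} (s : Finset ι) {f f' : ι → H} (h : ∀ i ∈ s, Pr M ξ (f i) (f' i)) :
    Pr M ξ (∑ i ∈ s, f i) (∑ i ∈ s, f' i) := fun Z hZ => by
  rw [sum_inner, inner_sum]
  exact Finset.sum_congr rfl fun i hi => h i hi Z hZ

/-- `Pr (i k) (i k')` is `Pr k (-k')` -/
lemma of_I (h : Pr M ξ (I • k) (I • k')) : Pr M ξ k (-k') := by
  have := h.smul (-I)
  rwa [neg_I_I, map_neg, Complex.conj_I, neg_neg, smul_smul, Complex.I_mul_I, neg_one_smul] at this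

lemma to_I (h : Pr M ξ k (-k')) : Pr M ξ (I • k) (I • k') := by
  simpa only [neg_smul, smul_neg, neg_neg] using h.I_smul

lemma closed_weak {ι : Type*} {l : Filter ι} [l.NeBot] {f f' : ι → H}
    (h : ∀ᶠ i in l, Pr M ξ (f i) (f' i)) (hf : WT l f ψ) (hf' : WT l f' ψ') : Pr M ξ ψ ψ' :=
  fun Z hZ => tendsto_nhds_unique (hf _) ((hf'.left _).congr' (h.mono fun _ q => (q Z hZ).symm))

lemma closed {ι : Type*} {l : Filter ι} [l.NeBot] {f f' : ι → H}
    (h : ∀ᶠ i in l, Pr M ξ (f i) (f' i)) (hf : Tendsto f l (𝓝 ψ)) (hf' : Tendsto f' l (𝓝 ψ')) :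
    Pr M ξ ψ ψ' := closed_weak h (.of hf) (.of hf')

lemma isClosed : IsClosed {p : H × H | Pr M ξ p.1 p.2} :=
  isClosed_iff_forall_filter.2 fun _ _ _ h h' => closed (le_principal_iff.1 h)
    ((continuous_fst.tendsto _).mono_left h') ((continuous_snd.tendsto _).mono_left h')

lemma hasSum {ι : Type*} {f f' : ι → H} (hf : HasSum f ψ) (hf' : HasSum f' ψ')
    (h : ∀ i, Pr M ξ (f i) (f' i)) : Pr M ξ ψ ψ' :=
  closed (.of_forall fun s => sum s fun i _ => h i) hf hf'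

lemma integral {S : Type*} [MeasurableSpace S] {μ : Measure S} {f f' : S → H}
    (hf : Integrable f μ) (hf' : Integrable f' μ) (h : ∀ᵐ s ∂μ, Pr M ξ (f s) (f' s)) :
    Pr M ξ (∫ s, f s ∂μ) (∫ s, f' s ∂μ) := fun Z hZ => by
  rw [← integral_inner hf, ← inner_conj_symm (∫ s, f' s ∂μ), ← integral_inner hf', ← integral_conj]
  exact integral_congr_ae (h.mono fun _ q => by simpa only [inner_conj_symm] using q Z hZ)

lemma intervalIntegral {f f' : ℝ → H} {s t : ℝ} (hf : IntervalIntegrable f volume s t)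
    (hf' : IntervalIntegrable f' volume s t) (h : ∀ r ∈ Set.uIoc s t, Pr M ξ (f r) (f' r)) :
    Pr M ξ (∫ r in s..t, f r) (∫ r in s..t, f' r) := by
  rw [intervalIntegral.intervalIntegral_eq_integral_uIoc,
    intervalIntegral.intervalIntegral_eq_integral_uIoc]
  exact (integral hf.def' hf'.def' ((ae_restrict_mem measurableSet_uIoc).mono h)).rsmul _

/-- derivatives; the pairs are only needed along a filter, for example on one side -/
lemma deriv {f f' : ℝ → H} {t : ℝ} {l : Filter ℝ} [l.NeBot] (hl : l ≤ 𝓝[≠] t)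
    (h : ∀ᶠ s in l, Pr M ξ (f s) (f' s)) (hf : HasDerivAt f k t) (hf' : HasDerivAt f' k' t) :
    Pr M ξ k k' := by
  have l2 := hl.trans nhdsWithin_le_nhds
  have h0 := closed h (hf.continuousAt.tendsto.mono_left l2) (hf'.continuousAt.tendsto.mono_left l2)
  refine closed (h.mono fun s q => ?_) ((hasDerivAt_iff_tendsto_slope.1 hf).mono_left hl)
    ((hasDerivAt_iff_tendsto_slope.1 hf').mono_left hl)
  rw [slope_def_module, slope_def_module]
  exact (q.sub h0).rsmul _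

lemma gn {W W' : ℝ → H →L[ℂ] H} {l : Filter ℝ} [l.NeBot] (hl : l ≤ 𝓝[≠] 0)
    (h : ∀ᶠ s in l, Pr M ξ (W s ψ) (W' s ψ')) (hk : Gn W ψ k) (hk' : Gn W' ψ' k') :
    Pr M ξ (I • k) (I • k') := deriv hl h hk hk'

/-- covariance under unitaries -/
lemma cov (h : Pr M ξ ψ ψ') {U : H →L[ℂ] H} (hU : U ∈ unitary (H →L[ℂ] H)) (e : U ξ = ξ')
    (hM : ∀ X ∈ M, U * X * star U ∈ M') : Pr M' ξ' (U ψ) (U ψ') := pr_iff.2 fun Z hZ => by
  have := pr_iff.1 h _ (conj_comm hU hM hZ)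
  rwa [ContinuousLinearMap.mul_apply, ContinuousLinearMap.mul_apply, ContinuousLinearMap.mul_apply,
    ContinuousLinearMap.mul_apply, inner_star, inner_star, e] at this

lemma cov_ug (h : Pr M ξ ψ ψ') {W : ℝ → H →L[ℂ] H} (g : UG W) {t : ℝ} (e : W t ξ = ξ')
    (hM : ∀ X ∈ M, W t * X * W (-t) ∈ M') : Pr M' ξ' (W t ψ) (W t ψ') :=
  h.cov (g.uni t) e (by rwa [g.star_eq])

/-- groups that map `M` into `M'` for small times on one side -/
lemma gn_ug (h : Pr M ξ ψ ψ') {W : ℝ → H →L[ℂ] H} (g : UG W) (e : ∀ t, W t ξ = ξ) {l : Filter ℝ}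
    [l.NeBot] (hl : l ≤ 𝓝[≠] 0) (hM : ∀ᶠ t in l, ∀ X ∈ M, W t * X * W (-t) ∈ M') (hk : Gn W ψ k)
    (hk' : Gn W ψ' k') : Pr M' ξ (I • k) (I • k') :=
  gn hl (hM.mono fun t q => h.cov_ug g (e t) q) hk hk'

/-- covariance under antiunitary involutions -/
lemma anti (h : Pr M ξ ψ ψ') (J : H ≃ₗᵢ⋆[ℂ] H) (hJ : ∀ z, J (J z) = z) (e : J ξ = ξ)
    (hM : ∀ X ∈ M, jconj J X ∈ M') : Pr M' ξ (J ψ) (J ψ') := fun Z hZ => by
  have := pr_iff'.1 h.symm _ (jconj_comm J hJ hM hZ)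
  rw [jconj_star J hJ, P132.jconj_apply, P132.jconj_apply, e] at this
  rw [J_right J hJ, ← this, J_left J hJ]

/-- truncation, when `ξ` is cyclic for the commutant -/
lemma trunc' (h : Pr M ξ ψ ψ') (hc : Dense {z | ∃ Y ∈ M.commutant, Y ξ = z}) :
    ∃ Z : ℕ → H →L[ℂ] H, (∀ n, Z n ∈ M) ∧ ∀ Y ∈ M.commutant,
      Tendsto (fun n => Z n (Y ξ)) atTop (𝓝 (Y ψ)) ∧
      Tendsto (fun n => star (Z n) (Y ξ)) atTop (𝓝 (Y ψ')) ∧
      ∀ n, ‖Z n (Y ξ)‖ ≤ ‖Y ψ‖ ∧ ‖star (Z n) (Y ξ)‖ ≤ ‖Y ψ'‖ := by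
  obtain ⟨Z, a, b, c, d, e⟩ := TR.trunc M (D := {Y // Y ∈ M.commutant}) (fun Y => Y.1 ξ)
    (fun Y => Y.1 ψ) (fun Y => Y.1 ψ') (hc.mono fun _ q => q.elim fun Y q => ⟨⟨Y, q.1⟩, q.2⟩)
    fun Y hY v w => h.two w.2 (mul_mem hY v.2)
  exact ⟨Z, a, fun Y hY => ⟨b ⟨Y, hY⟩, c ⟨Y, hY⟩, fun n => ⟨d n ⟨Y, hY⟩, e n ⟨Y, hY⟩⟩⟩⟩

lemma trunc (h : Pr M ξ ψ ψ') (hc : Dense {z | ∃ Y ∈ M.commutant, Y ξ = z}) :
    ∃ Z : ℕ → H →L[ℂ] H, (∀ n, Z n ∈ M) ∧ Tendsto (fun n => Z n ξ) atTop (𝓝 ψ) ∧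
      Tendsto (fun n => star (Z n) ξ) atTop (𝓝 ψ') ∧
      ∀ n, ‖Z n ξ‖ ≤ ‖ψ‖ ∧ ‖star (Z n) ξ‖ ≤ ‖ψ'‖ :=
  let ⟨Z, a, b⟩ := h.trunc' hc
  ⟨Z, a, b 1 (one_mem _)⟩

/-- closed properties of pairs can be checked on the algebra -/
lemma induct (h : Pr M ξ ψ ψ') (hc : Dense {z | ∃ Y ∈ M.commutant, Y ξ = z}) {P : H → H → Prop}
    (hP : IsClosed {p : H × H | P p.1 p.2}) (hX : ∀ X ∈ M, P (X ξ) (star X ξ)) : P ψ ψ' :=
  let ⟨_, a, b, c, _⟩ := h.trunc hc
  hP.mem_of_tendsto (b.prodMk_nhds c) (.of_forall fun n => hX _ (a n))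

lemma unique (h : Pr M ξ ψ ψ') (h' : Pr M ξ ψ φ') (hc : Dense {z | ∃ Y ∈ M.commutant, Y ξ = z}) :
    ψ' = φ' :=
  hc.eq_of_inner_left ℂ fun _ q => q.elim fun Y q => q.2 ▸ (h Y q.1).symm.trans (h' Y q.1)

/-- pairs for `M` and pairs for the commutant commute -/
lemma pair (h : Pr M ξ ψ ψ') (h' : Pr M.commutant ξ φ φ')
    (hc : Dense {z | ∃ Y ∈ M.commutant, Y ξ = z}) : inner ℂ ψ' φ = inner ℂ φ' ψ :=
  h.induct hc (P := fun ψ ψ' => inner ℂ ψ' φ = inner ℂ φ' ψ)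
    (isClosed_eq (continuous_snd.inner continuous_const) (continuous_const.inner continuous_fst))
    fun X hX => h' X (mem_cc.2 hX)

lemma pair' (h : Pr M ξ ψ ψ') (h' : Pr M' ξ φ φ') (hM : ∀ X ∈ M', X ∈ M.commutant)
    (hc : Dense {z | ∃ Y ∈ M', Y ξ = z}) : inner ℂ ψ' φ = inner ℂ φ' ψ :=
  h.pair (h'.mono hM) (hc.mono fun _ q => q.elim fun Y q => ⟨Y, hM Y q.1, q.2⟩)

/-- pairs with a bound come from the algebra -/
lemma exists_mem (h : Pr M ξ ψ ψ') (hc : Dense {z | ∃ Y ∈ M.commutant, Y ξ = z}) {C : ℝ}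
    (hC : ∀ Y ∈ M.commutant, ‖Y ψ‖ ≤ C * ‖Y ξ‖) :
    ∃ X ∈ M, X ξ = ψ ∧ star X ξ = ψ' ∧ ‖X‖ ≤ |C| := by
  obtain ⟨Z, a, b⟩ := h.trunc' hc
  have n : ∀ n, ‖Z n‖ ≤ |C| := fun n => ContinuousLinearMap.opNorm_le_bound _ (abs_nonneg _)
    fun v => hc.induction (fun _ ⟨Y, hY, e⟩ => e ▸ ((b Y hY).2.2 n).1.trans ((hC Y hY).trans
      (mul_le_mul_of_nonneg_right (le_abs_self C) (norm_nonneg _))))
      (isClosed_le (by fun_prop) (by fun_prop)) v
  have c : ∀ v, ∃ w, Tendsto (fun n => Z n v) atTop (𝓝 w) := fun v =>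
    cauchySeq_tendsto_of_complete (Metric.cauchySeq_iff'.2 fun ε hε => by
      have p : 0 < 2 * |C| + 1 := by positivity
      obtain ⟨_, ⟨Y, hY, rfl⟩, z2⟩ := Metric.mem_closure_iff.1 (hc v) _ (div_pos (half_pos hε) p)
      obtain ⟨N, hN⟩ := Metric.cauchySeq_iff'.1 (b Y hY).1.cauchySeq _ (half_pos hε)
      refine ⟨N, fun m hm => ?_⟩
      have h1 := hN m hm
      rw [dist_eq_norm] at h1 z2 ⊢
      rw [lt_div_iff₀ p] at z2
      have h2 := (Z m).le_of_opNorm_le (n m) (v - Y ξ)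
      have h3 := (Z N).le_of_opNorm_le (n N) (v - Y ξ)
      have h4 : Z m v - Z N v = Z m (v - Y ξ) - Z N (v - Y ξ) + (Z m (Y ξ) - Z N (Y ξ)) := by
        simp only [map_sub]
        abel
      rw [h4]
      linarith [norm_add_le (Z m (v - Y ξ) - Z N (v - Y ξ)) (Z m (Y ξ) - Z N (Y ξ)),
        norm_sub_le (Z m (v - Y ξ)) (Z N (v - Y ξ)), norm_nonneg (v - Y ξ)])
  choose w hw using c
  have nw : ∀ v, ‖w v‖ ≤ |C| * ‖v‖ := fun v =>
    le_of_tendsto' (hw v).norm fun m => (Z m).le_of_opNorm_le (n m) v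
  let X : H →L[ℂ] H := LinearMap.mkContinuous ⟨⟨w, fun u v => tendsto_nhds_unique (hw _)
    (by simpa only [map_add] using (hw u).add (hw v))⟩, fun s v => tendsto_nhds_unique (hw _)
    (by simpa only [map_smul, RingHom.id_apply] using (hw v).const_smul s)⟩ _ nw
  have m : X ∈ M := mem_of_wt (.of_forall a) fun v => .of (hw v)
  have e : X ξ = ψ := tendsto_nhds_unique (hw ξ) (b 1 (one_mem _)).1
  exact ⟨X, m, e, (e ▸ of_mem m : Pr M ξ ψ _).unique h hc,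
    ContinuousLinearMap.opNorm_le_bound _ (abs_nonneg _) nw⟩

section md

variable (E : ModData M ξ)

/-- `Δ^{1/2} ψ = J ψ'` -/
lemma kms (h : Pr M ξ ψ ψ') {F G : ℝ →ᵇ ℂ} (e : ∀ r : ℝ, F r = Real.exp (r / 2) * G r) :
    E.Th G (E.J ψ') = E.Th F ψ :=
  h.induct E.cyc' (P := fun ψ ψ' => E.Th G (E.J ψ') = E.Th F ψ)
    (isClosed_eq (by fun_prop) (by fun_prop)) fun X hX => E.kms X hX F G e

lemma J_md (h : Pr M ξ ψ ψ') : Pr M.commutant ξ (E.J ψ) (E.J ψ') :=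
  h.anti E.J E.J_J E.J_xi E.J_mem

lemma J_md' (h : Pr M.commutant ξ ψ ψ') : Pr M ξ (E.J ψ) (E.J ψ') :=
  h.anti E.J E.J_J E.J_xi (H820.jconj_mem E)

lemma U_md (h : Pr M ξ ψ ψ') (t : ℝ) : Pr M ξ (E.U t ψ) (E.U t ψ') :=
  h.cov (Unitary.mem_iff.2 ⟨by rw [E.star_U, E.U_neg_mul_U], by rw [E.star_U, E.U_mul_U_neg]⟩)
    (E.U_xi t) fun X hX => E.star_U t ▸ E.U_mem X hX t

/-- symmetry of `Δ^{1/2}` -/
lemma pair_J (h : Pr M ξ ψ ψ') (h' : Pr M ξ φ φ') : inner ℂ (E.J ψ') φ = inner ℂ ψ (E.J φ') := by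
  have := (h'.pair (h.J_md E) E.cyc').symm
  rwa [J_right E.J E.J_J] at this

end md

end Pr

/-! ## affiliated operators -/

section afs

variable {D : Type*} [NormedAddCommGroup D] [InnerProductSpace ℂ D]
  {N N' : VonNeumannAlgebra (Completion D)} {A A' B B' : D → D}

lemma Pr.of_afs (h : T.Afs N A A') (v : D) : Pr N (v : Completion D) (A v : D) (A' v : D) :=
  pr_iff.2 fun Z hZ => (h.2 Z hZ v v).symm

lemma afs_mono (h : T.Afs N A A') (hN : ∀ X ∈ N, X ∈ N') : T.Afs N' A A' :=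
  ⟨h.1, fun Y hY => h.2 Y (comm_anti hN Y hY)⟩

lemma afs_symm (h : T.Afs N A A') : T.Afs N A' A :=
  ⟨fun v w => by rw [← inner_conj_symm, ← h.1, inner_conj_symm], fun Y hY v w => by
    rw [← star_inner, ← star_inner, ← inner_conj_symm, ← inner_conj_symm (star Y _),
      h.2 _ (star_mem hY), ← inner_conj_symm (v : Completion D), inner_conj_symm]⟩

lemma afs_comp (h : T.Afs N A A') (h' : T.Afs N B B') :
    T.Afs N (fun v => A (B v)) fun v => B' (A' v) :=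
  ⟨fun v w => by rw [h.1, h'.1], fun Y hY v w => by rw [h'.2 Y hY, h.2 Y hY]⟩

lemma afs_add (h : T.Afs N A A') (h' : T.Afs N B B') :
    T.Afs N (fun v => A v + B v) fun v => A' v + B' v :=
  ⟨fun v w => by rw [inner_add_left, inner_add_right, h.1, h'.1], fun Y hY v w => by
    rw [Completion.coe_add, Completion.coe_add, inner_add_left, map_add, inner_add_right,
      h.2 Y hY, h'.2 Y hY]⟩

lemma afs_smul (c : ℂ) (h : T.Afs N A A') : T.Afs N (fun v => c • A v) fun v => conj c • A' v :=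
  ⟨fun v w => by rw [inner_smul_left, inner_smul_right, h.1], fun Y hY v w => by
    rw [Completion.coe_smul, Completion.coe_smul, inner_smul_left, map_smul, inner_smul_right,
      h.2 Y hY, Complex.conj_conj]⟩

lemma afs_id : T.Afs N (fun v => v) fun v => v := ⟨fun _ _ => rfl, fun _ _ _ _ => rfl⟩

/-- a field commutes with the commutant, in the weak sense -/
lemma afs_left (h : T.Afs N A A') {Y : Completion D →L[ℂ] Completion D} (hY : Y ∈ N.commutant)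
    (v w : D) : inner ℂ (Y (v : Completion D)) (A w : D) = inner ℂ (Y (A' v : D)) (w : Completion D) := by
  rw [← inner_star, ← inner_star, h.2 _ (star_mem hY)]

end afs

end

end Vale.Agent.P352X
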