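import Vale.Agent.P352X.Defs

/-!
# P352X: test functions on a finite dimensional space (row API2, part a)
-/

set_option linter.all false

open MeasureTheory Filter Topology Set Function
open scoped SchwartzMap ComplexConjugate ContDiff Manifold

namespace Vale.Agent.P352X.Ap

open Vale.Agent.P352 Vale.Agent.P352.GF Vale.Agent.P352.H755

noncomputable section

variable {E F : Type*} [NormedAddCommGroup E] [NormedSpace ℝ E] [NormedAddCommGroup F]
  [NormedSpace ℝ F] {ι : Type*}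

/-! ## Schwartz functions -/

/-- the functions that are Schwartz functions -/
def Sw (f : E → ℂ) : Prop := ∃ G : 𝓢(E, ℂ), ⇑G = f

theorem test_iff {f : Fn} : IsTest f ↔ Sw f := Iff.rfl

theorem sw_coe (G : 𝓢(E, ℂ)) : Sw G := ⟨G, rfl⟩

theorem sch_eq {f : E → ℂ} {G : 𝓢(E, ℂ)} (h : ∀ x, G x = f x) : sch f = G := by
  have k : ∃ G : 𝓢(E, ℂ), ∀ x, G x = f x := ⟨G, h⟩
  ext x
  rw [sch, dif_pos k, k.choose_spec, h]

@[simp] theorem sch_coe (G : 𝓢(E, ℂ)) : sch G = G := sch_eq fun _ => rfl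

@[simp] theorem sch_ev (g : Sch) : sch (ev g) = g := sch_coe g

section sw

variable {f g : E → ℂ}

theorem coe_sch (h : Sw f) : ⇑(sch f) = f := by
  obtain ⟨G, rfl⟩ := h
  rw [sch_coe]

theorem sch_apply (h : Sw f) (x : E) : sch f x = f x := congrFun (coe_sch h) x

theorem ev_sch {f : Fn} (h : IsTest f) : ev (sch f) = f := coe_sch h

theorem tsupport_sch (h : Sw f) : tsupport (sch f) = tsupport f := by rw [coe_sch h]

theorem sw_congr (h : Sw f) (e : ∀ x, g x = f x) : Sw g := funext e ▸ h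

theorem sw_smooth (h : Sw f) : ContDiff ℝ ∞ f := by
  obtain ⟨G, rfl⟩ := h
  exact G.smooth ⊤

theorem sw_cont (h : Sw f) : Continuous f := (sw_smooth h).continuous

theorem sw_diff (h : Sw f) : Differentiable ℝ f := (sw_smooth h).differentiable (by simp)

theorem sw_temp (h : Sw f) : f.HasTemperateGrowth := by
  obtain ⟨G, rfl⟩ := h
  exact G.hasTemperateGrowth

theorem sw_int [MeasurableSpace E] [BorelSpace E] [SecondCountableTopology E] {μ : Measure E}
    [μ.HasTemperateGrowth] (h : Sw f) : Integrable f μ := by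
  obtain ⟨G, rfl⟩ := h
  exact G.integrable

theorem sw_zero : Sw fun _ : E => (0 : ℂ) := ⟨0, rfl⟩

theorem sw_add (hf : Sw f) (hg : Sw g) : Sw fun x => f x + g x := by
  obtain ⟨F, rfl⟩ := hf
  obtain ⟨G, rfl⟩ := hg
  exact ⟨F + G, rfl⟩

theorem sw_cmul (c : ℂ) (hf : Sw f) : Sw fun x => c * f x := by
  obtain ⟨F, rfl⟩ := hf
  exact ⟨c • F, rfl⟩

theorem sw_neg (hf : Sw f) : Sw fun x => -f x := sw_congr (sw_cmul (-1) hf) fun _ => by simp

theorem sw_sub (hf : Sw f) (hg : Sw g) : Sw fun x => f x - g x :=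
  sw_congr (sw_add hf (sw_neg hg)) fun _ => sub_eq_add_neg _ _

theorem sw_lin (c : ℂ) (hf : Sw f) (hg : Sw g) : Sw fun x => f x + c * g x :=
  sw_add hf (sw_cmul c hg)

theorem sw_sum {s : Finset ι} {f : ι → E → ℂ} (h : ∀ i ∈ s, Sw (f i)) :
    Sw fun x => ∑ i ∈ s, f i x := by
  classical
  induction s using Finset.induction_on with
  | empty => simpa using sw_zero
  | insert a s ha ih =>
    simpa [Finset.sum_insert ha] using sw_add (h a (Finset.mem_insert_self _ _))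
      (ih fun i hi => h i (Finset.mem_insert_of_mem hi))

/-- multiplication with functions of temperate growth, for example polynomials -/
theorem sw_mul {u : E → ℂ} (hu : u.HasTemperateGrowth) (hf : Sw f) : Sw fun x => u x * f x := by
  obtain ⟨F, rfl⟩ := hf
  exact ⟨SchwartzMap.smulLeftCLM ℂ u F, SchwartzMap.smulLeftCLM_apply hu F⟩

theorem temp_cx {u : E → ℝ} (hu : u.HasTemperateGrowth) :
    (fun x => (u x : ℂ)).HasTemperateGrowth :=
  Complex.ofRealCLM.hasTemperateGrowth.comp hu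

theorem sw_rmul {u : E → ℝ} (hu : u.HasTemperateGrowth) (hf : Sw f) :
    Sw fun x => (u x : ℂ) * f x := sw_mul (temp_cx hu) hf

theorem sw_conj (hf : Sw f) : Sw fun x => conj (f x) := by
  obtain ⟨F, rfl⟩ := hf
  exact ⟨F.postcompCLM (𝕜 := ℝ) Complex.conjCLE.toContinuousLinearMap, rfl⟩

theorem sw_star (hf : Sw f) : Sw fun x => star (f x) := sw_conj hf

theorem sw_fderiv (v : E) (hf : Sw f) : Sw fun x => fderiv ℝ f x v := by
  obtain ⟨F, rfl⟩ := hf
  exact ⟨LineDeriv.lineDerivOp v F, rfl⟩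

theorem sw_tr (a : E) (hf : Sw f) : Sw fun x => f (x + a) := by
  obtain ⟨F, rfl⟩ := hf
  exact ⟨SchwartzMap.compSubConstCLM ℂ (-a) F, funext fun x => by simp⟩

theorem sw_aff (e : F ≃L[ℝ] E) (a : E) (hf : Sw f) : Sw fun x => f (e x + a) := by
  obtain ⟨G, hG⟩ := sw_tr a hf
  exact ⟨SchwartzMap.compCLMOfContinuousLinearEquiv ℂ e G, funext fun x => congrFun hG (e x)⟩

theorem sw_cle (e : F ≃L[ℝ] E) (hf : Sw f) : Sw fun x => f (e x) := by
  simpa using sw_aff e 0 hf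

theorem sch_zero : sch (fun _ : E => (0 : ℂ)) = 0 := sch_eq fun _ => rfl

theorem sch_add (hf : Sw f) (hg : Sw g) : sch (fun x => f x + g x) = sch f + sch g :=
  sch_eq fun x => by simp [sch_apply hf, sch_apply hg]

theorem sch_sub (hf : Sw f) (hg : Sw g) : sch (fun x => f x - g x) = sch f - sch g :=
  sch_eq fun x => by simp [sch_apply hf, sch_apply hg]

theorem sch_neg (hf : Sw f) : sch (fun x => -f x) = -sch f :=
  sch_eq fun x => by simp [sch_apply hf]

theorem sch_cmul (c : ℂ) (hf : Sw f) : sch (fun x => c * f x) = c • sch f :=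
  sch_eq fun x => by simp [sch_apply hf]

theorem sch_sum {s : Finset ι} {f : ι → E → ℂ} (h : ∀ i ∈ s, Sw (f i)) :
    sch (fun x => ∑ i ∈ s, f i x) = ∑ i ∈ s, sch (f i) :=
  sch_eq fun x => by
    rw [SchwartzMap.sum_apply]
    exact Finset.sum_congr rfl fun i hi => sch_apply (h i hi) x

theorem sch_fderiv (v : E) (hf : Sw f) :
    sch (fun x => fderiv ℝ f x v) = LineDeriv.lineDerivOp v (sch f) :=
  sch_eq fun x => by rw [SchwartzMap.lineDerivOp_apply_eq_fderiv, coe_sch hf]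

end sw

/-! ## smooth functions with compact support, any values -/

/-- smooth with compact support -/
def Cs {G : Type*} [NormedAddCommGroup G] [NormedSpace ℝ G] (f : E → G) : Prop :=
  ContDiff ℝ ∞ f ∧ HasCompactSupport f

section cs

variable {G : Type*} [NormedAddCommGroup G] [NormedSpace ℝ G] {f g : E → G}

theorem cs_add (hf : Cs f) (hg : Cs g) : Cs fun x => f x + g x := ⟨hf.1.add hg.1, hf.2.add hg.2⟩

theorem cs_neg (hf : Cs f) : Cs fun x => -f x := ⟨hf.1.neg, hf.2.neg⟩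

theorem cs_sub (hf : Cs f) (hg : Cs g) : Cs fun x => f x - g x := ⟨hf.1.sub hg.1, hf.2.sub hg.2⟩

theorem cs_zero : Cs fun _ : E => (0 : G) := ⟨contDiff_const, HasCompactSupport.zero⟩

theorem cs_sum {s : Finset ι} {f : ι → E → G} (h : ∀ i ∈ s, Cs (f i)) :
    Cs fun x => ∑ i ∈ s, f i x := by
  classical
  induction s using Finset.induction_on with
  | empty => simpa using cs_zero
  | insert a s ha ih =>
    simpa [Finset.sum_insert ha] using cs_add (h a (Finset.mem_insert_self _ _))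
      (ih fun i hi => h i (Finset.mem_insert_of_mem hi))

theorem cs_fderiv (v : E) (hf : Cs f) : Cs fun x => fderiv ℝ f x v :=
  ⟨(hf.1.fderiv_right (m := ∞) le_rfl).clm_apply contDiff_const, hf.2.fderiv_apply ℝ v⟩

theorem cs_deriv {f : ℝ → G} (hf : Cs f) : Cs (deriv f) := cs_fderiv 1 hf

/-- composition with a smooth proper map -/
theorem cs_comp {e : F → E} (he : ContDiff ℝ ∞ e)
    (hp : ∀ K, IsCompact K → Bornology.IsBounded (e ⁻¹' K)) [ProperSpace F] (hf : Cs f) :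
    Cs fun x => f (e x) :=
  ⟨hf.1.comp he, (Metric.isCompact_of_isClosed_isBounded
    ((isClosed_tsupport f).preimage he.continuous) (hp _ hf.2)).of_isClosed_subset
      (isClosed_tsupport _) (tsupport_comp_subset_preimage f he.continuous)⟩

theorem cs_hom (e : F ≃ₜ E) (he : ContDiff ℝ ∞ e) (hf : Cs f) : Cs fun x => f (e x) :=
  ⟨hf.1.comp he, hf.2.comp_homeomorph e⟩

theorem cs_aff (e : F ≃L[ℝ] E) (a : E) (hf : Cs f) : Cs fun x => f (e x + a) :=
  cs_hom (e.toHomeomorph.trans (Homeomorph.addRight a)) (e.contDiff.add contDiff_const) hf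

theorem cs_tr (a : E) (hf : Cs f) : Cs fun x => f (x + a) :=
  cs_aff (ContinuousLinearEquiv.refl ℝ E) a hf

theorem cs_smul {s : ℝ} (hs : s ≠ 0) (hf : Cs f) : Cs fun x => f (s • x) :=
  cs_hom (Homeomorph.smulOfNeZero s hs) (contDiff_const_smul s) hf

/-- a smooth function that vanishes outside of a compact set -/
theorem cs_of {K : Set E} (hf : ContDiff ℝ ∞ f) (hK : IsCompact K) (h : ∀ x ∉ K, f x = 0) :
    Cs f := ⟨hf, HasCompactSupport.intro hK h⟩

theorem cs_bd (hf : Cs f) (n : ℕ) : ∃ C, 0 ≤ C ∧ ∀ x, ‖iteratedFDeriv ℝ n f x‖ ≤ C := by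
  obtain ⟨C, hC⟩ := (hf.1.continuous_iteratedFDeriv (m := n)
    (by exact_mod_cast le_top)).bounded_above_of_compact_support (hf.2.iteratedFDeriv n)
  exact ⟨C, (norm_nonneg _).trans (hC 0), hC⟩

theorem cs_bd0 (hf : Cs f) : ∃ C, 0 ≤ C ∧ ∀ x, ‖f x‖ ≤ C := by
  simpa using cs_bd hf 0

theorem cs_int [MeasurableSpace E] [OpensMeasurableSpace E] {μ : Measure E}
    [IsFiniteMeasureOnCompacts μ] (hf : Cs f) : Integrable f μ :=
  hf.1.continuous.integrable_of_hasCompactSupport hf.2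

theorem cs_temp (hf : Cs f) : f.HasTemperateGrowth := hf.2.hasTemperateGrowth hf.1

/-- support inside a closed set -/
theorem tsupp_sub {α β : Type*} [TopologicalSpace α] [Zero β] {f : α → β} {K : Set α}
    (hK : IsClosed K) (h : ∀ x, f x ≠ 0 → x ∈ K) : tsupport f ⊆ K :=
  closure_minimal h hK

theorem tsupp_of_zero {α β γ : Type*} [TopologicalSpace α] [Zero β] [Zero γ] {f : α → β}
    {g : α → γ} (h : ∀ x, g x = 0 → f x = 0) : tsupport f ⊆ tsupport g :=
  closure_mono fun x hx k => hx (h x k)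

end cs

section alg

variable {A : Type*} [NormedRing A] [NormedAlgebra ℝ A] {f g : E → A}

theorem cs_mul_l (hf : ContDiff ℝ ∞ f) (hg : Cs g) : Cs fun x => f x * g x :=
  ⟨hf.mul hg.1, hg.2.mul_left⟩

theorem cs_mul_r (hf : Cs f) (hg : ContDiff ℝ ∞ g) : Cs fun x => f x * g x :=
  ⟨hf.1.mul hg, hf.2.mul_right⟩

theorem cs_cmul (c : A) (hf : Cs f) : Cs fun x => c * f x := cs_mul_l contDiff_const hf

theorem tsupp_prod (f : E → A) (g : F → A) :
    tsupport (fun z : E × F => f z.1 * g z.2) ⊆ tsupport f ×ˢ tsupport g :=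
  tsupp_sub ((isClosed_tsupport f).prod (isClosed_tsupport g)) fun _ h =>
    ⟨subset_tsupport _ (left_ne_zero_of_mul h), subset_tsupport _ (right_ne_zero_of_mul h)⟩

theorem cs_prod {g : F → A} (hf : Cs f) (hg : Cs g) : Cs fun z : E × F => f z.1 * g z.2 :=
  ⟨(hf.1.comp contDiff_fst).mul (hg.1.comp contDiff_snd),
    (hf.2.isCompact.prod hg.2.isCompact).of_isClosed_subset (isClosed_tsupport _) (tsupp_prod f g)⟩

end alg

theorem tst_iff {f : E → ℝ} : Tst f ↔ Cs f := Iff.rfl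

theorem dc_iff {f : E → ℂ} : Dc f ↔ Cs f := Iff.rfl

theorem smooth_cx {f : E → ℝ} (hf : ContDiff ℝ ∞ f) : ContDiff ℝ ∞ fun x => (f x : ℂ) :=
  Complex.ofRealCLM.contDiff.comp hf

theorem tsupport_cx (f : E → ℝ) : tsupport (fun x => (f x : ℂ)) = tsupport f :=
  (tsupp_of_zero fun x h => by simp [h]).antisymm (tsupp_of_zero fun x h => by simpa using h)

theorem dc_cx {f : E → ℝ} (hf : Tst f) : Dc fun x => (f x : ℂ) :=
  ⟨smooth_cx hf.1, hf.2.comp_left Complex.ofReal_zero⟩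

theorem dc_conj {f : E → ℂ} (hf : Dc f) : Dc fun x => conj (f x) :=
  ⟨Complex.conjCLE.contDiff.comp hf.1, hf.2.comp_left (g := conj) (map_zero _)⟩

theorem tsupport_conj (f : E → ℂ) : tsupport (fun x => conj (f x)) = tsupport f :=
  (tsupp_of_zero fun x h => by simp [h]).antisymm (tsupp_of_zero fun x h => by simpa using h)

theorem tst_re {f : E → ℂ} (hf : Dc f) : Tst fun x => (f x).re :=
  ⟨Complex.reCLM.contDiff.comp hf.1, hf.2.comp_left (g := Complex.re) rfl⟩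

theorem tst_im {f : E → ℂ} (hf : Dc f) : Tst fun x => (f x).im :=
  ⟨Complex.imCLM.contDiff.comp hf.1, hf.2.comp_left (g := Complex.im) rfl⟩

theorem dc_sw {f : E → ℂ} (hf : Dc f) : Sw f := ⟨hf.2.toSchwartzMap hf.1, rfl⟩

theorem tst_sw {f : E → ℝ} (hf : Tst f) : Sw fun x => (f x : ℂ) := dc_sw (dc_cx hf)

theorem sch_dc {f : E → ℂ} (hf : Dc f) (x : E) : sch f x = f x := sch_apply (dc_sw hf) x

theorem sch_tst {f : E → ℝ} (hf : Tst f) (x : E) : sch (fun x => (f x : ℂ)) x = f x :=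
  sch_dc (dc_cx hf) x

theorem cpt_sch {f : E → ℂ} (hf : Dc f) : HasCompactSupport (sch f) := by
  rw [coe_sch (dc_sw hf)]
  exact hf.2

theorem dc_coe {G : 𝓢(E, ℂ)} (h : HasCompactSupport G) : Dc G := ⟨G.smooth ⊤, h⟩

/-! ## bump functions and partitions of unity -/

section part

variable [FiniteDimensional ℝ E]

/-- a cutoff for a compact set inside an open set -/
theorem ex_chi {K O : Set E} (hK : IsCompact K) (hO : IsOpen O) (h : K ⊆ O) :
    ∃ χ : E → ℝ, Tst χ ∧ tsupport χ ⊆ O ∧ (∀ x ∈ K, ∀ᶠ y in 𝓝 x, χ y = 1) ∧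
      ∀ x, 0 ≤ χ x ∧ χ x ≤ 1 := by
  haveI := FiniteDimensional.proper_real E
  obtain ⟨L, hL, h1, h2⟩ := exists_compact_between hK hO h
  obtain ⟨M, hM, h3, h4⟩ := exists_compact_between hL hO h2
  obtain ⟨χ, c0, c1, c2⟩ := exists_contMDiffMap_zero_one_of_isClosed (n := ⊤) (𝓘(ℝ, E))
    (isOpen_interior (s := M)).isClosed_compl hL.isClosed
    (disjoint_compl_left_iff_subset.2 h3)
  have s : tsupport χ ⊆ M := tsupp_sub hM.isClosed fun x hx =>
    interior_subset (by_contra fun k => hx (c0 k))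
  exact ⟨χ, ⟨χ.contMDiff.contDiff, hM.of_isClosed_subset (isClosed_tsupport _) s⟩, s.trans h4,
    fun x hx => mem_of_superset (mem_interior_iff_mem_nhds.1 (h1 hx)) fun y hy => c1 hy, c2⟩

/-- a cutoff at a point -/
theorem ex_chi_pt {x : E} {U : Set E} (h : U ∈ 𝓝 x) : ∃ χ : E → ℝ, Tst χ ∧ tsupport χ ⊆ U ∧
    (∀ᶠ y in 𝓝 x, χ y = 1) ∧ ∀ x, 0 ≤ χ x ∧ χ x ≤ 1 := by
  obtain ⟨χ, a, b, c, d⟩ := ex_chi (isCompact_singleton (x := x)) isOpen_interior
    (singleton_subset_iff.2 (mem_interior_iff_mem_nhds.2 h))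
  exact ⟨χ, a, b.trans interior_subset, c x rfl, d⟩

theorem ex_cut {U : Set E} (h : U ∈ 𝓝 (0 : E)) :
    ∃ κ : E → ℝ, Cut κ ∧ tsupport κ ⊆ U ∧ ∀ x, 0 ≤ κ x ∧ κ x ≤ 1 := by
  obtain ⟨χ, a, b, c, d⟩ := ex_chi_pt h
  exact ⟨χ, ⟨a, c⟩, b, d⟩

/-- partition of unity near a compact set -/
theorem ex_part {K : Set E} (hK : IsCompact K) (U : E → Set E) (hU : ∀ x ∈ K, U x ∈ 𝓝 x) :
    ∃ (s : Finset E) (χ : E → E → ℝ), (∀ x ∈ s, x ∈ K ∧ Tst (χ x) ∧ tsupport (χ x) ⊆ U x ∧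
      ∀ y, 0 ≤ χ x y ∧ χ x y ≤ 1) ∧ ∀ x ∈ K, ∀ᶠ y in 𝓝 x, ∑ i ∈ s, χ i y = 1 := by
  classical
  have h : ∀ x, ∃ ψ : E → ℝ, x ∈ K → Tst ψ ∧ tsupport ψ ⊆ U x ∧ (∀ᶠ y in 𝓝 x, ψ y = 1) ∧
      ∀ x, 0 ≤ ψ x ∧ ψ x ≤ 1 := fun x => by
    by_cases hx : x ∈ K
    · exact (ex_chi_pt (hU x hx)).imp fun _ h _ => h
    · exact ⟨0, fun k => absurd k hx⟩
  choose ψ hψ using h
  obtain ⟨s, h1, h2⟩ := hK.elim_nhds_subcover (fun x => {z | ∀ᶠ y in 𝓝 z, ψ x y = 1})
    fun x hx => (hψ x hx).2.2.1.eventually_nhds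
  have key : ∀ t : Finset E, (∀ x ∈ t, x ∈ K) → ∃ χ : E → E → ℝ, (∀ x ∈ t, Tst (χ x) ∧
      tsupport (χ x) ⊆ U x ∧ ∀ y, 0 ≤ χ x y ∧ χ x y ≤ 1) ∧
      ∀ y, ∑ i ∈ t, χ i y = 1 - ∏ i ∈ t, (1 - ψ i y) := by
    intro t
    induction t using Finset.induction_on with
    | empty => exact fun _ => ⟨0, by simp⟩
    | insert a t ha ih =>
      intro ht
      obtain ⟨χ, c1, c2⟩ := ih fun x hx => ht x (Finset.mem_insert_of_mem hx)
      obtain ⟨p1, p2, -, p4⟩ := hψ a (ht a (Finset.mem_insert_self _ _))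
      have q := fun i (hi : i ∈ t) => hψ i (ht i (Finset.mem_insert_of_mem hi))
      refine ⟨update χ a fun y => ψ a y * ∏ i ∈ t, (1 - ψ i y), fun x hx => ?_, fun y => ?_⟩
      · rcases Finset.mem_insert.1 hx with rfl | hx
        · rw [update_self]
          have b : ∀ y, 0 ≤ ∏ i ∈ t, (1 - ψ i y) := fun y =>
            Finset.prod_nonneg fun i hi => sub_nonneg.2 ((q i hi).2.2.2 y).2
          exact ⟨cs_mul_r p1 (contDiff_prod fun i hi => contDiff_const.sub (q i hi).1.1),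
            tsupport_mul_subset_left.trans p2, fun y => ⟨mul_nonneg (p4 y).1 (b y),
              mul_le_one₀ (p4 y).2 (b y) (Finset.prod_le_one (fun i hi => sub_nonneg.2
                ((q i hi).2.2.2 y).2) fun i hi => sub_le_self _ ((q i hi).2.2.2 y).1)⟩⟩
        · rw [update_of_ne (ne_of_mem_of_not_mem hx ha)]
          exact c1 x hx
      · rw [Finset.sum_insert ha, Finset.prod_insert ha, update_self,
          Finset.sum_congr rfl fun i hi => by rw [update_of_ne (ne_of_mem_of_not_mem hi ha)], c2]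
        ring
  obtain ⟨χ, c1, c2⟩ := key s h1
  refine ⟨s, χ, fun x hx => ⟨h1 x hx, c1 x hx⟩, fun x hx => ?_⟩
  obtain ⟨i, hi, k⟩ := mem_iUnion₂.1 (h2 hx)
  filter_upwards [k] with y hy
  rw [c2, Finset.prod_eq_zero hi (by rw [hy, sub_self]), sub_zero]

/-- splitting into small pieces -/
theorem dc_split {f : E → ℂ} (hf : Dc f) (U : E → Set E) (hU : ∀ x ∈ tsupport f, U x ∈ 𝓝 x) :
    ∃ (s : Finset E) (χ : E → E → ℝ), (∀ x ∈ s, x ∈ tsupport f ∧ Tst (χ x) ∧
      Dc (fun y => χ x y * f y) ∧ tsupport (fun y => χ x y * f y) ⊆ U x ∩ tsupport f) ∧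
      ∀ y, f y = ∑ i ∈ s, χ i y * f y := by
  obtain ⟨s, χ, h1, h2⟩ := ex_part hf.2.isCompact U hU
  refine ⟨s, χ, fun x hx => ⟨(h1 x hx).1, (h1 x hx).2.1, cs_mul_l (smooth_cx (h1 x hx).2.1.1) hf,
    subset_inter ((tsupp_of_zero fun y h => by simp [h]).trans (h1 x hx).2.2.1)
      tsupport_mul_subset_right⟩, fun y => ?_⟩
  by_cases hy : y ∈ tsupport f
  · rw [← Finset.sum_mul, ← Complex.ofReal_sum, (h2 y hy).self_of_nhds, Complex.ofReal_one, one_mul]
  · simp [image_eq_zero_of_notMem_tsupport hy]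

/-- an additive property that holds locally holds globally -/
theorem dc_ind {P : (E → ℂ) → Prop} {O : Set E} (h0 : P fun _ => 0)
    (hadd : ∀ f g, Dc f → tsupport f ⊆ O → Dc g → tsupport g ⊆ O → P f → P g →
      P fun x => f x + g x)
    (hloc : ∀ x ∈ O, ∃ U ∈ 𝓝 x, ∀ f, Dc f → tsupport f ⊆ U ∩ O → P f)
    {f : E → ℂ} (hf : Dc f) (hO : tsupport f ⊆ O) : P f := by
  classical
  choose! U hU hP using hloc
  obtain ⟨s, χ, h1, h2⟩ := dc_split hf U fun x hx => hU x (hO hx)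
  rw [funext h2]
  clear h2
  induction s using Finset.induction_on with
  | empty => simpa using h0
  | insert a s ha ih =>
    have k := h1 a (Finset.mem_insert_self _ _)
    have k' := fun i hi => h1 i (Finset.mem_insert_of_mem hi)
    simp only [Finset.sum_insert ha]
    refine hadd _ _ k.2.2.1 (tsupport_mul_subset_right.trans hO) (cs_sum fun i hi => (k' i hi).2.2.1)
      ((tsupp_of_zero fun y h => by simp [h]).trans hO) (hP a (hO k.1) _ k.2.2.1
        (k.2.2.2.trans (inter_subset_inter_right _ hO))) (ih k')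

/-- the same for Schwartz functions: a linear map that vanishes locally vanishes -/
theorem lin_zero {H : Type*} [AddCommGroup H] [Module ℂ H] (Λ : 𝓢(E, ℂ) →ₗ[ℂ] H) {O : Set E}
    (hloc : ∀ x ∈ O, ∃ U ∈ 𝓝 x, ∀ G : 𝓢(E, ℂ), HasCompactSupport G → tsupport G ⊆ U ∩ O → Λ G = 0)
    {G : 𝓢(E, ℂ)} (hG : HasCompactSupport G) (hO : tsupport G ⊆ O) : Λ G = 0 := by
  have := dc_ind (P := fun f => Λ (sch f) = 0) (by rw [sch_zero, map_zero])
    (fun f g hf _ hg _ a b => by rw [sch_add (dc_sw hf) (dc_sw hg), map_add, a, b, add_zero])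
    (fun x hx => (hloc x hx).imp fun U h => ⟨h.1, fun f hf k => h.2 _ (cpt_sch hf)
      ((tsupport_sch (dc_sw hf)).trans_subset k)⟩) (dc_coe hG) hO
  rwa [sch_coe] at this

/-- a nonnegative bump with integral one -/
theorem ex_rho [MeasurableSpace E] [BorelSpace E] (μ : Measure E) [μ.IsAddHaarMeasure] {x : E}
    {U : Set E} (h : U ∈ 𝓝 x) :
    ∃ ρ : E → ℝ, Tst ρ ∧ tsupport ρ ⊆ U ∧ (∀ y, 0 ≤ ρ y) ∧ ∫ y, ρ y ∂μ = 1 := by
  obtain ⟨χ, a, b, c, d⟩ := ex_chi_pt h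
  have p : 0 < ∫ y, χ y ∂μ := a.1.continuous.integral_pos_of_hasCompactSupport_nonneg_nonzero a.2
    (fun y => (d y).1) (x := x) (by rw [c.self_of_nhds]; exact one_ne_zero)
  exact ⟨fun y => (∫ y, χ y ∂μ)⁻¹ * χ y, cs_cmul _ a, tsupport_mul_subset_right.trans b,
    fun y => mul_nonneg (inv_pos.2 p).le (d y).1, by rw [integral_const_mul, inv_mul_cancel₀ p.ne']⟩

end part

theorem ex_bump : ∃ θ : ℝ → ℝ, Bump θ ∧ tsupport θ ⊆ Ioo (-2) 2 ∧ ∀ t, 0 ≤ θ t ∧ θ t ≤ 1 := by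
  obtain ⟨χ, a, b, c, d⟩ := ex_chi (isCompact_Icc (a := (-1 : ℝ)) (b := 1))
    (isOpen_Ioo (a := (-2 : ℝ)) (b := 2)) (Icc_subset_Ioo (by norm_num) (by norm_num))
  refine ⟨fun t => χ t * χ (-t), ⟨cs_mul_r a (a.1.comp contDiff_neg), fun t => by simp [mul_comm],
    fun t ht => ?_⟩, tsupport_mul_subset_left.trans b, fun t =>
      ⟨mul_nonneg (d _).1 (d _).1, mul_le_one₀ (d _).2 (d _).1 (d _).2⟩⟩
  show χ t * χ (-t) = 1
  rw [(c t (abs_le.1 ht)).self_of_nhds, (c (-t) (abs_le.1 (by rwa [abs_neg]))).self_of_nhds,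
    one_mul]

/-- a smooth step -/
theorem ex_step {a b : ℝ} (h : a < b) : ∃ χ : ℝ → ℝ, ContDiff ℝ ∞ χ ∧ (∀ t, t ≤ a → χ t = 0) ∧
    (∀ t, b ≤ t → χ t = 1) ∧ Monotone χ ∧ ∀ t, 0 ≤ χ t ∧ χ t ≤ 1 :=
  ⟨fun t => Real.smoothTransition ((t - a) / (b - a)),
    Real.smoothTransition.contDiff.comp ((contDiff_id.sub contDiff_const).div_const _),
    fun t ht => Real.smoothTransition.zero_of_nonpos
      (div_nonpos_of_nonpos_of_nonneg (by linarith) (by linarith)),
    fun t ht => Real.smoothTransition.one_of_one_le ((one_le_div (by linarith)).2 (by linarith)),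
    fun s t hst => Real.smoothTransition.monotone (by gcongr),
    fun t => ⟨Real.smoothTransition.nonneg _, Real.smoothTransition.le_one _⟩⟩

end

end Vale.Agent.P352X.Ap
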