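import Vale.Agent.P352X.Api3a

/-!
# P352X, API 3b: volume, changes of variables on `V` and on the forward cone (helper11)
-/

set_option linter.all false

open Set Filter Topology MeasureTheory
open scoped ContDiff ENNReal

namespace Vale.Agent.P352X

open Vale.Agent.P352.GF Vale.Agent.P352.BW Vale.Agent.P352.H496 Vale.Agent.P352.H755
open Vale.Agent.P352.H246 (linv isLor_linv)

noncomputable section

/-- `A` carries `μ` to `k ν` and agrees almost everywhere with a measurable embedding -/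
structure Sc {X Y : Type*} [MeasurableSpace X] [MeasurableSpace Y] (A : X → Y) (μ : Measure X)
    (ν : Measure Y) (k : ℝ) : Prop where
  pos : 0 < k
  ex : ∃ B, MeasurableEmbedding B ∧ A =ᵐ[μ] B ∧ μ.map B = ENNReal.ofReal k • ν

namespace Sc

variable {X Y Z : Type*} [MeasurableSpace X] [MeasurableSpace Y] [MeasurableSpace Z]
  {A A' : X → Y} {μ : Measure X} {ν : Measure Y} {k : ℝ}
  {E : Type*} [NormedAddCommGroup E]

theorem of_emb (hk : 0 < k) (hA : MeasurableEmbedding A) (h : μ.map A = ENNReal.ofReal k • ν) :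
    Sc A μ ν k := ⟨hk, A, hA, EventuallyEq.rfl, h⟩

theorem of_mp (hA : MeasurableEmbedding A) (h : MeasurePreserving A μ ν) : Sc A μ ν 1 :=
  of_emb one_pos hA (by simpa using h.map_eq)

variable (h : Sc A μ ν k)
include h

theorem ne0 : ENNReal.ofReal k ≠ 0 := by simpa using h.pos

theorem congr (e : A =ᵐ[μ] A') : Sc A' μ ν k := by
  obtain ⟨hk, B, hB, e', hm⟩ := h
  exact ⟨hk, B, hB, e.symm.trans e', hm⟩

theorem aemeas : AEMeasurable A μ := by
  obtain ⟨hk, B, hB, e, hm⟩ := h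
  exact hB.measurable.aemeasurable.congr e.symm

theorem map_eq : μ.map A = ENNReal.ofReal k • ν := by
  obtain ⟨hk, B, hB, e, hm⟩ := h
  rw [Measure.map_congr e, hm]

theorem ae_iff {p : Y → Prop} : (∀ᵐ x ∂μ, p (A x)) ↔ ∀ᵐ y ∂ν, p y := by
  have h0 := h.ne0
  obtain ⟨hk, B, hB, e, hm⟩ := h
  rw [← Measure.ae_ennreal_smul_measure_iff (μ := ν) h0, ← hm, hB.ae_map_iff]
  exact eventually_congr (e.mono fun x hx => by rw [hx])

theorem ae_eq {W : Type*} {f g : Y → W} (e : f =ᵐ[ν] g) :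
    (fun x => f (A x)) =ᵐ[μ] fun x => g (A x) := h.ae_iff.2 e

theorem measure (s : Set Y) : μ (A ⁻¹' s) = ENNReal.ofReal k * ν s := by
  obtain ⟨hk, B, hB, e, hm⟩ := h
  rw [← smul_eq_mul, ← Measure.smul_apply, ← hm, hB.map_apply]
  exact measure_congr (e.mono fun x hx => congrArg s hx)

theorem lintegral (f : Y → ℝ≥0∞) : ∫⁻ x, f (A x) ∂μ = ENNReal.ofReal k * ∫⁻ y, f y ∂ν := by
  obtain ⟨hk, B, hB, e, hm⟩ := h
  rw [← smul_eq_mul, ← lintegral_smul_measure, ← hm, hB.lintegral_map]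
  exact lintegral_congr_ae (e.mono fun x hx => congrArg f hx)

theorem integral [NormedSpace ℝ E] (f : Y → E) : ∫ x, f (A x) ∂μ = k • ∫ y, f y ∂ν := by
  obtain ⟨hk, B, hB, e, hm⟩ := h
  rw [← ENNReal.toReal_ofReal hk.le, ← integral_smul_measure, ← hm, hB.integral_map]
  exact integral_congr_ae (e.mono fun x hx => congrArg f hx)

theorem integral' [NormedSpace ℝ E] (f : Y → E) : ∫ y, f y ∂ν = k⁻¹ • ∫ x, f (A x) ∂μ := by
  rw [h.integral, smul_smul, inv_mul_cancel₀ h.pos.ne', one_smul]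

theorem aesm {W : Type*} [TopologicalSpace W] {f : Y → W} :
    AEStronglyMeasurable (fun x => f (A x)) μ ↔ AEStronglyMeasurable f ν := by
  have h0 := h.ne0
  obtain ⟨hk, B, hB, e, hm⟩ := h
  rw [aestronglyMeasurable_congr (show (fun x => f (A x)) =ᵐ[μ] f ∘ B from
    e.mono fun x hx => congrArg f hx), ← hB.aestronglyMeasurable_map_iff, hm]
  exact ⟨fun H => H.mono_ac (Measure.absolutelyContinuous_smul h0), fun H => H.smul_measure _⟩

theorem eLpNorm (f : Y → E) (p : ℝ≥0∞) :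
    eLpNorm (fun x => f (A x)) p μ = ENNReal.ofReal k ^ (1 / p).toReal * eLpNorm f p ν := by
  have h0 := h.ne0
  obtain ⟨hk, B, hB, e, hm⟩ := h
  rw [← smul_eq_mul, ← eLpNorm_smul_measure_of_ne_zero h0, ← hm, hB.eLpNorm_map_measure]
  exact eLpNorm_congr_ae (e.mono fun x hx => congrArg f hx)

theorem memLp {f : Y → E} {p : ℝ≥0∞} : MemLp (fun x => f (A x)) p μ ↔ MemLp f p ν := by
  have h0 := h.ne0
  rw [MemLp, MemLp, h.aesm, h.eLpNorm, ENNReal.mul_lt_top_iff]
  refine and_congr_right fun _ => ⟨?_, fun H => .inl ⟨ENNReal.rpow_lt_top_of_nonneg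
    ENNReal.toReal_nonneg ENNReal.ofReal_ne_top, H⟩⟩
  rintro (H | H | H)
  · exact H.2
  · exact absurd H (ENNReal.rpow_pos (pos_iff_ne_zero.2 h0) ENNReal.ofReal_ne_top).ne'
  · simp [H]

theorem integrable {f : Y → E} : Integrable (fun x => f (A x)) μ ↔ Integrable f ν := by
  rw [← memLp_one_iff_integrable, ← memLp_one_iff_integrable, h.memLp]

theorem restrict (s : Set Y) : Sc A (μ.restrict (A ⁻¹' s)) (ν.restrict s) k := by
  obtain ⟨hk, B, hB, e, hm⟩ := h
  refine ⟨hk, B, hB, ae_restrict_of_ae e, ?_⟩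
  rw [Measure.restrict_congr_set (show A ⁻¹' s =ᵐ[μ] B ⁻¹' s from
    e.mono fun x hx => congrArg s hx), ← hB.restrict_map, hm, Measure.restrict_smul]

theorem comp {C : Y → Z} {ρ : Measure Z} {k' : ℝ} (h' : Sc C ν ρ k') :
    Sc (fun x => C (A x)) μ ρ (k * k') := by
  obtain ⟨hk', B', hB', e', hm'⟩ := h'
  have e2 := h.ae_eq e'
  obtain ⟨hk, B, hB, e, hm⟩ := h
  refine ⟨mul_pos hk hk', B' ∘ B, hB'.comp hB, e2.trans (e.mono fun x hx => congrArg B' hx), ?_⟩
  rw [← Measure.map_map hB'.measurable hB.measurable, hm, Measure.map_smul, hm', smul_smul,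
    ENNReal.ofReal_mul hk.le]

theorem withDensity (w : Y → ℝ≥0∞) (hw : Measurable w) :
    Sc A (μ.withDensity fun x => w (A x)) (ν.withDensity w) k := by
  obtain ⟨hk, B, hB, e, hm⟩ := h
  refine ⟨hk, B, hB, (withDensity_absolutelyContinuous _ _).ae_le e, ?_⟩
  rw [withDensity_congr_ae (show (fun x => w (A x)) =ᵐ[μ] fun x => w (B x) from
    e.mono fun x hx => congrArg w hx), ← withDensity_smul_measure, ← hm]
  ext s hs
  rw [hB.map_apply, withDensity_apply _ hs, withDensity_apply _ (hB.measurable hs),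
    hB.restrict_map, hB.lintegral_map]

theorem prod {X' Y' : Type*} [MeasurableSpace X'] [MeasurableSpace Y'] {C : X' → Y'}
    {μ' : Measure X'} {ν' : Measure Y'} {k' : ℝ} [SFinite μ] [SFinite ν] [SFinite μ'] [SFinite ν']
    (h' : Sc C μ' ν' k') : Sc (Prod.map A C) (μ.prod μ') (ν.prod ν') (k * k') := by
  obtain ⟨hk', B', hB', e', hm'⟩ := h'
  obtain ⟨hk, B, hB, e, hm⟩ := h
  refine ⟨mul_pos hk hk', Prod.map B B', hB.prodMap hB', ?_, ?_⟩
  · filter_upwards [Measure.quasiMeasurePreserving_fst.ae e,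
      Measure.quasiMeasurePreserving_snd.ae e'] with x h1 h2
    exact Prod.ext h1 h2
  rw [← Measure.map_prod_map _ _ hB.measurable hB'.measurable, hm, hm', Measure.prod_smul_left,
    Measure.prod_smul_right, smul_smul, ENNReal.ofReal_mul hk.le]

/-- the inverse of a measurable equivalence -/
theorem symm' {e : X ≃ᵐ Y} (he : A = e) : Sc e.symm ν μ k⁻¹ := by
  refine of_emb (inv_pos.2 h.pos) e.symm.measurableEmbedding ?_
  have := congrArg (Measure.map e.symm) h.map_eq
  rw [he, e.map_symm_map, Measure.map_smul] at this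
  rw [this, smul_smul, ← ENNReal.ofReal_mul (inv_pos.2 h.pos).le, inv_mul_cancel₀ h.pos.ne']
  simp

omit h in
theorem mp (h : Sc A μ ν 1) (hA : Measurable A) : MeasurePreserving A μ ν :=
  ⟨hA, by simpa using h.map_eq⟩

end Sc

theorem sc_add_right {G : Type*} [NormedAddCommGroup G] [MeasurableSpace G] [BorelSpace G]
    [SecondCountableTopology G] (μ : Measure G) [μ.IsAddRightInvariant] (a : G) :
    Sc (fun x => x + a) μ μ 1 :=
  .of_mp (measurableEmbedding_addRight a) (measurePreserving_add_right μ a)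

/-- invertible linear maps -/
theorem sc_lin {G : Type*} [NormedAddCommGroup G] [NormedSpace ℝ G] [MeasurableSpace G]
    [BorelSpace G] [FiniteDimensional ℝ G] (μ : Measure G) [μ.IsAddHaarMeasure] (A : G →ₗ[ℝ] G)
    (hA : LinearMap.det A ≠ 0) : Sc A μ μ |LinearMap.det A|⁻¹ :=
  .of_emb (inv_pos.2 (abs_pos.2 hA))
    (A.equivOfDetNeZero hA).toContinuousLinearEquiv.toHomeomorph.measurableEmbedding
    (by rw [Measure.map_linearMap_addHaar_eq_smul_addHaar μ hA, abs_inv])

theorem sc_smul {G : Type*} [NormedAddCommGroup G] [NormedSpace ℝ G] [MeasurableSpace G]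
    [BorelSpace G] [FiniteDimensional ℝ G] (μ : Measure G) [μ.IsAddHaarMeasure] {t : ℝ}
    (ht : t ≠ 0) : Sc (fun x : G => t • x) μ μ (|t| ^ Module.finrank ℝ G)⁻¹ :=
  .of_emb (by positivity) (measurableEmbedding_const_smul₀ ht)
    (by rw [Measure.map_addHaar_smul μ ht, abs_inv, abs_pow])

/-! ### null coordinates -/

theorem emb_cle {G G' : Type*} [NormedAddCommGroup G] [NormedSpace ℝ G] [MeasurableSpace G]
    [BorelSpace G] [NormedAddCommGroup G'] [NormedSpace ℝ G'] [MeasurableSpace G'] [BorelSpace G']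
    (e : G ≃L[ℝ] G') : MeasurableEmbedding e := e.toHomeomorph.measurableEmbedding

theorem mp_split {M : Matrix Ix Ix ℝ} (hM : |M.det| = 1) : MeasurePreserving (fun z : V =>
    (((M.mulVec z 1, ![M.mulVec z 2, M.mulVec z 3]) : P3), M.mulVec z 0)) volume volume := by
  have h0 : LinearMap.det (Matrix.toLin' M) ≠ 0 := by
    rw [LinearMap.det_toLin']; intro h; simp [h] at hM
  have h1 := sc_lin (volume : Measure V) _ h0
  rw [LinearMap.det_toLin', hM, inv_one] at h1
  have h2 := (volume_preserving_piFinSuccAbove (fun _ : Fin 3 => ℝ) 0).prod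
    (MeasurePreserving.id (volume : Measure ℝ))
  have h3 := h2.comp (Measure.measurePreserving_swap.comp
    ((volume_preserving_piFinSuccAbove (fun _ : Fin 4 => ℝ) 0).comp
      (h1.mp (Matrix.toLin' M).continuous_of_finiteDimensional.measurable)))
  refine h3.congr (by unfold Matrix.mulVec dotProduct; fun_prop) (ae_of_all _ fun z => ?_)
  refine Prod.ext (Prod.ext rfl ?_) rfl
  funext i; fin_cases i <;> rfl

theorem mp_pmE : MeasurePreserving pmE volume volume := by
  convert mp_split (M := !![1 / 2, 1 / 2, 0, 0; 1, -1, 0, 0; 0, 0, 1, 0; 0, 0, 0, 1]) (by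
    simp [Matrix.det_succ_row_zero, Fin.sum_univ_succ, Fin.succAbove]; norm_num) using 1
  funext z
  simp [pm, al_eq, be_eq, tx, Matrix.mulVec, dotProduct, Fin.sum_univ_four]
  constructor <;> ring

theorem mp_plE : MeasurePreserving plE volume volume := by
  convert mp_split (M := !![1, -1, 0, 0; 1 / 2, 1 / 2, 0, 0; 0, 0, 1, 0; 0, 0, 0, 1]) (by
    simp [Matrix.det_succ_row_zero, Fin.sum_univ_succ, Fin.succAbove]; norm_num) using 1
  funext z
  simp [pl, al_eq, be_eq, tx, Matrix.mulVec, dotProduct, Fin.sum_univ_four]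
  constructor <;> ring

theorem sc_plE : Sc plE volume volume 1 := .of_mp (emb_cle _) mp_plE
theorem sc_pmE : Sc pmE volume volume 1 := .of_mp (emb_cle _) mp_pmE
theorem mp_plE_symm : MeasurePreserving plE.symm volume volume :=
  mp_plE.symm plE.toHomeomorph.toMeasurableEquiv
theorem mp_pmE_symm : MeasurePreserving pmE.symm volume volume :=
  mp_pmE.symm pmE.toHomeomorph.toMeasurableEquiv
/-- the map ((al, x), be) to z -/
theorem sc_pt : Sc (fun y : P3 × ℝ => pt y.1.1 y.2 y.1.2) (volume.prod volume) volume 1 :=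
  .of_mp (emb_cle plE.symm) mp_plE_symm
/-- the map ((be, x), al) to z -/
theorem sc_pt' : Sc (fun y : P3 × ℝ => pt y.2 y.1.1 y.1.2) (volume.prod volume) volume 1 :=
  .of_mp (emb_cle pmE.symm) mp_pmE_symm

section iter

variable {X Y Z : Type*} [MeasurableSpace X] [MeasurableSpace Y] [MeasurableSpace Z]
  {A : X × Y → Z} {μ : Measure X} {μ' : Measure Y} [SFinite μ] [SFinite μ'] {ν : Measure Z}
  {E : Type*} [NormedAddCommGroup E] [NormedSpace ℝ E] (h : Sc A (μ.prod μ') ν 1)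
include h

theorem Sc.iter {F : Z → E} (hF : Integrable F ν) :
    ∫ z, F z ∂ν = ∫ x, ∫ y, F (A (x, y)) ∂μ' ∂μ := by
  rw [h.integral', inv_one, one_smul, integral_prod _ (h.integrable.2 hF)]

theorem Sc.iter' {F : Z → E} (hF : Integrable F ν) :
    ∫ z, F z ∂ν = ∫ y, ∫ x, F (A (x, y)) ∂μ ∂μ' := by
  rw [h.integral', inv_one, one_smul, integral_prod_symm _ (h.integrable.2 hF)]

theorem Sc.liter {F : Z → ℝ≥0∞} (hF : AEMeasurable F ν) :
    ∫⁻ z, F z ∂ν = ∫⁻ x, ∫⁻ y, F (A (x, y)) ∂μ' ∂μ := by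
  have := h.lintegral F
  rw [ENNReal.ofReal_one, one_mul] at this
  rw [← this, lintegral_prod _ (h.aesm.2 hF.aestronglyMeasurable).aemeasurable]

theorem Sc.liter' {F : Z → ℝ≥0∞} (hF : AEMeasurable F ν) :
    ∫⁻ z, F z ∂ν = ∫⁻ y, ∫⁻ x, F (A (x, y)) ∂μ ∂μ' := by
  have := h.lintegral F
  rw [ENNReal.ofReal_one, one_mul] at this
  rw [← this, lintegral_prod_symm _ (h.aesm.2 hF.aestronglyMeasurable).aemeasurable]

/-- product functions, no integrability needed -/
theorem Sc.mul {K : Type*} [RCLike K] {F : Z → K} {g : X → K} {φ : Y → K}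
    (e : ∀ᵐ y ∂μ.prod μ', F (A y) = g y.1 * φ y.2) :
    ∫ z, F z ∂ν = (∫ x, g x ∂μ) * ∫ y, φ y ∂μ' := by
  rw [h.integral', inv_one, one_smul, integral_congr_ae e, integral_prod_mul]

theorem Sc.mul_int {K : Type*} [RCLike K] {F : Z → K} {g : X → K} {φ : Y → K}
    (e : ∀ᵐ y ∂μ.prod μ', F (A y) = g y.1 * φ y.2) (hg : Integrable g μ) (hφ : Integrable φ μ') :
    Integrable F ν := h.integrable.1 ((hg.mul_prod hφ).congr (EventuallyEq.symm e))

theorem Sc.mul_memLp {K : Type*} [RCLike K] {F : Z → K} {g : X → K} {φ : Y → K}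
    (e : ∀ᵐ y ∂μ.prod μ', F (A y) = g y.1 * φ y.2) (hg : MemLp g 2 μ) (hφ : MemLp φ 2 μ') :
    MemLp F 2 ν := by
  refine h.memLp.1 (MemLp.ae_eq (EventuallyEq.symm e) ?_)
  have m : AEStronglyMeasurable (fun y : X × Y => g y.1 * φ y.2) (μ.prod μ') :=
    hg.1.comp_fst.mul hφ.1.comp_snd
  refine (memLp_two_iff_integrable_sq_norm m).2 ?_
  simpa [mul_pow] using ((memLp_two_iff_integrable_sq_norm hg.1).1 hg).mul_prod
    ((memLp_two_iff_integrable_sq_norm hφ.1).1 hφ)

end iter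

theorem integral_pl_be {K : Type*} [RCLike K] (g : P3 → K) (φ : ℝ → K) :
    ∫ z : V, g (pl z) * φ (be z) = (∫ y, g y) * ∫ t, φ t := sc_pt.mul (by simp)
theorem integral_pm_al {K : Type*} [RCLike K] (g : P3 → K) (φ : ℝ → K) :
    ∫ z : V, g (pm z) * φ (al z) = (∫ y, g y) * ∫ t, φ t := sc_pt'.mul (by simp)
theorem integrable_pl_be {K : Type*} [RCLike K] {g : P3 → K} {φ : ℝ → K} (hg : Integrable g)
    (hφ : Integrable φ) : Integrable fun z : V => g (pl z) * φ (be z) :=
  sc_pt.mul_int (by simp) hg hφ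
theorem integrable_pm_al {K : Type*} [RCLike K] {g : P3 → K} {φ : ℝ → K} (hg : Integrable g)
    (hφ : Integrable φ) : Integrable fun z : V => g (pm z) * φ (al z) :=
  sc_pt'.mul_int (by simp) hg hφ

/-! ### conformal linear maps -/

/-- linear maps that multiply the metric by `c` -/
structure Conf (A : V → V) (c : ℝ) : Prop where
  lin : IsLinearMap ℝ A
  pos : 0 < c
  md : ∀ x y, mdot (A x) (A y) = c * mdot x y

namespace Conf

variable {A B : V → V} {c c' : ℝ} (h : Conf A c)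
include h

theorem det : |LinearMap.det (h.lin.mk' A)| = c ^ 2 := by
  set M := LinearMap.toMatrix' (h.lin.mk' A)
  have e : M.transpose * Matrix.diagonal eta * M = c • Matrix.diagonal eta := by
    ext i j
    have := h.md (Pi.single i 1) (Pi.single j 1)
    simp only [mdot] at this
    rw [Matrix.mul_apply]
    simp only [Matrix.mul_diagonal, Matrix.transpose_apply, M, LinearMap.toMatrix'_apply,
      IsLinearMap.mk'_apply, Matrix.smul_apply, smul_eq_mul]
    refine (Finset.sum_congr rfl fun m _ => by ring).trans (this.trans ?_)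
    by_cases hij : i = j <;> simp [Pi.single_apply, Matrix.diagonal_apply, hij, eq_comm]
  have e2 := congrArg Matrix.det e
  have e3 : (Matrix.diagonal eta).det ≠ 0 := by
    rw [Matrix.det_diagonal]; exact Finset.prod_ne_zero_iff.2 fun m _ => eta_ne m
  rw [Matrix.det_mul, Matrix.det_mul, Matrix.det_transpose, Matrix.det_smul, Fintype.card_fin,
    mul_right_comm] at e2
  rw [← LinearMap.det_toMatrix', ← abs_of_pos (pow_pos h.pos 2), ← sq_eq_sq_iff_abs_eq_abs]
  linear_combination mul_right_cancel₀ e3 e2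

theorem det_ne : LinearMap.det (h.lin.mk' A) ≠ 0 := fun e => by
  have := h.det
  rw [e, abs_zero] at this
  exact (pow_pos h.pos 2).ne this

/-- the map as a continuous linear equivalence -/
def cle : V ≃L[ℝ] V := ((h.lin.mk' A).equivOfDetNeZero h.det_ne).toContinuousLinearEquiv

@[simp] theorem cle_apply (x : V) : h.cle x = A x := rfl

theorem cont : Continuous A := h.cle.continuous

theorem mu_map (p : V) : mu (A p) = c * mu p := h.md p p

theorem comp (h' : Conf B c') : Conf (fun x => A (B x)) (c * c') :=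
  ⟨⟨fun x y => by rw [h'.lin.1, h.lin.1], fun t x => by rw [h'.lin.2, h.lin.2]⟩,
    mul_pos h.pos h'.pos, fun x y => by rw [h.md, h'.md, mul_assoc]⟩

theorem symm : Conf h.cle.symm c⁻¹ := ⟨⟨map_add _, map_smul _⟩, inv_pos.2 h.pos, fun x y => by
  rw [eq_inv_mul_iff_mul_eq₀ h.pos.ne', ← h.md, ← h.cle_apply, ← h.cle_apply,
    ContinuousLinearEquiv.apply_symm_apply, ContinuousLinearEquiv.apply_symm_apply]⟩

/-- the adjoint for the Minkowski product is `c` times the inverse -/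
theorem md_l (x y : V) : mdot (A x) y = c * mdot x (h.cle.symm y) := by
  rw [← h.md, ← h.cle_apply (h.cle.symm y), ContinuousLinearEquiv.apply_symm_apply]

theorem sc : Sc A volume volume (c ^ 2)⁻¹ := h.det ▸ sc_lin volume _ h.det_ne

theorem sca (a : V) : Sc (fun x => A x + a) volume volume (c ^ 2)⁻¹ := by
  simpa using h.sc.comp (sc_add_right volume a)

theorem scF (hF : ∀ p, A p ∈ Fc ↔ p ∈ Fc) :
    Sc A (volume.restrict Fc) (volume.restrict Fc) (c ^ 2)⁻¹ := by
  have := h.sc.restrict Fc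
  rwa [show A ⁻¹' Fc = Fc from Set.ext hF] at this

end Conf

section inst

variable {L : Ix → V} {s r t : ℝ}

theorem lin_of {A : V → V} (B : V →ₗ[ℝ] V) (e : ∀ z, B z = A z) : IsLinearMap ℝ A :=
  funext e ▸ B.isLinear
theorem sim_zero (a z : V) : sim s L a z = sim s L 0 z + a := by
  ext n; simp [sim, add_comm]
theorem sim_smul (z : V) : sim s L 0 z = s • sim 1 L 0 z := by
  ext n; simp [sim]
theorem conf_smul (ht : t ≠ 0) : Conf (fun x => t • x) (t ^ 2) :=
  ⟨⟨smul_add t, fun _ _ => smul_comm _ _ _⟩, by positivity, fun x y => by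
    rw [md_smul, md_smul_l]; ring⟩
theorem conf_neg : Conf (fun x => -x) 1 :=
  ⟨⟨neg_add, fun _ _ => (smul_neg _ _).symm⟩, one_pos, fun x y => by simp [md_neg, md_neg_l]⟩
theorem conf_lor (hL : IsLor L) : Conf (sim 1 L 0) 1 :=
  ⟨lin_of (simE 1 L one_pos hL).toLinearMap (simE_apply _ _), one_pos, fun x y => by
    rw [md_LL hL, one_mul]⟩
theorem conf_sim (hs : 0 < s) (hL : IsLor L) : Conf (sim s L 0) (s ^ 2) := by
  simpa [← sim_smul] using (conf_smul hs.ne').comp (conf_lor hL)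
theorem conf_scp (hr : 0 < r) (hs : 0 < s) : Conf (scp r s) (r * s) :=
  ⟨⟨map_add (scpL r s), map_smul (scpL r s)⟩, mul_pos hr hs, fun x y =>
    md_scp x y (mul_pos hr hs).le⟩
theorem conf_gap (u : R2) : Conf (gap u) 1 :=
  ⟨lin_of (gapL u).toLinearMap fun z => gapL_apply z u, one_pos, fun x y => by rw [md_gap, one_mul]⟩
theorem conf_gbp (s : ℝ) : Conf (gbp s) 1 :=
  ⟨lin_of (gbpL s).toLinearMap fun z => gbpL_apply z s, one_pos, fun x y => by rw [md_gbp, one_mul]⟩
theorem conf_jr : Conf jr 1 :=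
  ⟨⟨map_add jrL, map_smul jrL⟩, one_pos, fun x y => by rw [md_jr, one_mul]⟩

theorem Fc_sim (hs : 0 < s) (hL : IsLor L) (p : V) : sim s L 0 p ∈ Fc ↔ p ∈ Fc := by
  rw [sim_smul, Fc_smul hs, Fc_lor_iff p hL]

theorem sc_sim (hs : 0 < s) (hL : IsLor L) (a : V) : Sc (sim s L a) volume volume (s ^ 4)⁻¹ := by
  simpa [← sim_zero, ← pow_mul] using (conf_sim hs hL).sca a
theorem scF_sim (hs : 0 < s) (hL : IsLor L) :
    Sc (sim s L 0) (volume.restrict Fc) (volume.restrict Fc) (s ^ 4)⁻¹ := by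
  simpa [← pow_mul] using (conf_sim hs hL).scF (Fc_sim hs hL)
theorem scF_lor (hL : IsLor L) : Sc (sim 1 L 0) (volume.restrict Fc) (volume.restrict Fc) 1 := by
  simpa using scF_sim one_pos hL
theorem scF_smul (ht : 0 < t) :
    Sc (fun p : V => t • p) (volume.restrict Fc) (volume.restrict Fc) (t ^ 4)⁻¹ := by
  simpa [← pow_mul] using (conf_smul ht.ne').scF fun _ => Fc_smul ht
theorem sc_scp (hr : 0 < r) (hs : 0 < s) : Sc (scp r s) volume volume ((r * s) ^ 2)⁻¹ :=
  (conf_scp hr hs).sc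
theorem scF_scp (hr : 0 < r) (hs : 0 < s) :
    Sc (scp r s) (volume.restrict Fc) (volume.restrict Fc) ((r * s) ^ 2)⁻¹ :=
  (conf_scp hr hs).scF fun _ => Fc_scp hr hs
theorem sc_gap (u : R2) : Sc (gap u) volume volume 1 := by simpa using (conf_gap u).sc
theorem scF_gap (u : R2) : Sc (gap u) (volume.restrict Fc) (volume.restrict Fc) 1 := by
  simpa using (conf_gap u).scF fun p => Fc_gap p u
theorem sc_gbp (s : ℝ) : Sc (gbp s) volume volume 1 := by simpa using (conf_gbp s).sc
theorem scF_gbp (s : ℝ) : Sc (gbp s) (volume.restrict Fc) (volume.restrict Fc) 1 := by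
  simpa using (conf_gbp s).scF fun p => Fc_gbp p s
theorem sc_jr : Sc jr volume volume 1 := by simpa using conf_jr.sc
theorem sc_neg : Sc (fun p : V => -p) volume volume 1 := by simpa using conf_neg.sc

end inst

/-! ### fibrewise affine maps, coordinates on the cone -/

theorem sc_fib {X G : Type*} [MeasurableSpace X] [NormedAddCommGroup G] [NormedSpace ℝ G]
    [MeasurableSpace G] [BorelSpace G] [FiniteDimensional ℝ G] (μ : Measure X) [SFinite μ]
    (ν : Measure G) [ν.IsAddHaarMeasure] {g : X → ℝ} {h : X → G} {w : X → ℝ≥0∞} (hg : Measurable g)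
    (hh : Measurable h) (hw : Measurable w)
    (h0 : ∀ᵐ x ∂μ, g x ≠ 0 ∧ w x = ENNReal.ofReal (|g x| ^ Module.finrank ℝ G)) :
    Sc (fun y : X × G => (y.1, g y.1 • y.2 + h y.1)) ((μ.withDensity w).prod ν) (μ.prod ν) 1 := by
  classical
  set g' : X → ℝ := fun x => if g x = 0 then 1 else g x
  have m : Measurable g' := Measurable.ite (hg (measurableSet_singleton 0)) measurable_const hg
  have n (x) : g' x ≠ 0 := by simp only [g']; split_ifs with h; exacts [one_ne_zero, h]
  let B : X × G ≃ᵐ X × G :=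
    { toFun := fun y => (y.1, g' y.1 • y.2 + h y.1)
      invFun := fun y => (y.1, (g' y.1)⁻¹ • (y.2 - h y.1))
      left_inv := fun y => by simp [smul_smul, n]
      right_inv := fun y => by simp [smul_smul, n]
      measurable_toFun := by simp only [Equiv.coe_fn_mk]; fun_prop
      measurable_invFun := by simp only [Equiv.coe_fn_symm_mk]; fun_prop }
  refine ⟨one_pos, B, B.measurableEmbedding, ?_, ?_⟩
  · filter_upwards [Measure.quasiMeasurePreserving_fst.ae
      ((withDensity_absolutelyContinuous μ w).ae_le h0)] with y hy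
    simp [B, g', hy.1]
  ext s hs
  rw [B.map_apply, Measure.prod_apply (B.measurable hs), ENNReal.ofReal_one, one_smul,
    Measure.prod_apply hs, lintegral_withDensity_eq_lintegral_mul _ hw
      (measurable_measure_prodMk_left (B.measurable hs))]
  refine lintegral_congr_ae (h0.mono fun x hx => ?_)
  have := ((sc_smul ν hx.1).comp (sc_add_right ν (h x))).measure (Prod.mk x ⁻¹' s)
  have e : g' x = g x := if_neg hx.1
  have p : 0 < |g x| ^ Module.finrank ℝ G := pow_pos (abs_pos.2 hx.1) _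
  simp only [Pi.mul_apply]
  rw [hx.2, show Prod.mk x ⁻¹' (B ⁻¹' s) = (fun v => g x • v + h x) ⁻¹' (Prod.mk x ⁻¹' s) by
    rw [← e]; rfl, this, ← mul_assoc, ← ENNReal.ofReal_mul p.le, mul_one, mul_inv_cancel₀ p.ne']
  simp

theorem sc_shear {X G : Type*} [MeasurableSpace X] [NormedAddCommGroup G] [NormedSpace ℝ G]
    [MeasurableSpace G] [BorelSpace G] [FiniteDimensional ℝ G] (μ : Measure X) [SFinite μ]
    (ν : Measure G) [ν.IsAddHaarMeasure] {h : X → G} (hh : Measurable h) :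
    Sc (fun y : X × G => (y.1, y.2 + h y.1)) (μ.prod ν) (μ.prod ν) 1 := by
  simpa using sc_fib μ ν (g := fun _ => 1) (w := 1) measurable_const hh measurable_const (by simp)

/-- the half space `p > 0` -/
abbrev Pp : Set P3 := {k | 0 < k.1}
theorem meas_Pp : MeasurableSet Pp := measurableSet_lt measurable_const measurable_fst
theorem vol_Pp : volume.restrict Pp = (volume.restrict (Ioi (0 : ℝ))).prod (volume : Measure R2) := by
  rw [Measure.restrict_prod_eq_prod_univ]; congr 1; ext k; simp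
instance : SFinite m3 := by unfold m3; infer_instance
theorem ae_m3 {p : P3 → Prop} (h : ∀ k : P3, 0 < k.1 → p k) : ∀ᵐ k ∂m3, p k :=
  (withDensity_absolutelyContinuous _ _).ae_le ((ae_restrict_mem meas_Pp).mono h)

/-- the point with `pm = k` and `mu / (2 be) = t` -/
def pc (k : P3) (t : ℝ) : V := pt (t + d2 k.2 k.2 / (2 * k.1)) k.1 k.2
/-- the point with `pm = k` and `mu = m` -/
def pq (k : P3) (m : ℝ) : V := pt ((m + d2 k.2 k.2) / (2 * k.1)) k.1 k.2

section cone
variable (k : P3) (t : ℝ)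
@[simp] theorem pm_pc : pm (pc k t) = k := pm_pt _ _ _
@[simp] theorem be_pc : be (pc k t) = k.1 := be_pt _ _ _
@[simp] theorem tx_pc : tx (pc k t) = k.2 := tx_pt _ _ _
@[simp] theorem al_pc : al (pc k t) = t + d2 k.2 k.2 / (2 * k.1) := al_pt _ _ _
@[simp] theorem pm_pq : pm (pq k t) = k := pm_pt _ _ _
@[simp] theorem be_pq : be (pq k t) = k.1 := be_pt _ _ _
@[simp] theorem tx_pq : tx (pq k t) = k.2 := tx_pt _ _ _
@[simp] theorem al_pq : al (pq k t) = (t + d2 k.2 k.2) / (2 * k.1) := al_pt _ _ _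
variable {k}
theorem mu_pc (h : k.1 ≠ 0) : mu (pc k t) = 2 * k.1 * t := by rw [pc, mu_pt]; field_simp; ring
theorem mu_pc' (h : k.1 ≠ 0) : mu (pc k t) / (2 * k.1) = t := by rw [mu_pc _ h]; field_simp
theorem mu_pq (h : k.1 ≠ 0) : mu (pq k t) = t := by rw [pq, mu_pt]; field_simp; ring
theorem pc_mem (h : 0 < k.1) : pc k t ∈ Fc ↔ 0 < t := by simp [mem_Fc, mu_pc _ h.ne', h]
theorem pq_mem (h : 0 < k.1) : pq k t ∈ Fc ↔ 0 < t := by simp [mem_Fc, mu_pq _ h.ne', h]
theorem pc_eta {p : V} (h : be p ≠ 0) : pc (pm p) (mu p / (2 * be p)) = p :=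
  null_ext (by simp only [al_pc, pm_1, pm_2, mu_eq]; field_simp; ring) (by simp) (by simp)
theorem pq_eta {p : V} (h : be p ≠ 0) : pq (pm p) (mu p) = p :=
  null_ext (by simp only [al_pq, pm_1, pm_2, mu_eq]; field_simp; ring) (by simp) (by simp)
theorem al_eq_mu {p : V} (h : be p ≠ 0) :
    mu p / (2 * be p) = al p - d2 (tx p) (tx p) / (2 * be p) := by rw [mu_eq]; field_simp
end cone

@[fun_prop] theorem meas_pc {X : Type*} [MeasurableSpace X] {f : X → P3} {g : X → ℝ}
    (hf : Measurable f) (hg : Measurable g) : Measurable fun a => pc (f a) (g a) := by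
  unfold pc; fun_prop
@[fun_prop] theorem meas_pq {X : Type*} [MeasurableSpace X] {f : X → P3} {g : X → ℝ}
    (hf : Measurable f) (hg : Measurable g) : Measurable fun a => pq (f a) (g a) := by
  unfold pq; fun_prop

theorem sc_cone {μ : Measure P3} [SFinite μ] {a : P3 × ℝ → ℝ}
    (H : Sc (fun y => (y.1, a y)) (μ.prod volume) ((volume.restrict Pp).prod volume) 1)
    (e : ∀ᵐ y ∂μ.prod volume, pt (a y) y.1.1 y.1.2 ∈ Fc ↔ 0 < y.2) :
    Sc (fun y => pt (a y) y.1.1 y.1.2) (μ.prod (volume.restrict (Ioi 0))) (volume.restrict Fc) 1 := by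
  have h1 := sc_pt'.restrict {z | 0 < be z}
  rw [show (fun y : P3 × ℝ => pt y.2 y.1.1 y.1.2) ⁻¹' {z | 0 < be z} = Pp ×ˢ univ by
    ext y; simp, ← Measure.restrict_prod_eq_prod_univ] at h1
  have h2 := (H.comp h1).restrict Fc
  rwa [Measure.restrict_restrict meas_Fc, inter_eq_left.2 (show Fc ⊆ {z | 0 < be z} from
    fun p hp => ((mem_Fc p).1 hp).1),
    Measure.restrict_congr_set (t := univ ×ˢ Ioi 0) (e.mono fun y hy => propext (by
      refine hy.trans ?_; change _ ↔ y ∈ univ ×ˢ Ioi 0; simp)), ← Measure.prod_restrict,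
    Measure.restrict_univ, mul_one] at h2

/-- the whole space in the coordinates p, q, mu / 2p -/
theorem sc_pc_univ : Sc (fun y : P3 × ℝ => pc y.1 y.2) (volume.prod volume) volume 1 := by
  simpa [pc] using (sc_shear volume volume (h := fun k : P3 => d2 k.2 k.2 / (2 * k.1))
    (by fun_prop)).comp sc_pt'

/-- the cone in the coordinates p, q, mu / 2p -/
theorem sc_pc : Sc (fun y : P3 × ℝ => pc y.1 y.2)
    ((volume.restrict Pp).prod (volume.restrict (Ioi 0))) (volume.restrict Fc) 1 :=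
  sc_cone (sc_shear _ volume (h := fun k : P3 => d2 k.2 k.2 / (2 * k.1)) (by fun_prop))
    ((Measure.quasiMeasurePreserving_fst.ae (ae_restrict_mem meas_Pp)).mono fun y hy =>
      pc_mem y.2 hy)

/-- the measure `dp d^2q / 2p` on `p > 0` -/
def mI : Measure P3 := (volume.restrict Pp).withDensity fun k => ENNReal.ofReal (2 * k.1)⁻¹
instance : SFinite mI := by unfold mI; infer_instance
theorem ae_mI {p : P3 → Prop} (h : ∀ k : P3, 0 < k.1 → p k) : ∀ᵐ k ∂mI, p k :=
  (withDensity_absolutelyContinuous _ _).ae_le ((ae_restrict_mem meas_Pp).mono h)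

/-- the cone in the coordinates p, q, mu -/
theorem sc_pq : Sc (fun y : P3 × ℝ => pq y.1 y.2) (mI.prod (volume.restrict (Ioi 0)))
    (volume.restrict Fc) 1 := by
  refine sc_cone (a := fun y => (y.2 + d2 y.1.2 y.1.2) / (2 * y.1.1)) ?_
    ((Measure.quasiMeasurePreserving_fst.ae (ae_mI fun _ h => h)).mono fun y hy => pq_mem y.2 hy)
  refine (sc_fib _ volume (g := fun k : P3 => (2 * k.1)⁻¹)
    (h := fun k : P3 => d2 k.2 k.2 / (2 * k.1)) (by fun_prop) (by fun_prop) (by fun_prop)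
    ((ae_restrict_mem meas_Pp).mono fun k (hk : 0 < k.1) => ⟨by positivity, ?_⟩)).congr
    (ae_of_all _ fun y => Prod.ext rfl (by simp only [smul_eq_mul]; ring))
  rw [Module.finrank_self, pow_one, abs_of_pos (by positivity)]

theorem m3_eq : m3 = ((volume.restrict (Ioi (0 : ℝ))).withDensity
    fun p => ENNReal.ofReal (p ^ 2)).prod (volume : Measure R2) := by
  rw [prod_withDensity_left (by fun_prop), ← vol_Pp]; rfl

/-- the map (p, v) to (p, p v) -/
theorem sc_pv : Sc (fun k : P3 => ((k.1, k.1 • k.2) : P3)) m3 (volume.restrict Pp) 1 := by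
  rw [m3_eq, vol_Pp]
  simpa using sc_fib (volume.restrict (Ioi (0 : ℝ))) (volume : Measure R2) (g := fun p => p)
    (h := fun _ => 0) (w := fun p => ENNReal.ofReal (p ^ 2)) measurable_id measurable_const
    (by fun_prop) ((ae_restrict_mem measurableSet_Ioi).mono fun p (hp : 0 < p) =>
      ⟨hp.ne', by simp⟩)

theorem sc_swap {X Y : Type*} [MeasurableSpace X] [MeasurableSpace Y] (μ : Measure X)
    (ν : Measure Y) [SFinite μ] [SFinite ν] : Sc Prod.swap (μ.prod ν) (ν.prod μ) 1 :=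
  .of_mp MeasurableEquiv.prodComm.measurableEmbedding Measure.measurePreserving_swap

theorem sc_shear' {X G : Type*} [MeasurableSpace X] [NormedAddCommGroup G] [NormedSpace ℝ G]
    [MeasurableSpace G] [BorelSpace G] [FiniteDimensional ℝ G] (μ : Measure X) [SFinite μ]
    (ν : Measure G) [ν.IsAddHaarMeasure] {h : X → G} (hh : Measurable h) :
    Sc (fun y : G × X => (y.1 + h y.2, y.2)) (ν.prod μ) (ν.prod μ) 1 := by
  simpa using ((sc_swap ν μ).comp (sc_shear μ ν hh)).comp (sc_swap μ ν)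

/-- anisotropic scalings of the null plane -/
theorem sc_P3 {a b : ℝ} (ha : 0 < a) (hb : b ≠ 0) :
    Sc (fun y : P3 => ((a * y.1, b • y.2) : P3)) volume volume (a * b ^ 2)⁻¹ := by
  have := (sc_smul (volume : Measure ℝ) ha.ne').prod (sc_smul (volume : Measure R2) hb)
  simp only [Module.finrank_self, pow_one, abs_of_pos ha, Module.finrank_fin_fun, sq_abs,
    ← mul_inv] at this
  exact this

theorem sc_Pp {a b : ℝ} (ha : 0 < a) (hb : b ≠ 0) : Sc (fun y : P3 => ((a * y.1, b • y.2) : P3))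
    (volume.restrict Pp) (volume.restrict Pp) (a * b ^ 2)⁻¹ := by
  have := (sc_P3 ha hb).restrict Pp
  rwa [show (fun y : P3 => ((a * y.1, b • y.2) : P3)) ⁻¹' Pp = Pp by ext y; simp [ha]] at this

theorem Sc.smul_left {X Y : Type*} [MeasurableSpace X] [MeasurableSpace Y] {A : X → Y}
    {μ : Measure X} {ν : Measure Y} {k c : ℝ} (hc : 0 < c) (h : Sc A (ENNReal.ofReal c • μ) ν k) :
    Sc A μ ν (k / c) := by
  obtain ⟨hk, B, hB, e, hm⟩ := h
  have h0 : ENNReal.ofReal c ≠ 0 := by simpa using hc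
  refine ⟨div_pos hk hc, B, hB, (Measure.ae_ennreal_smul_measure_iff h0).1 e, ?_⟩
  rw [Measure.map_smul] at hm
  rw [div_eq_inv_mul, ENNReal.ofReal_mul (inv_pos.2 hc).le, ← smul_smul, ← hm, smul_smul,
    ← ENNReal.ofReal_mul (inv_pos.2 hc).le, inv_mul_cancel₀ hc.ne']
  simp

theorem sc_m3 {a b : ℝ} (ha : 0 < a) (hb : b ≠ 0) :
    Sc (fun y : P3 => ((a * y.1, b • y.2) : P3)) m3 m3 (a ^ 3 * b ^ 2)⁻¹ := by
  have := (sc_Pp ha hb).withDensity (fun k => ENNReal.ofReal (k.1 ^ 2)) (by fun_prop)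
  simp only [mul_pow, ENNReal.ofReal_mul (sq_nonneg a)] at this
  rw [show (fun k : P3 => ENNReal.ofReal (a ^ 2) * ENNReal.ofReal (k.1 ^ 2)) =
    ENNReal.ofReal (a ^ 2) • fun k : P3 => ENNReal.ofReal (k.1 ^ 2) from rfl,
    withDensity_smul _ (by fun_prop)] at this
  rw [show (a ^ 3 * b ^ 2)⁻¹ = (a * b ^ 2)⁻¹ / a ^ 2 by field_simp]
  exact this.smul_left (pow_pos ha 2)

theorem sc_m3_shear {h : ℝ → R2} (hh : Measurable h) :
    Sc (fun y : P3 => ((y.1, y.2 + h y.1) : P3)) m3 m3 1 := by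
  rw [m3_eq]; exact sc_shear _ _ hh

section formulas

variable {E : Type*} [NormedAddCommGroup E] [NormedSpace ℝ E] {K : Type*} [RCLike K]

theorem integral_m3 (G : P3 → E) : ∫ k, G k ∂m3 = ∫ k in Pp, k.1 ^ 2 • G k := by
  rw [m3, integral_withDensity_eq_integral_toReal_smul (by fun_prop) (by simp)]
  simp only [ENNReal.toReal_ofReal (sq_nonneg _)]

theorem integrable_m3 {G : P3 → E} :
    Integrable G m3 ↔ IntegrableOn (fun k => k.1 ^ 2 • G k) Pp := by
  rw [m3, integrable_withDensity_iff_integrable_smul' (by fun_prop) (by simp)]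
  simp only [ENNReal.toReal_ofReal (sq_nonneg _)]; rfl

theorem aesm_m3 {G : P3 → E} :
    AEStronglyMeasurable G m3 ↔ AEStronglyMeasurable G (volume.restrict Pp) :=
  ⟨fun h => h.mono_ac (withDensity_absolutelyContinuous' (by fun_prop)
    ((ae_restrict_mem meas_Pp).mono fun k (hk : 0 < k.1) => by simpa using hk.ne')),
    fun h => h.mono_ac (withDensity_absolutelyContinuous _ _)⟩

theorem memLp_m3 {G : P3 → E} :
    MemLp G 2 m3 ↔ MemLp (fun k => k.1 • G k) 2 (volume.restrict Pp) := by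
  have m : AEStronglyMeasurable (fun k => k.1 • G k) (volume.restrict Pp) ↔
      AEStronglyMeasurable G m3 := by
    refine ⟨fun h => aesm_m3.2 (((by fun_prop : Measurable fun k : P3 => k.1⁻¹).aestronglyMeasurable.smul
      h).congr ((ae_restrict_mem meas_Pp).mono fun k (hk : 0 < k.1) => ?_)),
      fun h => measurable_fst.aestronglyMeasurable.smul (aesm_m3.1 h)⟩
    simp [smul_smul, hk.ne']
  have e : (fun k : P3 => k.1 ^ 2 • ‖G k‖ ^ 2) = fun k => ‖k.1 • G k‖ ^ 2 := by
    funext k; simp [norm_smul, mul_pow]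
  exact ⟨fun h => (memLp_two_iff_integrable_sq_norm (m.2 h.1)).2
    (e ▸ integrable_m3.1 ((memLp_two_iff_integrable_sq_norm h.1).1 h)), fun h =>
    (memLp_two_iff_integrable_sq_norm (m.1 h.1)).2
      (integrable_m3.2 (e ▸ (memLp_two_iff_integrable_sq_norm h.1).1 h))⟩

theorem integral_mI (G : P3 → E) : ∫ k, G k ∂mI = ∫ k in Pp, (2 * k.1)⁻¹ • G k := by
  rw [mI, integral_withDensity_eq_integral_toReal_smul (by fun_prop) (by simp)]
  exact setIntegral_congr_fun meas_Pp fun k (hk : 0 < k.1) => by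
    simp only [ENNReal.toReal_ofReal (by positivity : 0 ≤ (2 * k.1)⁻¹)]

theorem integrable_mI {G : P3 → E} :
    Integrable G mI ↔ IntegrableOn (fun k => (2 * k.1)⁻¹ • G k) Pp := by
  rw [mI, integrable_withDensity_iff_integrable_smul' (by fun_prop) (by simp)]
  exact integrableOn_congr_fun (fun k (hk : 0 < k.1) => by
    simp only [ENNReal.toReal_ofReal (by positivity : 0 ≤ (2 * k.1)⁻¹)]) meas_Pp

theorem integral_Fc {F : V → E} (hF : IntegrableOn F Fc) :
    ∫ p in Fc, F p = ∫ k in Pp, ∫ t in Ioi 0, F (pc k t) := sc_pc.iter hF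

theorem integral_Fc_mu {F : V → E} (hF : IntegrableOn F Fc) :
    ∫ p in Fc, F p = ∫ k in Pp, (2 * k.1)⁻¹ • ∫ m in Ioi 0, F (pq k m) := by
  rw [sc_pq.iter hF, integral_mI]

theorem ae_pc {p : P3 × ℝ → Prop} (h : ∀ k : P3, 0 < k.1 → ∀ t, p (k, t)) :
    ∀ᵐ y ∂(volume.restrict Pp).prod (volume.restrict (Ioi (0 : ℝ))), p y :=
  (Measure.quasiMeasurePreserving_fst.ae (ae_restrict_mem meas_Pp)).mono fun y hy => h y.1 hy y.2

theorem ae_pq {p : P3 × ℝ → Prop} (h : ∀ k : P3, 0 < k.1 → ∀ t, p (k, t)) :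
    ∀ᵐ y ∂mI.prod (volume.restrict (Ioi (0 : ℝ))), p y :=
  (Measure.quasiMeasurePreserving_fst.ae (ae_mI fun _ h => h)).mono fun y hy => h y.1 hy y.2

theorem integral_Fc_mul (g : P3 → K) (φ : ℝ → K) :
    ∫ p in Fc, g (pm p) * φ (mu p / (2 * be p)) = (∫ k in Pp, g k) * ∫ t in Ioi 0, φ t :=
  sc_pc.mul (ae_pc fun k hk t => by simp [mu_pc' _ hk.ne'])

theorem integral_Fc_mul_mu (g : P3 → K) (φ : ℝ → K) :
    ∫ p in Fc, g (pm p) * φ (mu p) = (∫ k, g k ∂mI) * ∫ m in Ioi 0, φ m :=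
  sc_pq.mul (ae_pq fun k hk t => by simp [mu_pq _ hk.ne'])

/-- the scalar products of the vectors `Tht` -/
theorem integral_Tht (g : P3 → ℂ) (φ : ℝ → ℂ) :
    ∫ p in Fc, ((mu p : ℝ) : ℂ) ^ 2 * g (pm p) * φ (mu p / (2 * be p)) =
      (∫ k, g k ∂m3) * ∫ t in Ioi (0 : ℝ), 4 * (t : ℂ) ^ 2 * φ t := by
  rw [integral_m3]
  refine sc_pc.mul (ae_pc fun k hk t => ?_)
  simp only [be_pc, pm_pc, mu_pc' _ hk.ne']
  simp [mu_pc _ hk.ne']; ring

theorem memLp_Tht {γ : P3 → ℂ} {ψ : ℝ → ℂ} (hγ : MemLp γ 2 m3)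
    (hψ : MemLp (fun t : ℝ => (t : ℂ) * ψ t) 2 (volume.restrict (Ioi 0))) :
    MemLp (fun p => ((mu p : ℝ) : ℂ) * γ (pm p) * ψ (mu p / (2 * be p))) 2 (volume.restrict Fc) := by
  refine sc_pc.mul_memLp (ae_pc fun k hk t => ?_) (memLp_m3.1 hγ) (hψ.const_mul 2)
  simp only [be_pc, pm_pc, mu_pc' _ hk.ne']
  simp [mu_pc _ hk.ne']; ring

end formulas

end

end Vale.Agent.P352X
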