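import Vale.Agent.P352X.Api2
import Vale.Agent.P352X.Api3b

/-!
# P352X: test functions on Minkowski space (row API2, part b)
-/

set_option linter.all false

open MeasureTheory Filter Topology Set Function
open scoped SchwartzMap ComplexConjugate ContDiff

namespace Vale.Agent.P352X.Ap

open Vale.Agent.P352.GF Vale.Agent.P352.H755 Vale.Agent.P352.H15
open Vale.Agent.P352.H246 (In box)

noncomputable section

variable {ι : Type*} {f g : Fn} {O O' : Set V} {x z h k : V} {m n : Ix}

/-! ## derivatives -/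

theorem bas_smul (m : Ix) (t : ℝ) : bas m t = t • bas m 1 := by
  ext n; simp [bas]

theorem sum_bas (h : V) : ∑ m, h m • bas m 1 = h := by
  ext n; simp [bas, Finset.sum_apply]

theorem deriv_bas {G : Type*} [NormedAddCommGroup G] [NormedSpace ℝ G] {f : V → G}
    (hf : DifferentiableAt ℝ f x) (m : Ix) :
    deriv (fun t => f (x + bas m t)) 0 = fderiv ℝ f x (bas m 1) := by
  rw [← hf.lineDeriv_eq_fderiv, lineDeriv]
  simp only [← bas_smul]

theorem pd_eq (hf : DifferentiableAt ℝ f x) (m : Ix) : pd m f x = fderiv ℝ f x (bas m 1) :=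
  deriv_bas hf m

theorem dr_eq {f : V → ℝ} (hf : DifferentiableAt ℝ f x) (m : Ix) :
    dr m f x = fderiv ℝ f x (bas m 1) := deriv_bas hf m

theorem dv_eq (hf : DifferentiableAt ℝ f x) (h : V) : dv h f x = fderiv ℝ f x h := by
  conv_rhs => rw [← sum_bas h, map_sum]
  simp only [dv, pd_eq hf, map_smul, Complex.real_smul]

theorem pd_eq' (hf : Differentiable ℝ f) (m : Ix) : pd m f = fun x => fderiv ℝ f x (bas m 1) :=
  funext fun x => pd_eq (hf x) m

theorem dr_eq' {f : V → ℝ} (hf : Differentiable ℝ f) (m : Ix) :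
    dr m f = fun x => fderiv ℝ f x (bas m 1) := funext fun x => dr_eq (hf x) m

theorem dv_eq' (hf : Differentiable ℝ f) (h : V) : dv h f = fun x => fderiv ℝ f x h :=
  funext fun x => dv_eq (hf x) h

theorem dv_bas (m : Ix) (f : Fn) : dv (bas m 1) f = pd m f := by
  funext x
  simp [dv, bas, apply_ite Complex.ofReal]

/-- the derivative along a line -/
theorem dv_of_hasDerivAt {c : ℂ} (hf : DifferentiableAt ℝ f x)
    (hc : HasDerivAt (fun t : ℝ => f (x + t • h)) c 0) : dv h f x = c :=
  (dv_eq hf h).trans ((hf.hasFDerivAt.hasLineDerivAt h).unique hc)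

theorem hasDerivAt_dv (hf : Differentiable ℝ f) (x h : V) (s : ℝ) :
    HasDerivAt (fun t : ℝ => f (x + t • h)) (dv h f (x + s • h)) s := by
  rw [dv_eq (hf _)]
  exact ((hf _).hasFDerivAt.comp_hasDerivAt s
    (((hasDerivAt_id s).smul_const h).const_add x)).congr_deriv (by simp)

theorem dv_add_l (h k : V) (f : Fn) (x : V) : dv (h + k) f x = dv h f x + dv k f x := by
  simp [dv, add_mul, Finset.sum_add_distrib]

theorem dv_smul_l (t : ℝ) (h : V) (f : Fn) (x : V) : dv (t • h) f x = t * dv h f x := by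
  simp [dv, Finset.mul_sum, mul_assoc]

theorem dv_neg_l (h : V) (f : Fn) (x : V) : dv (-h) f x = -dv h f x := by simp [dv]

theorem dv_sub_l (h k : V) (f : Fn) (x : V) : dv (h - k) f x = dv h f x - dv k f x := by
  simp [dv, sub_mul, Finset.sum_sub_distrib]

theorem dv_null (h : V) (f : Fn) (x : V) :
    dv h f x = al h * dv va f x + be h * dv vb f x + ∑ i, tx h i * dv (ex i) f x := by
  conv_lhs => rw [null_dec h, tv_eq]
  simp only [dv_add_l, dv_smul_l, Fin.sum_univ_two]

theorem dv_add (hf : DifferentiableAt ℝ f x) (hg : DifferentiableAt ℝ g x) (h : V) :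
    dv h (fun x => f x + g x) x = dv h f x + dv h g x := by
  rw [dv_eq (hf.fun_add hg), dv_eq hf, dv_eq hg, fderiv_fun_add hf hg]; rfl

theorem dv_sub (hf : DifferentiableAt ℝ f x) (hg : DifferentiableAt ℝ g x) (h : V) :
    dv h (fun x => f x - g x) x = dv h f x - dv h g x := by
  rw [dv_eq (hf.fun_sub hg), dv_eq hf, dv_eq hg, fderiv_fun_sub hf hg]; rfl

theorem dv_mul (hf : DifferentiableAt ℝ f x) (hg : DifferentiableAt ℝ g x) (h : V) :
    dv h (fun x => f x * g x) x = dv h f x * g x + f x * dv h g x := by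
  rw [dv_eq (hf.fun_mul hg), dv_eq hf, dv_eq hg, fderiv_fun_mul hf hg]
  simp [mul_comm, add_comm]

theorem pd_cmul (c : ℂ) (m : Ix) (f : Fn) (x : V) : pd m (fun x => c * f x) x = c * pd m f x :=
  deriv_const_mul_field c

theorem dv_cmul (c : ℂ) (h : V) (f : Fn) (x : V) : dv h (fun x => c * f x) x = c * dv h f x := by
  simp only [dv, pd_cmul, Finset.mul_sum, mul_left_comm]

theorem dv_neg (h : V) (f : Fn) (x : V) : dv h (fun x => -f x) x = -dv h f x := by
  simpa using dv_cmul (-1) h f x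

theorem dv_const (c : ℂ) (h x : V) : dv h (fun _ => c) x = 0 := by simp [dv, pd]

theorem dv_sum {s : Finset ι} {f : ι → Fn} (hf : ∀ i ∈ s, DifferentiableAt ℝ (f i) x) (h : V) :
    dv h (fun x => ∑ i ∈ s, f i x) x = ∑ i ∈ s, dv h (f i) x := by
  rw [dv_eq (DifferentiableAt.fun_sum hf), fderiv_fun_sum hf, ContinuousLinearMap.sum_apply]
  exact Finset.sum_congr rfl fun i hi => (dv_eq (hf i hi) h).symm

theorem dv_cx {u : V → ℝ} (hu : DifferentiableAt ℝ u x) (h : V) :
    dv h (fun x => (u x : ℂ)) x = (fderiv ℝ u x h : ℝ) := by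
  have := Complex.ofRealCLM.hasFDerivAt.comp x hu.hasFDerivAt
  exact (dv_eq this.differentiableAt h).trans (by rw [this.fderiv]; rfl)

theorem pd_cx {u : V → ℝ} (hu : DifferentiableAt ℝ u x) (m : Ix) :
    pd m (fun x => (u x : ℂ)) x = (dr m u x : ℝ) := by
  rw [← dv_bas, dv_cx hu, dr_eq hu]

theorem dv_clm (l : V →L[ℝ] ℝ) (h x : V) : dv h (fun x => (l x : ℂ)) x = l h := by
  rw [dv_cx l.differentiableAt, l.fderiv]

theorem dv_al (h x : V) : dv h (fun x => (al x : ℂ)) x = al h := dv_clm alL h x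

theorem dv_be (h x : V) : dv h (fun x => (be x : ℂ)) x = be h := dv_clm beL h x

theorem dv_tx (i : Fin 2) (h x : V) : dv h (fun x => (tx x i : ℂ)) x = tx h i :=
  dv_clm ((ContinuousLinearMap.proj i : R2 →L[ℝ] ℝ) ∘L txL) h x

theorem dv_bar (hf : DifferentiableAt ℝ f x) (h : V) : dv h (bar f) x = bar (dv h f) x := by
  have : HasFDerivAt (bar f) ((Complex.conjCLE : ℂ →L[ℝ] ℂ) ∘L fderiv ℝ f x) x :=
    (Complex.conjCLE : ℂ →L[ℝ] ℂ).hasFDerivAt.comp x hf.hasFDerivAt
  rw [dv_eq this.differentiableAt, this.fderiv]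
  exact congrArg star (dv_eq hf h).symm

theorem dv_aff (A : V →L[ℝ] V) (a : V) (hf : DifferentiableAt ℝ f (A x + a)) (h : V) :
    dv h (fun x => f (A x + a)) x = dv (A h) f (A x + a) := by
  have := hf.hasFDerivAt.comp x (A.hasFDerivAt.add_const a)
  exact (dv_eq this.differentiableAt h).trans (by rw [this.fderiv, dv_eq hf]; rfl)

theorem dv_tr (a h : V) (f : Fn) (x : V) : dv h (fun x => f (x + a)) x = dv h f (x + a) := by
  have : ∀ m t, (fun n => x n + bas m t n) + a = fun n => (x + a) n + bas m t n := fun m t => by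
    ext n; simp [add_right_comm]
  simp only [dv, pd, this]

theorem smooth_dv (hf : ContDiff ℝ ∞ f) (h : V) : ContDiff ℝ ∞ (dv h f) := by
  rw [dv_eq' (hf.differentiable (by simp))]
  exact (hf.fderiv_right (m := ∞) le_rfl).clm_apply contDiff_const

theorem smooth_pd (hf : ContDiff ℝ ∞ f) (m : Ix) : ContDiff ℝ ∞ (pd m f) :=
  dv_bas m f ▸ smooth_dv hf _

theorem smooth_dr {u : V → ℝ} (hu : ContDiff ℝ ∞ u) (m : Ix) : ContDiff ℝ ∞ (dr m u) := by
  rw [dr_eq' (hu.differentiable (by simp))]
  exact (hu.fderiv_right (m := ∞) le_rfl).clm_apply contDiff_const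

theorem dv_comm (hf : ContDiff ℝ ∞ f) (h k x : V) : dv h (dv k f) x = dv k (dv h f) x := by
  have d := hf.differentiable (by simp)
  have d2 := (hf.fderiv_right (m := ∞) le_rfl).differentiable (by simp) x
  have e : ∀ h k, dv h (dv k f) x = fderiv ℝ (fderiv ℝ f) x h k := fun h k => by
    rw [dv_eq' d, dv_eq (d2.clm_apply (differentiableAt_const _)), fderiv_clm_apply d2
      (differentiableAt_const _)]
    simp
  rw [e, e]
  exact (hf.contDiffAt.isSymmSndFDerivAt (by simp; norm_cast)).eq h k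

theorem dv_congr (e : f =ᶠ[𝓝 x] g) (h : V) : dv h f x = dv h g x := by
  refine Finset.sum_congr rfl fun m _ => congrArg _ (EventuallyEq.deriv_eq ?_)
  have : ContinuousAt (fun t : ℝ => x + t • bas m 1) 0 := by fun_prop
  have k := this.tendsto.eventually (show ∀ᶠ y in 𝓝 (x + (0 : ℝ) • bas m 1), f y = g y by
    rw [zero_smul, add_zero]; exact e)
  simp only [← bas_smul] at k
  exact k

theorem tsupport_dv (h : V) (f : Fn) : tsupport (dv h f) ⊆ tsupport f :=
  tsupp_sub (isClosed_tsupport f) fun x hx => by_contra fun k =>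
    hx ((dv_congr (notMem_tsupport_iff_eventuallyEq.1 k) h).trans (dv_const 0 h x))

theorem tsupport_pd (m : Ix) (f : Fn) : tsupport (pd m f) ⊆ tsupport f :=
  dv_bas m f ▸ tsupport_dv _ f

theorem box_eq (hf : ContDiff ℝ ∞ f) (x : V) :
    box f x = 2 * dv va (dv vb f) x - ∑ i, dv (ex i) (dv (ex i) f) x := by
  have d := fun h => (smooth_dv hf h).differentiable (by simp) x
  have a : va = bas 0 1 + bas 1 1 := by ext m; fin_cases m <;> simp [va, bas]
  have b : dv vb f = fun x => 1 / 2 * (dv (bas 0 1) f x - dv (bas 1 1) f x) := funext fun x => by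
    simp [dv, vb, bas, Fin.sum_univ_four]; ring
  rw [b, dv_cmul, dv_sub (d _) (d _), a, dv_add_l, dv_add_l, dv_comm hf (bas 1 1)]
  simp only [box, ← dv_bas, Fin.sum_univ_four, Fin.sum_univ_two, ex_0, ex_1]
  simp [eta, o]
  ring

theorem tsupport_box (f : Fn) : tsupport (box f) ⊆ tsupport f :=
  tsupp_sub (isClosed_tsupport f) fun x hx => by_contra fun k => hx (Finset.sum_eq_zero fun m _ => by
    rw [image_eq_zero_of_notMem_tsupport fun j => k (tsupport_pd m f (tsupport_pd m _ j)), mul_zero])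

theorem bar_bar (f : Fn) : bar (bar f) = f := funext fun _ => star_star _

theorem tsupport_bar (f : Fn) : tsupport (bar f) = tsupport f := tsupport_conj f

theorem bar_cx (u : V → ℝ) : bar (fun x => (u x : ℂ)) = fun x => (u x : ℂ) :=
  funext fun _ => Complex.conj_ofReal _

theorem bar_rmul (u : V → ℝ) (f : Fn) :
    bar (fun x => (u x : ℂ) * f x) = fun x => (u x : ℂ) * bar f x :=
  funext fun _ => by simp [bar]

theorem bar_hk (h k : V) (f : Fn) (m n : Ix) : bar (hk h k f m n) = hk h k (bar f) m n :=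
  bar_rmul (fun _ => _) f

theorem bar_hX (h : V) (X : V → V) (f : Fn) (m n : Ix) : bar (hX h X f m n) = hX h X (bar f) m n :=
  bar_rmul _ f

theorem bar_dens (χ Ξ : V → ℝ) (X : V → V) (m n : Ix) : bar (dens χ Ξ X m n) = dens χ Ξ X m n :=
  bar_cx _

/-! ## temperate growth -/

section temp

variable {E : Type*} [NormedAddCommGroup E] [NormedSpace ℝ E]

attribute [fun_prop] temp_cx

@[fun_prop] theorem temp_apply [Fintype ι] (i : ι) : (fun x : ι → E => x i).HasTemperateGrowth :=
  (ContinuousLinearMap.proj (R := ℝ) (φ := fun _ : ι => E) i).hasTemperateGrowth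

@[fun_prop] theorem temp_mk {F G : Type*} [NormedAddCommGroup F] [NormedSpace ℝ F]
    [NormedAddCommGroup G] [NormedSpace ℝ G] {u : E → F} {v : E → G} (hu : u.HasTemperateGrowth)
    (hv : v.HasTemperateGrowth) : (fun x => (u x, v x)).HasTemperateGrowth := by
  simpa [comp_def, Pi.add_def] using ((ContinuousLinearMap.inl ℝ F G).hasTemperateGrowth.comp hu).add
    ((ContinuousLinearMap.inr ℝ F G).hasTemperateGrowth.comp hv)

theorem temp_app {u : E → ι → ℝ} [Fintype ι] (hu : u.HasTemperateGrowth) (i : ι) :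
    (fun x => u x i).HasTemperateGrowth :=
  (ContinuousLinearMap.proj (R := ℝ) (φ := fun _ : ι => ℝ) i).hasTemperateGrowth.comp hu

@[fun_prop] theorem temp_al : al.HasTemperateGrowth := alL.hasTemperateGrowth
@[fun_prop] theorem temp_be : be.HasTemperateGrowth := beL.hasTemperateGrowth
@[fun_prop] theorem temp_tx : tx.HasTemperateGrowth := txL.hasTemperateGrowth
@[fun_prop] theorem temp_pl : pl.HasTemperateGrowth := plL.hasTemperateGrowth
@[fun_prop] theorem temp_pm : pm.HasTemperateGrowth := pmL.hasTemperateGrowth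

@[fun_prop] theorem temp_fst {F : Type*} [NormedAddCommGroup F] [NormedSpace ℝ F] :
    (Prod.fst : E × F → E).HasTemperateGrowth := (ContinuousLinearMap.fst ℝ E F).hasTemperateGrowth

@[fun_prop] theorem temp_snd {F : Type*} [NormedAddCommGroup F] [NormedSpace ℝ F] :
    (Prod.snd : E × F → F).HasTemperateGrowth := (ContinuousLinearMap.snd ℝ E F).hasTemperateGrowth

@[fun_prop] theorem temp_d2 {u v : E → R2} (hu : u.HasTemperateGrowth)
    (hv : v.HasTemperateGrowth) : (fun x => d2 (u x) (v x)).HasTemperateGrowth :=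
  ((temp_app hu 0).mul (temp_app hv 0)).add ((temp_app hu 1).mul (temp_app hv 1))

@[fun_prop] theorem temp_mdot {u v : E → V} (hu : u.HasTemperateGrowth)
    (hv : v.HasTemperateGrowth) : (fun x => mdot (u x) (v x)).HasTemperateGrowth :=
  mdL.bilinear_hasTemperateGrowth hu hv

@[fun_prop] theorem temp_mu : mu.HasTemperateGrowth := temp_mdot .id' .id'

theorem temp_cK (a : V) (m : Ix) : (fun z => cK a z m).HasTemperateGrowth := by
  simp only [cK, Pi.sub_apply, Pi.smul_apply, smul_eq_mul]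
  fun_prop

end temp

/-! ## `IsTest` and `In` -/

theorem test_ev (g : Sch) : IsTest (ev g) := ⟨g, rfl⟩

theorem test_dv (h : V) (hf : IsTest f) : IsTest (dv h f) :=
  dv_eq' (sw_diff hf) h ▸ sw_fderiv h hf

theorem test_pd (m : Ix) (hf : IsTest f) : IsTest (pd m f) := dv_bas m f ▸ test_dv _ hf

theorem test_bar (hf : IsTest f) : IsTest (bar f) := sw_star hf

theorem test_box (hf : IsTest f) : IsTest (box f) :=
  sw_sum fun m _ => sw_cmul _ (test_pd m (test_pd m hf))

theorem test_hk (h k : V) (hf : IsTest f) (m n : Ix) : IsTest (hk h k f m n) := sw_cmul _ hf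

theorem test_hX (h : V) {X : V → V} (hX' : X.HasTemperateGrowth) (hf : IsTest f) (m n : Ix) :
    IsTest (hX h X f m n) := sw_rmul (by fun_prop) hf

theorem test_al (hf : IsTest f) : IsTest fun z => (al z : ℂ) * f z := sw_rmul temp_al hf

theorem test_be (hf : IsTest f) : IsTest fun z => (be z : ℂ) * f z := sw_rmul temp_be hf

theorem test_tx (i : Fin 2) (hf : IsTest f) : IsTest fun z => (tx z i : ℂ) * f z :=
  sw_rmul (temp_app temp_tx i) hf

theorem test_Kc (Δ : ℝ) (hf : IsTest f) : IsTest (Kc Δ f) :=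
  sw_add (sw_neg (sw_sum fun m _ => sw_rmul (temp_cK va m) (test_pd m hf)))
    (sw_rmul (by fun_prop) hf)

theorem test_Mc (i : Fin 2) (hf : IsTest f) : IsTest (Mc i f) :=
  sw_add (test_tx i (test_dv _ hf)) (test_be (test_dv _ hf))

theorem test_Bc (hf : IsTest f) : IsTest (Bc f) :=
  sw_sub (test_al (test_dv _ hf)) (test_be (test_dv _ hf))

theorem test_Mb (hf : IsTest f) : IsTest (Mb f) :=
  sw_add (test_tx 0 (test_dv _ hf)) (test_al (test_dv _ hf))

theorem test_conf {A : V → V} {c : ℝ} (hA : Conf A c) (a : V) (hf : IsTest f) :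
    IsTest fun x => f (A x + a) := sw_aff hA.cle a hf

theorem test_conf0 {A : V → V} {c : ℝ} (hA : Conf A c) (hf : IsTest f) :
    IsTest fun x => f (A x) := sw_cle hA.cle hf

theorem test_sim {s : ℝ} {L : Ix → V} (hs : 0 < s) (hL : IsLor L) (a : V) (hf : IsTest f) :
    IsTest fun x => f (sim s L a x) :=
  sw_congr (test_conf (conf_sim hs hL) a hf) fun x => by rw [sim_zero]

theorem cK_va (z : V) : cK va z = pt (d2 (tx z) (tx z)) (2 * be z ^ 2) ((2 * be z) • tx z) :=
  null_ext (by simp [cK, md_va, mdot_null]; ring) (by simp [cK, md_va]; ring)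
    (by simp [cK, md_va])

theorem Kc_eq (Δ : ℝ) (f : Fn) (z : V) : Kc Δ f z = -((d2 (tx z) (tx z) : ℝ) * dv va f z +
    (2 * be z ^ 2 : ℝ) * dv vb f z + ∑ i, (2 * be z * tx z i : ℝ) * dv (ex i) f z) +
      ((2 * Δ - 8) * be z : ℝ) * f z := by
  have := dv_null (cK va z) f z
  rw [cK_va, al_pt, be_pt, tx_pt, ← cK_va] at this
  exact congrArg (fun w => -w + _) this

theorem in_iff : In O f ↔ Dc f ∧ tsupport f ⊆ O :=
  ⟨fun h => ⟨⟨sw_smooth h.1, h.2.1⟩, h.2.2⟩, fun h => ⟨dc_sw h.1, h.1.2, h.2⟩⟩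

theorem in_dc (h : In O f) : Dc f := (in_iff.1 h).1

theorem in_of (h : Dc f) (k : tsupport f ⊆ O) : In O f := in_iff.2 ⟨h, k⟩

theorem in_univ (h : Dc f) : In univ f := in_of h (subset_univ _)

theorem in_mono (h : In O f) (k : O ⊆ O') : In O' f := ⟨h.1, h.2.1, h.2.2.trans k⟩

theorem in_univ' (h : In O f) : In univ f := in_mono h (subset_univ _)

/-- a test function whose support lies in the support of another one -/
theorem in_sub (hf : In O f) (hg : IsTest g) (h : tsupport g ⊆ tsupport f) : In O g :=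
  ⟨hg, hf.2.1.isCompact.of_isClosed_subset (isClosed_tsupport _) h, h.trans hf.2.2⟩

theorem in_zero : In O fun _ => 0 := in_of cs_zero (by simp)

theorem in_add (hf : In O f) (hg : In O g) : In O fun x => f x + g x :=
  in_of (cs_add (in_dc hf) (in_dc hg)) ((tsupport_add f g).trans (union_subset hf.2.2 hg.2.2))

theorem in_mul {u : Fn} (hu : ContDiff ℝ ∞ u) (hf : In O f) : In O fun x => u x * f x :=
  in_of (cs_mul_l hu (in_dc hf)) (tsupport_mul_subset_right.trans hf.2.2)

theorem in_rmul {u : V → ℝ} (hu : ContDiff ℝ ∞ u) (hf : In O f) : In O fun x => (u x : ℂ) * f x :=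
  in_mul (smooth_cx hu) hf

theorem in_cmul (c : ℂ) (hf : In O f) : In O fun x => c * f x := in_mul contDiff_const hf

theorem in_neg (hf : In O f) : In O fun x => -f x := by simpa using in_cmul (-1) hf

theorem in_sub' (hf : In O f) (hg : In O g) : In O fun x => f x - g x := by
  simpa [sub_eq_add_neg] using in_add hf (in_neg hg)

theorem in_lin (c : ℂ) (hf : In O f) (hg : In O g) : In O fun x => f x + c * g x :=
  in_add hf (in_cmul c hg)

theorem in_sum {s : Finset ι} {f : ι → Fn} (h : ∀ i ∈ s, In O (f i)) :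
    In O fun x => ∑ i ∈ s, f i x := by
  classical
  induction s using Finset.induction_on with
  | empty => simpa using in_zero
  | insert a s ha ih =>
    simpa [Finset.sum_insert ha] using in_add (h a (Finset.mem_insert_self _ _))
      (ih fun i hi => h i (Finset.mem_insert_of_mem hi))

theorem in_cx {u : V → ℝ} (hu : Tst u) (h : tsupport u ⊆ O) : In O fun x => (u x : ℂ) :=
  in_of (dc_cx hu) ((tsupport_cx u).trans_subset h)

theorem in_bar (hf : In O f) : In O (bar f) := in_sub hf (test_bar hf.1) (tsupport_bar f).subset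

theorem in_dv (h : V) (hf : In O f) : In O (dv h f) := in_sub hf (test_dv h hf.1) (tsupport_dv h f)

theorem in_pd (m : Ix) (hf : In O f) : In O (pd m f) := in_sub hf (test_pd m hf.1) (tsupport_pd m f)

theorem in_box (hf : In O f) : In O (box f) := in_sub hf (test_box hf.1) (tsupport_box f)

theorem in_hk (h k : V) (hf : In O f) (m n : Ix) : In O (hk h k f m n) := in_cmul _ hf

theorem in_hX (h : V) {X : V → V} (hX' : ContDiff ℝ ∞ X) (hf : In O f) (m n : Ix) :
    In O (hX h X f m n) := in_rmul (by fun_prop) hf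

theorem in_Kc (Δ : ℝ) (hf : In O f) : In O (Kc Δ f) :=
  in_add (in_neg (in_sum fun m _ => in_rmul (temp_cK va m).1 (in_pd m hf))) (in_rmul (by fun_prop) hf)

theorem in_Mc (i : Fin 2) (hf : In O f) : In O (Mc i f) :=
  in_add (in_rmul (by fun_prop) (in_dv _ hf)) (in_rmul (by fun_prop) (in_dv _ hf))

theorem in_Bc (hf : In O f) : In O (Bc f) :=
  in_sub' (in_rmul (by fun_prop) (in_dv _ hf)) (in_rmul (by fun_prop) (in_dv _ hf))

theorem in_Mb (hf : In O f) : In O (Mb f) :=
  in_add (in_rmul (by fun_prop) (in_dv _ hf)) (in_rmul (by fun_prop) (in_dv _ hf))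

theorem in_dens {χ Ξ : V → ℝ} {X : V → V} (hχ : Tst χ) (hO : tsupport χ ⊆ O) (hΞ : ContDiff ℝ ∞ Ξ)
    (hX : ContDiff ℝ ∞ X) (m n : Ix) : In O (dens χ Ξ X m n) :=
  in_cx (cs_mul_r (cs_mul_r hχ (smooth_dr hΞ m)) (by fun_prop))
    ((tsupport_mul_subset_left.trans tsupport_mul_subset_left).trans hO)

theorem in_aff (e : V ≃L[ℝ] V) (a : V) (hf : In O f) :
    In ((fun x => e x + a) ⁻¹' O) fun x => f (e x + a) :=
  in_of (cs_aff e a (in_dc hf)) ((tsupport_comp_subset_preimage f
    (e.continuous.add continuous_const)).trans (preimage_mono hf.2.2))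

theorem in_tr (a : V) (hf : In O f) : In ((fun x => x + a) ⁻¹' O) fun x => f (x + a) :=
  in_aff (ContinuousLinearEquiv.refl ℝ V) a hf

theorem in_conf {A : V → V} {c : ℝ} (hA : Conf A c) (a : V) (hf : In O f) :
    In ((fun x => A x + a) ⁻¹' O) fun x => f (A x + a) := in_aff hA.cle a hf

theorem in_conf0 {A : V → V} {c : ℝ} (hA : Conf A c) (hf : In O f) :
    In (A ⁻¹' O) fun x => f (A x) := by simpa using in_conf hA 0 hf

theorem in_sim {s : ℝ} {L : Ix → V} (hs : 0 < s) (hL : IsLor L) (a : V) (hf : In O f) :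
    In (sim s L a ⁻¹' O) fun x => f (sim s L a x) := by
  simpa only [← sim_zero] using in_conf (conf_sim hs hL) a hf

/-- an additive property that holds locally holds globally -/
theorem in_ind {P : Fn → Prop} (h0 : P fun _ => 0)
    (hadd : ∀ f g, In O f → In O g → P f → P g → P fun x => f x + g x)
    (hloc : ∀ x ∈ O, ∃ U ∈ 𝓝 x, ∀ f, In (U ∩ O) f → P f) (hf : In O f) : P f :=
  dc_ind h0 (fun f g a b c d => hadd f g (in_of a b) (in_of c d))
    (fun x hx => (hloc x hx).imp fun U h => ⟨h.1, fun f a b => h.2 f (in_of a b)⟩) (in_dc hf) hf.2.2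

end

end Vale.Agent.P352X.Ap
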