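import Vale.Agent.P352X.Api2b
import Vale.Agent.P352X.Spec

/-!
# P352X: the special test functions (row API2, part c)
-/

set_option linter.all false

open MeasureTheory Filter Topology Set Function
open scoped SchwartzMap ComplexConjugate ContDiff

namespace Vale.Agent.P352X.Ap

open Vale.Agent.P352.GF Vale.Agent.P352.H755
open Vale.Agent.P352.H246 (In box)

noncomputable section

/-! ## `pf` and `pr` -/

section pf

variable {g g' : P3 → ℂ} {φ φ' : ℝ → ℂ} {u : P3 → ℝ} {ρ : ℝ → ℝ} {z : V} {O : Set V}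

theorem pr_eq (u : P3 → ℝ) (ρ : ℝ → ℝ) : pr u ρ = pf (cx u) (cx ρ) :=
  funext fun _ => Complex.ofReal_mul _ _

theorem bar_pr (u : P3 → ℝ) (ρ : ℝ → ℝ) : bar (pr u ρ) = pr u ρ := bar_cx _

theorem bar_pf (g : P3 → ℂ) (φ : ℝ → ℂ) :
    bar (pf g φ) = pf (fun y => conj (g y)) fun t => conj (φ t) := funext fun _ => star_mul' _ _

theorem smooth_pf (hg : ContDiff ℝ ∞ g) (hφ : ContDiff ℝ ∞ φ) : ContDiff ℝ ∞ (pf g φ) :=
  (hg.comp smooth_pl).mul (hφ.comp smooth_be)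

theorem smooth_pr (hu : ContDiff ℝ ∞ u) (hρ : ContDiff ℝ ∞ ρ) : ContDiff ℝ ∞ (pr u ρ) :=
  pr_eq u ρ ▸ smooth_pf (smooth_cx hu) (smooth_cx hρ)

theorem cs_cle {E F G : Type*} [NormedAddCommGroup E] [NormedSpace ℝ E] [NormedAddCommGroup F]
    [NormedSpace ℝ F] [NormedAddCommGroup G] [NormedSpace ℝ G] {f : E → G} (e : F ≃L[ℝ] E)
    (hf : Cs f) : Cs fun x => f (e x) := cs_hom e.toHomeomorph e.contDiff hf

theorem dc_pf (hg : Dc g) (hφ : Dc φ) : Dc (pf g φ) := cs_cle plE (cs_prod hg hφ)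

theorem dc_pr (hu : Tst u) (hρ : Tst ρ) : Dc (pr u ρ) := pr_eq u ρ ▸ dc_pf (dc_cx hu) (dc_cx hρ)

theorem tst_pr (hu : Tst u) (hρ : Tst ρ) : Tst fun z => u (pl z) * ρ (be z) :=
  cs_cle plE (cs_prod hu hρ)

theorem test_pf (hg : Dc g) (hφ : Dc φ) : IsTest (pf g φ) := dc_sw (dc_pf hg hφ)

theorem test_pr (hu : Tst u) (hρ : Tst ρ) : IsTest (pr u ρ) := dc_sw (dc_pr hu hρ)

theorem tsupport_pf (g : P3 → ℂ) (φ : ℝ → ℂ) :
    tsupport (pf g φ) ⊆ {z | pl z ∈ tsupport g ∧ be z ∈ tsupport φ} :=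
  tsupp_sub (((isClosed_tsupport g).preimage cont_pl).inter ((isClosed_tsupport φ).preimage cont_be))
    fun _ h => ⟨subset_tsupport _ (left_ne_zero_of_mul h), subset_tsupport _ (right_ne_zero_of_mul h)⟩

theorem tsupport_pr (u : P3 → ℝ) (ρ : ℝ → ℝ) :
    tsupport (pr u ρ) ⊆ {z | pl z ∈ tsupport u ∧ be z ∈ tsupport ρ} := by
  rw [pr_eq, ← tsupport_cx u, ← tsupport_cx ρ]
  exact tsupport_pf _ _

theorem in_pf (hg : Dc g) (hφ : Dc φ) (h : ∀ z, pl z ∈ tsupport g → be z ∈ tsupport φ → z ∈ O) :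
    In O (pf g φ) := in_of (dc_pf hg hφ) fun z k => h z (tsupport_pf g φ k).1 (tsupport_pf g φ k).2

theorem in_pr (hu : Tst u) (hρ : Tst ρ) (h : ∀ z, pl z ∈ tsupport u → be z ∈ tsupport ρ → z ∈ O) :
    In O (pr u ρ) := in_of (dc_pr hu hρ) fun z k => h z (tsupport_pr u ρ k).1 (tsupport_pr u ρ k).2

theorem dv_pl (hg : DifferentiableAt ℝ g (pl z)) (h : V) :
    dv h (fun z => g (pl z)) z = fderiv ℝ g (pl z) (pl h) := by
  have : HasFDerivAt (fun z => g (pl z)) (fderiv ℝ g (pl z) ∘L plL) z :=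
    hg.hasFDerivAt.comp z plL.hasFDerivAt
  rw [dv_eq this.differentiableAt, this.fderiv]
  rfl

theorem dv_cl (l : V →L[ℝ] ℝ) (hφ : DifferentiableAt ℝ φ (l z)) (h : V) :
    dv h (fun z => φ (l z)) z = l h * deriv φ (l z) := by
  have : HasFDerivAt (fun z => φ (l z)) (fderiv ℝ φ (l z) ∘L l) z :=
    hφ.hasFDerivAt.comp z l.hasFDerivAt
  rw [dv_eq this.differentiableAt, this.fderiv]
  simp

theorem dv_fbe (hφ : DifferentiableAt ℝ φ (be z)) (h : V) :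
    dv h (fun z => φ (be z)) z = be h * deriv φ (be z) := dv_cl beL hφ h

theorem dv_fal (hφ : DifferentiableAt ℝ φ (al z)) (h : V) :
    dv h (fun z => φ (al z)) z = al h * deriv φ (al z) := dv_cl alL hφ h

theorem dv_pf (hg : DifferentiableAt ℝ g (pl z)) (hφ : DifferentiableAt ℝ φ (be z)) (h : V) :
    dv h (pf g φ) z = fderiv ℝ g (pl z) (pl h) * φ (be z) + g (pl z) * (be h * deriv φ (be z)) := by
  rw [← dv_pl hg, ← dv_fbe hφ]
  exact dv_mul (hg.comp z plL.differentiableAt) (hφ.comp z beL.differentiableAt) h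

theorem pl_va : pl va = (1, 0) := by simp [pl]
theorem pl_vb : pl vb = 0 := by simp [pl]
theorem pl_tv (w : R2) : pl (tv w) = (0, w) := by simp [pl]

theorem dv_pf_a (hg : Differentiable ℝ g) (hφ : Differentiable ℝ φ) :
    dv va (pf g φ) = pf (fun y => fderiv ℝ g y (1, 0)) φ :=
  funext fun z => by simp [dv_pf (hg _) (hφ _), pl_va, pf]

theorem dv_pf_b (hg : Differentiable ℝ g) (hφ : Differentiable ℝ φ) :
    dv vb (pf g φ) = pf g (deriv φ) := funext fun z => by simp [dv_pf (hg _) (hφ _), pl_vb, pf]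

theorem dv_pf_tv (hg : Differentiable ℝ g) (hφ : Differentiable ℝ φ) (w : R2) :
    dv (tv w) (pf g φ) = pf (fun y => fderiv ℝ g y (0, w)) φ :=
  funext fun z => by simp [dv_pf (hg _) (hφ _), pl_tv, pf]

theorem fderiv_cx {E : Type*} [NormedAddCommGroup E] [NormedSpace ℝ E] {u : E → ℝ} {x : E}
    (hu : DifferentiableAt ℝ u x) (v : E) : fderiv ℝ (cx u) x v = (fderiv ℝ u x v : ℝ) := by
  have : HasFDerivAt (cx u) _ x := Complex.ofRealCLM.hasFDerivAt.comp x hu.hasFDerivAt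
  rw [this.fderiv]
  rfl

theorem diff_cx {E : Type*} [NormedAddCommGroup E] [NormedSpace ℝ E] {u : E → ℝ}
    (hu : Differentiable ℝ u) : Differentiable ℝ (cx u) :=
  Complex.ofRealCLM.differentiable.comp hu

theorem dv_pr (hu : Differentiable ℝ u) (hρ : Differentiable ℝ ρ) (h z : V) : dv h (pr u ρ) z =
    (fderiv ℝ u (pl z) (pl h) * ρ (be z) + u (pl z) * (be h * deriv ρ (be z)) : ℝ) := by
  rw [pr_eq, dv_pf (diff_cx hu _) (diff_cx hρ _), fderiv_cx (hu _),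
    show deriv (cx ρ) (be z) = _ from fderiv_cx (hρ _) 1]
  simp [cx]

theorem dv_pr_a (hu : Differentiable ℝ u) (hρ : Differentiable ℝ ρ) :
    dv va (pr u ρ) = pr (fun y => fderiv ℝ u y (1, 0)) ρ :=
  funext fun z => by simp [dv_pr hu hρ, pl_va, pr]

theorem dv_pr_b (hu : Differentiable ℝ u) (hρ : Differentiable ℝ ρ) :
    dv vb (pr u ρ) = pr u (deriv ρ) := funext fun z => by simp [dv_pr hu hρ, pl_vb, pr]

theorem dv_pr_tv (hu : Differentiable ℝ u) (hρ : Differentiable ℝ ρ) (w : R2) :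
    dv (tv w) (pr u ρ) = pr (fun y => dx u y w) ρ :=
  funext fun z => by simp [dv_pr hu hρ, pl_tv, pr, dx]

theorem dv_pr_ex (hu : Differentiable ℝ u) (hρ : Differentiable ℝ ρ) (i : Fin 2) :
    dv (ex i) (pr u ρ) = pr (fun y => dx u y (e2 i)) ρ := dv_pr_tv hu hρ _

theorem tst_dx (hu : Tst u) (w : R2) : Tst fun y => dx u y w := cs_fderiv _ hu

theorem tsupport_fd {E G : Type*} [NormedAddCommGroup E] [NormedSpace ℝ E] [NormedAddCommGroup G]
    [NormedSpace ℝ G] (f : E → G) (X : E → E) :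
    tsupport (fun x => fderiv ℝ f x (X x)) ⊆ tsupport f :=
  (tsupp_of_zero fun x h => by rw [h]; rfl).trans (tsupport_fderiv_subset ℝ)

/-- the derivative vanishes where the function is locally constant -/
theorem notMem_fd {E G : Type*} [NormedAddCommGroup E] [NormedSpace ℝ E] [NormedAddCommGroup G]
    [NormedSpace ℝ G] {f : E → G} {x : E} {c : G} (h : ∀ᶠ y in 𝓝 x, f y = c) (X : E → E) :
    x ∉ tsupport fun x => fderiv ℝ f x (X x) :=
  notMem_tsupport_iff_eventuallyEq.2 (h.eventually_nhds.mono fun y k => by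
    show fderiv ℝ f y (X y) = 0
    rw [EventuallyEq.fderiv_eq (f := fun _ => c) k]
    simp)

theorem dx_sum (u : P3 → ℝ) (y : P3) (w : R2) : dx u y w = ∑ i, w i * dx u y (e2 i) := by
  have : ((0, w) : P3) = ∑ i, w i • ((0 : ℝ), e2 i) := by
    ext i
    · simp
    · fin_cases i <;> simp [e2]
  simp only [dx, this, map_sum, map_smul, smul_eq_mul]

theorem tst_ap (j : ℕ) (hu : Tst u) : Tst (ap j u) := cs_mul_l (by fun_prop) hu

theorem tsupport_ap (j : ℕ) (u : P3 → ℝ) : tsupport (ap j u) ⊆ tsupport u :=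
  tsupport_mul_subset_right

theorem tst_k3 {k : ℝ → ℝ} {k' : R2 → ℝ} (h : Tst k) (h' : Tst k') : Tst (k3 k k') := cs_prod h h'

theorem tsupport_k3 (k : ℝ → ℝ) (k' : R2 → ℝ) : tsupport (k3 k k') ⊆ tsupport k ×ˢ tsupport k' :=
  tsupp_prod k k'

end pf

/-! ## `kL` -/

section kL

variable {κ : P3 → ℝ} {L : ℝ}

/-- the linear map in `kL` -/
def kM (L : ℝ) : P3 →L[ℝ] P3 :=
  (L⁻¹ • ContinuousLinearMap.fst ℝ ℝ R2).prod ((Real.sqrt L)⁻¹ • ContinuousLinearMap.snd ℝ ℝ R2)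

theorem kM_apply (L : ℝ) (y : P3) : kM L y = (y.1 / L, (Real.sqrt L)⁻¹ • y.2) := by
  simp [kM, div_eq_inv_mul]

theorem kL_eq (κ : P3 → ℝ) (L : ℝ) : kL κ L = fun y => κ (kM L y) :=
  funext fun y => by rw [kM_apply, kL]

theorem kM_inv (hL : 0 < L) (y : P3) : kM L⁻¹ (kM L y) = y := by
  have := (Real.sqrt_pos.2 hL).ne'
  simp [kM_apply, smul_smul, hL.ne', this]

/-- the same as an isomorphism -/
def kE (hL : 0 < L) : P3 ≃L[ℝ] P3 := .equivOfInverse (kM L) (kM L⁻¹) (kM_inv hL) fun y => by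
  simpa using kM_inv (inv_pos.2 hL) y

theorem kL_one (κ : P3 → ℝ) : kL κ 1 = κ := funext fun y => by simp [kL]

theorem kL_kL (κ : P3 → ℝ) {L L' : ℝ} (hL : 0 ≤ L) : kL (kL κ L) L' = kL κ (L * L') :=
  funext fun y => by simp [kL, smul_smul, Real.sqrt_mul hL, div_div, mul_comm]

theorem smooth_kL (h : ContDiff ℝ ∞ κ) (L : ℝ) : ContDiff ℝ ∞ (kL κ L) :=
  kL_eq κ L ▸ h.comp (kM L).contDiff

theorem tst_kL (h : Tst κ) (hL : 0 < L) : Tst (kL κ L) := kL_eq κ L ▸ cs_cle (kE hL) h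

theorem tsupport_kL (κ : P3 → ℝ) (L : ℝ) :
    tsupport (kL κ L) ⊆ {y | (y.1 / L, (Real.sqrt L)⁻¹ • y.2) ∈ tsupport κ} := by
  simp only [kL_eq, ← kM_apply]
  exact tsupport_comp_subset_preimage κ (kM L).continuous

theorem cut_kL (h : Cut κ) (hL : 0 < L) : Cut (kL κ L) := ⟨tst_kL h.1 hL, by
  rw [kL_eq]
  exact (kM L).continuous.continuousAt.tendsto.eventually (by rw [map_zero]; exact h.2)⟩

theorem fderiv_kL (h : Differentiable ℝ κ) (L : ℝ) (y v : P3) :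
    fderiv ℝ (kL κ L) y v = fderiv ℝ κ (kM L y) (kM L v) := by
  have : HasFDerivAt (fun y => κ (kM L y)) _ y := (h _).hasFDerivAt.comp y (kM L).hasFDerivAt
  rw [kL_eq, this.fderiv]
  rfl

theorem da_kL (h : Differentiable ℝ κ) (L : ℝ) (y : P3) :
    fderiv ℝ (kL κ L) y (1, 0) = L⁻¹ * kL (fun y => fderiv ℝ κ y (1, 0)) L y := by
  rw [fderiv_kL h, kL_eq, ← smul_eq_mul, ← map_smul]
  simp [kM_apply]

theorem dx_kL (h : Differentiable ℝ κ) (L : ℝ) (y : P3) (w : R2) :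
    dx (kL κ L) y w = (Real.sqrt L)⁻¹ * kL (fun y => dx κ y w) L y := by
  rw [dx, fderiv_kL h, kL_eq]
  simp only [dx]
  rw [← smul_eq_mul, ← map_smul]
  simp [kM_apply]

theorem tendsto_kM : Tendsto kM atTop (𝓝 0) := by
  have a := (tendsto_inv_atTop_zero (𝕜 := ℝ)).smul_const (ContinuousLinearMap.inl ℝ ℝ R2 ∘L
    ContinuousLinearMap.fst ℝ ℝ R2)
  have b := (tendsto_inv_atTop_zero.comp Real.tendsto_sqrt_atTop).smul_const
    (ContinuousLinearMap.inr ℝ ℝ R2 ∘L ContinuousLinearMap.snd ℝ ℝ R2)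
  simpa using (a.add b).congr fun L => ContinuousLinearMap.ext fun y => by simp [kM]

/-- the cutoff is one on a given bounded set for large `L` -/
theorem kL_one_on (h : Cut κ) {K : Set P3} (hK : Bornology.IsBounded K) :
    ∀ᶠ L in atTop, ∀ y ∈ K, ∀ᶠ x in 𝓝 y, kL κ L x = 1 := by
  obtain ⟨R, R0, hR⟩ := hK.subset_ball_lt 0 0
  obtain ⟨ε, ε0, hε⟩ := Metric.eventually_nhds_iff.1 h.2
  filter_upwards [tendsto_kM.norm.eventually_lt_const (show ‖(0 : P3 →L[ℝ] P3)‖ < ε / R by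
    rw [norm_zero]; positivity)] with L hL y hy
  filter_upwards [Metric.isOpen_ball.mem_nhds (hR hy)] with x hx
  rw [kL_eq]
  refine hε ((dist_zero_right _).trans_lt (((kM L).le_opNorm x).trans_lt ?_))
  have := mem_ball_zero_iff.1 hx
  rw [lt_div_iff₀ R0] at hL
  nlinarith [norm_nonneg (kM L)]

theorem pl_scp (hL : 0 < L) (z : V) : pl (scp L⁻¹ 1 z) = kM L (pl z) := by
  simp [pl, kM_apply, div_eq_inv_mul]

theorem pr_kL (hL : 0 < L) (κ : P3 → ℝ) (ρ : ℝ → ℝ) (z : V) :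
    pr (kL κ L) ρ z = pr κ ρ (scp L⁻¹ 1 z) := by
  simp [pr, pl_scp hL, kL_eq]

end kL

/-! ## functions on the line -/

section line

variable {θ θ1 φ ρ : ℝ → ℝ} {s δ t : ℝ}

theorem smooth_dil (h : ContDiff ℝ ∞ φ) (s : ℝ) : ContDiff ℝ ∞ (dil s φ) :=
  h.comp (contDiff_id.div_const s)

theorem dil_eq (s : ℝ) (φ : ℝ → ℝ) : dil s φ = fun t => φ (s⁻¹ * t) :=
  funext fun t => by rw [dil, div_eq_inv_mul]

theorem tst_dil (h : Tst φ) (hs : s ≠ 0) : Tst (dil s φ) :=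
  dil_eq s φ ▸ cs_smul (inv_ne_zero hs) h

theorem tsupport_dil (s : ℝ) (φ : ℝ → ℝ) : tsupport (dil s φ) ⊆ {t | t / s ∈ tsupport φ} :=
  tsupport_comp_subset_preimage φ (continuous_id.div_const s)

theorem dil_one (φ : ℝ → ℝ) : dil 1 φ = φ := funext fun t => by simp [dil]

theorem dil_dil (s s' : ℝ) (φ : ℝ → ℝ) : dil s (dil s' φ) = dil (s * s') φ :=
  funext fun t => by simp [dil, div_div]

theorem deriv_dil (s : ℝ) (φ : ℝ → ℝ) (t : ℝ) : deriv (dil s φ) t = deriv φ (t / s) / s := by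
  simpa [dil_eq, div_eq_inv_mul] using deriv_comp_mul_left (f := φ) (c := s⁻¹) (x := t)

theorem d0_dil (h : D0 φ) (hs : s ≠ 0) : D0 (dil s φ) :=
  ⟨tst_dil h.1 hs, fun k => h.2 (by simpa using tsupport_dil s φ k)⟩

theorem dlt_eq (δ : ℝ) (ρ : ℝ → ℝ) : dlt δ ρ = fun t => δ⁻¹ * dil δ ρ t :=
  funext fun _ => div_eq_inv_mul _ _

theorem tst_dlt (h : Tst ρ) (hδ : δ ≠ 0) : Tst (dlt δ ρ) := dlt_eq δ ρ ▸ cs_cmul _ (tst_dil h hδ)

theorem tsupport_dlt (δ : ℝ) (ρ : ℝ → ℝ) : tsupport (dlt δ ρ) ⊆ {t | t / δ ∈ tsupport ρ} :=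
  dlt_eq δ ρ ▸ tsupport_mul_subset_right.trans (tsupport_dil δ ρ)

theorem tsupport_dil_Icc {a b : ℝ} (h : tsupport φ ⊆ Icc a b) (hs : 0 < s) :
    tsupport (dil s φ) ⊆ Icc (a * s) (b * s) := fun t k =>
  ⟨(le_div_iff₀ hs).1 (h (tsupport_dil s φ k)).1, (div_le_iff₀ hs).1 (h (tsupport_dil s φ k)).2⟩

theorem tsupport_dlt_Icc {a b : ℝ} (h : tsupport ρ ⊆ Icc a b) (hδ : 0 < δ) :
    tsupport (dlt δ ρ) ⊆ Icc (a * δ) (b * δ) :=
  dlt_eq δ ρ ▸ tsupport_mul_subset_right.trans (tsupport_dil_Icc h hδ)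

theorem integral_dil (hs : 0 < s) (φ : ℝ → ℝ) : ∫ t, dil s φ t = s * ∫ t, φ t := by
  simpa [dil, abs_of_pos hs] using Measure.integral_comp_div φ s

theorem integral_dlt (hδ : 0 < δ) (ρ : ℝ → ℝ) : ∫ t, dlt δ ρ t = ∫ t, ρ t := by
  rw [dlt_eq, integral_const_mul, integral_dil hδ, inv_mul_cancel_left₀ hδ.ne']

theorem pow_dlt (hδ : δ ≠ 0) (j : ℕ) (ρ : ℝ → ℝ) (t : ℝ) :
    t ^ j * dlt δ ρ t = δ ^ j * dlt δ (fun t => t ^ j * ρ t) t := by
  simp only [dlt, div_pow]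
  field_simp

theorem abs_dlt (hδ : 0 < δ) (ρ : ℝ → ℝ) (t : ℝ) : |dlt δ ρ t| = dlt δ (fun t => |ρ t|) t := by
  simp [dlt, abs_div, abs_of_pos hδ]

theorem ex_Icc (h : Tst φ) : ∃ R, 1 ≤ R ∧ tsupport φ ⊆ Icc (-R) R := by
  obtain ⟨R, a, b⟩ := h.2.isCompact.isBounded.subset_closedBall_lt 1 0
  exact ⟨R, a.le, by simpa [Real.closedBall_eq_Icc] using b⟩

theorem bump_one (h : Bump θ) (ht : |t| < 1) : ∀ᶠ x in 𝓝 t, θ x = 1 :=
  (continuous_abs.continuousAt.eventually_lt_const ht).mono fun x k => h.2.2 x k.le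

theorem bump_cut (h : Bump θ) : Cut θ := ⟨h.1, bump_one h (by simp)⟩

theorem bump_deriv (h : Bump θ) (ht : |t| ≤ 1) : deriv θ t = 0 := by
  have c : Continuous (deriv θ) := (cs_deriv h.1).1.continuous
  have : Icc (-1 : ℝ) 1 ⊆ {t | deriv θ t = 0} := by
    rw [← closure_Ioo (by norm_num)]
    exact closure_minimal (fun x hx => (EventuallyEq.deriv_eq (f := fun _ => 1)
      (bump_one h (abs_lt.2 hx))).trans (deriv_const _ _)) (isClosed_eq c continuous_const)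
  exact this (abs_le.1 ht)

theorem deriv_even (h : ∀ t, θ (-t) = θ t) (t : ℝ) : deriv θ (-t) = -deriv θ t := by
  have := deriv_comp_neg θ t
  simp only [h] at this
  linarith

theorem dil_one_of (h : Bump θ) (hs : 0 < s) (ht : |t| ≤ s) : dil s θ t = 1 :=
  h.2.2 _ (by rwa [abs_div, abs_of_pos hs, div_le_one hs])

/-- cutting a function that vanishes near zero -/
theorem tst_pos {f : ℝ → ℝ} {a : ℝ} (hf : Tst f) (ha : 0 < a) (h : ∀ t, |t| < a → f t = 0) :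
    Tst (fun t => if 0 < t then f t else 0) ∧
      tsupport (fun t => if 0 < t then f t else 0) ⊆ Ici a ∩ tsupport f := by
  obtain ⟨χ, c1, c2, c3, -⟩ := ex_step ha
  have e : (fun t => if 0 < t then f t else 0) = fun t => χ t * f t := funext fun t => by
    split_ifs with k
    · rcases lt_or_ge t a with j | j
      · rw [h t (by rwa [abs_of_pos k]), mul_zero]
      · rw [c3 t j, one_mul]
    · rw [c2 t (not_lt.1 k), zero_mul]
  refine ⟨e ▸ cs_mul_l c1 hf, subset_inter (tsupp_sub isClosed_Ici fun t k => ?_)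
    (e ▸ tsupport_mul_subset_right)⟩
  split_ifs at k with j
  · exact not_lt.1 fun i => k (h t (by rwa [abs_of_pos j]))
  · exact absurd rfl k

theorem tst_neg {f : ℝ → ℝ} {a : ℝ} (hf : Tst f) (ha : 0 < a) (h : ∀ t, |t| < a → f t = 0) :
    Tst (fun t => if t < 0 then f t else 0) ∧
      tsupport (fun t => if t < 0 then f t else 0) ⊆ Iic (-a) ∩ tsupport f := by
  have e : (fun t => if t < 0 then f t else 0) = fun t => f t - if 0 < t then f t else 0 :=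
    funext fun t => by rcases lt_trichotomy t 0 with k | rfl | k <;> simp [*, le_of_lt, lt_asymm]
  refine ⟨e ▸ cs_sub hf (tst_pos hf ha h).1, subset_inter (tsupp_sub isClosed_Iic fun t k => ?_)
    (tsupp_of_zero fun t k => by simp [k])⟩
  split_ifs at k with j
  · exact not_lt.1 fun i : -a < t => k (h t (by rw [abs_of_neg j]; linarith))
  · exact absurd rfl k

theorem tst_eul (h : Tst θ) : Tst fun t => -t * deriv θ t := cs_mul_l (by fun_prop) (cs_deriv h)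

theorem tsupport_eul (θ : ℝ → ℝ) : tsupport (fun t => -t * deriv θ t) ⊆ tsupport θ :=
  tsupport_mul_subset_right.trans tsupport_deriv_subset

theorem tst_chp (h : Bump θ) : Tst (chp θ) :=
  (tst_pos (tst_eul h.1) one_pos fun t k => by rw [bump_deriv h k.le, mul_zero]).1

theorem tsupport_chp (h : Bump θ) : tsupport (chp θ) ⊆ Ici 1 ∩ tsupport θ :=
  (tst_pos (tst_eul h.1) one_pos fun t k => by rw [bump_deriv h k.le, mul_zero]).2.trans
    (inter_subset_inter_right _ (tsupport_eul θ))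

theorem tst_chm (h : Bump θ) : Tst (chm θ) :=
  (tst_neg (tst_eul h.1) one_pos fun t k => by rw [bump_deriv h k.le, mul_zero]).1

theorem tsupport_chm (h : Bump θ) : tsupport (chm θ) ⊆ Iic (-1) ∩ tsupport θ :=
  (tst_neg (tst_eul h.1) one_pos fun t k => by rw [bump_deriv h k.le, mul_zero]).2.trans
    (inter_subset_inter_right _ (tsupport_eul θ))

theorem d0_chp (h : Bump θ) : D0 (chp θ) :=
  ⟨tst_chp h, fun k => by simpa using (show (1 : ℝ) ≤ 0 from (tsupport_chp h k).1).trans_lt one_pos⟩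

theorem d0_chm (h : Bump θ) : D0 (chm θ) :=
  ⟨tst_chm h, fun k => by linarith [show (0 : ℝ) ≤ -1 from (tsupport_chm h k).1]⟩

theorem chp_add_chm (θ : ℝ → ℝ) (t : ℝ) : chp θ t + chm θ t = -t * deriv θ t := by
  rcases lt_trichotomy t 0 with k | rfl | k <;> simp [chp, chm, *, lt_asymm]

theorem chm_neg (h : ∀ t, θ (-t) = θ t) (t : ℝ) : chm θ (-t) = chp θ t := by
  simp [chp, chm, deriv_even h]

theorem chp_dil (hs : 0 < s) (θ : ℝ → ℝ) : chp (dil s θ) = dil s (chp θ) := funext fun t => by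
  simp only [chp, deriv_dil, dil, lt_div_iff₀ hs, zero_mul]
  split_ifs
  · ring
  · rfl

theorem chm_dil (hs : 0 < s) (θ : ℝ → ℝ) : chm (dil s θ) = dil s (chm θ) := funext fun t => by
  simp only [chm, deriv_dil, dil, div_lt_iff₀ hs, zero_mul]
  split_ifs
  · ring
  · rfl

theorem tst_out (h1 : Tst θ1) (h : Bump θ) (δ : ℝ) : Tst fun t => θ1 t * (1 - θ (t / δ)) :=
  cs_mul_r h1 (contDiff_const.sub (smooth_dil h.1.1 δ))

theorem out_zero (h : Bump θ) (hδ : 0 < δ) (θ1 : ℝ → ℝ) (t : ℝ) (ht : |t| < δ) :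
    θ1 t * (1 - θ (t / δ)) = 0 := by
  rw [show θ (t / δ) = 1 from dil_one_of h hδ ht.le, sub_self, mul_zero]

theorem tst_abv (h1 : Tst θ1) (h : Bump θ) (hδ : 0 < δ) : Tst (abv θ1 θ δ) :=
  (tst_pos (tst_out h1 h δ) hδ (out_zero h hδ θ1)).1

theorem tsupport_abv (h1 : Tst θ1) (h : Bump θ) (hδ : 0 < δ) :
    tsupport (abv θ1 θ δ) ⊆ Ici δ ∩ tsupport θ1 :=
  (tst_pos (tst_out h1 h δ) hδ (out_zero h hδ θ1)).2.trans
    (inter_subset_inter_right _ tsupport_mul_subset_left)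

theorem tst_blw (h1 : Tst θ1) (h : Bump θ) (hδ : 0 < δ) : Tst (blw θ1 θ δ) :=
  (tst_neg (tst_out h1 h δ) hδ (out_zero h hδ θ1)).1

theorem tsupport_blw (h1 : Tst θ1) (h : Bump θ) (hδ : 0 < δ) :
    tsupport (blw θ1 θ δ) ⊆ Iic (-δ) ∩ tsupport θ1 :=
  (tst_neg (tst_out h1 h δ) hδ (out_zero h hδ θ1)).2.trans
    (inter_subset_inter_right _ tsupport_mul_subset_left)

theorem d0_abv (h1 : Tst θ1) (h : Bump θ) (hδ : 0 < δ) : D0 (abv θ1 θ δ) :=
  ⟨tst_abv h1 h hδ, fun k => by linarith [show δ ≤ 0 from (tsupport_abv h1 h hδ k).1]⟩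

theorem d0_blw (h1 : Tst θ1) (h : Bump θ) (hδ : 0 < δ) : D0 (blw θ1 θ δ) :=
  ⟨tst_blw h1 h hδ, fun k => by linarith [show 0 ≤ -δ from (tsupport_blw h1 h hδ k).1]⟩

/-- above, thin, below -/
theorem abv_split (h : Bump θ) (θ1 : ℝ → ℝ) (δ t : ℝ) :
    θ1 t = abv θ1 θ δ t + θ1 t * θ (t / δ) + blw θ1 θ δ t := by
  rcases lt_trichotomy t 0 with k | rfl | k
  · simp [abv, blw, k, lt_asymm k]; ring
  · simp [abv, blw, h.2.2 0]
  · simp [abv, blw, k, lt_asymm k]; ring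

theorem blw_neg (h : ∀ t, θ (-t) = θ t) (θ1 : ℝ → ℝ) (δ t : ℝ) :
    blw θ1 θ δ (-t) = abv (fun t => θ1 (-t)) θ δ t := by
  simp [abv, blw, neg_div, h]

end line

/-! ## the test functions of two and three points -/

theorem dc_pairF {W : R2 → ℝ} {κ f : P3 → ℝ} {ρ θ1 : ℝ → ℝ} {δ L : ℝ} (hW : ContDiff ℝ ∞ W)
    (hκ : Tst κ) (hf : Tst f) (hρ : Tst ρ) (h1 : Tst θ1) (hδ : δ ≠ 0) (hL : 0 < L) :
    Dc fun z : V × V => ((W (tx z.1 - tx z.2) * (kL κ L (pl z.1) * dlt δ ρ (be z.1)) *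
      (f (pl z.2) * θ1 (be z.2)) : ℝ) : ℂ) := by
  simpa only [mul_assoc] using dc_cx (cs_mul_l (f := fun z : V × V => W (tx z.1 - tx z.2))
    (by fun_prop) (cs_prod (tst_pr (tst_kL hκ hL) (tst_dlt hρ hδ)) (tst_pr hf h1)))

theorem pairF_apply {W : R2 → ℝ} {κ f : P3 → ℝ} {ρ θ1 : ℝ → ℝ} {δ L : ℝ} (hW : ContDiff ℝ ∞ W)
    (hκ : Tst κ) (hf : Tst f) (hρ : Tst ρ) (h1 : Tst θ1) (hδ : δ ≠ 0) (hL : 0 < L) (z : V × V) :
    pairF W κ f ρ θ1 δ L z = ((W (tx z.1 - tx z.2) * (kL κ L (pl z.1) * dlt δ ρ (be z.1)) *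
      (f (pl z.2) * θ1 (be z.2)) : ℝ) : ℂ) := sch_dc (dc_pairF hW hκ hf hρ h1 hδ hL) z

theorem tst_tri {W : V × V × V → ℝ} {a b c : V → ℝ} (hW : ContDiff ℝ ∞ W) (ha : Tst a) (hb : Tst b)
    (hc : Tst c) : Tst fun z : V × V × V => W z * a z.1 * b z.2.1 * c z.2.2 := by
  simp only [mul_assoc]
  exact cs_mul_l hW (cs_prod ha (cs_prod hb hc))

theorem triF_apply {κ f g : P3 → ℝ} {ρ θ1 φ : ℝ → ℝ} {δ L : ℝ} (hκ : Tst κ) (hf : Tst f)
    (hg : Tst g) (hρ : Tst ρ) (h1 : Tst θ1) (hφ : Tst φ) (hδ : δ ≠ 0) (hL : 0 < L)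
    (z : V × V × V) : triF κ f g ρ θ1 φ δ L z = ((d2 (tx z.2.1 - tx z.1) (tx z.2.1 - tx z.2.2) *
      (f (pl z.1) * θ1 (be z.1)) * (kL κ L (pl z.2.1) * dlt δ ρ (be z.2.1)) *
      (g (pl z.2.2) * φ (be z.2.2)) : ℝ) : ℂ) :=
  sch_tst (tst_tri (by fun_prop) (tst_pr hf h1) (tst_pr (tst_kL hκ hL) (tst_dlt hρ hδ))
    (tst_pr hg hφ)) z

end

end Vale.Agent.P352X.Ap
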