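import Vale.Agent.P352X.Api2b

/-!
# P352X: causal geometry (row API2, part d)
-/

set_option linter.all false

open Filter Topology Set Function Metric

namespace Vale.Agent.P352X.Ap

open Vale.Agent.P352.GF Vale.Agent.P352.H755 Vale.Agent.P352.BW Vale.Agent.P352.H496
open Vale.Agent.P352.H246 (In)

noncomputable section

variable {A A' B B' K : Set V} {a b p v x y z : V} {r : ℝ} {f g : Fn}

/-! ## the closed cone -/

/-- the closed forward cone -/
def Cc : Set V := {p | 0 ≤ p o ∧ 0 ≤ mu p}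

theorem closed_Cc : IsClosed Cc :=
  (isClosed_le continuous_const (continuous_apply o)).inter (isClosed_le continuous_const cont_mu)

theorem Fc_sub : Fc ⊆ Cc := fun _ h => ⟨h.2.le, h.1.le⟩

theorem zero_Cc : (0 : V) ∈ Cc := ⟨le_rfl, (md_zero 0).ge⟩

theorem null_Cc (ha : IsNull a) : a ∈ Cc := ⟨ha.2.le, ha.1.ge⟩

theorem md_nonneg (hx : x ∈ Cc) (hy : y ∈ Cc) : 0 ≤ mdot x y := by
  obtain ⟨a1, a2, a3⟩ := (cone_iff x).1 hx
  obtain ⟨b1, b2, b3⟩ := (cone_iff y).1 hy
  rw [mdot_null, sub_nonneg]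
  refine (le_abs_self _).trans (abs_le_of_sq_le_sq ((d2_sq_le _ _).trans ?_) (by positivity))
  have := mul_le_mul a3 b3 (d2_nonneg _) (by positivity)
  nlinarith [sq_nonneg (al x * be y - be x * al y)]

theorem Cc_add (hx : x ∈ Cc) (hy : y ∈ Cc) : x + y ∈ Cc := by
  have := md_nonneg hx hy
  refine ⟨add_nonneg hx.1 hy.1, ?_⟩
  have a := hx.2
  have b := hy.2
  simp only [mu, md_add, md_add_l, md_comm y x] at a b ⊢
  linarith

theorem md_bas (a : V) (t : ℝ) : mdot a (bas o t) = a o * t := by simp [mdot_eq, bas, o]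

theorem null_pos (ha : IsNull a) (hp : p ∈ Fc) : 0 < mdot a p := by
  have c : ContinuousAt (fun t : ℝ => p - t • bas o 1) 0 := by fun_prop
  obtain ⟨t, h1, h2⟩ := (((c.eventually (isOpen_Fc.mem_nhds (by simpa using hp))).filter_mono
    (nhdsWithin_le_nhds (s := Ioi 0))).and self_mem_nhdsWithin).exists
  have := md_nonneg (null_Cc ha) (Fc_sub h1)
  rw [md_sub, md_smul, md_bas, mul_one] at this
  linarith [mul_pos (show 0 < t from h2) ha.2]

theorem Cc_anti (h : p ∈ Cc) (h' : -p ∈ Cc) : p = 0 := by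
  obtain ⟨a1, a2, a3⟩ := (cone_iff p).1 h
  obtain ⟨b1, b2, -⟩ := (cone_iff _).1 h'
  rw [al_neg] at b1
  rw [be_neg] at b2
  have c1 : al p = 0 := by linarith
  rw [c1, mul_zero, zero_mul] at a3
  exact null_ext (by simpa using c1) (by rw [be_zero]; linarith)
    (by simpa using (d2_eq_zero _).1 (a3.antisymm (d2_nonneg _)))

theorem Cc_or (h : 0 ≤ mu p) : p ∈ Cc ∨ -p ∈ Cc :=
  (le_total 0 (p o)).imp (fun k => ⟨k, h⟩) fun k => ⟨neg_nonneg.2 k, by rwa [mu_neg]⟩

theorem Cc_jr : -jr p ∈ Cc ↔ p ∈ Cc := by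
  change 0 ≤ (-jr p) o ∧ 0 ≤ mu (-jr p) ↔ 0 ≤ p o ∧ 0 ≤ mu p
  rw [cone_iff, cone_iff]
  simp [d2_neg, d2_neg_l]

theorem closure_Fc : closure Fc = Cc := by
  refine (closure_minimal Fc_sub closed_Cc).antisymm fun p hp => ?_
  have c : ContinuousAt (fun t : ℝ => p + t • bas o 1) 0 := by fun_prop
  refine mem_closure_of_tendsto (b := 𝓝[>] (0 : ℝ)) (f := fun t : ℝ => p + t • bas o 1)
    (by simpa using c.tendsto.mono_left nhdsWithin_le_nhds) (eventually_mem_nhdsWithin.mono fun t (ht : 0 < t) => ⟨?_, ?_⟩)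
  · have := hp.2
    have e : bas o (1 : ℝ) o = 1 := by simp [bas]
    simp only [mu, md_add, md_smul, md_bas, md_comm _ p, Pi.add_apply, Pi.smul_apply, smul_eq_mul,
      e] at this ⊢
    nlinarith [mul_nonneg ht.le hp.1, mul_pos ht ht]
  · simpa [bas] using add_pos_of_nonneg_of_pos hp.1 ht

/-- orthochronous conformal linear maps preserve the closed cone -/
theorem Cc_conf {T : V → V} {c : ℝ} (hT : Conf T c) (h : ∀ p, T p ∈ Fc ↔ p ∈ Fc) :
    T p ∈ Cc ↔ p ∈ Cc := by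
  have e : hT.cle.toHomeomorph ⁻¹' Fc = Fc := Set.ext h
  have := hT.cle.toHomeomorph.preimage_closure Fc
  rw [e, closure_Fc] at this
  exact Set.ext_iff.1 this p

/-! ## `Late` -/

theorem late_def : Late A B ↔ ∀ x ∈ A, ∀ y ∈ B, y - x ∉ Cc := Iff.rfl

theorem late_mono (h : Late A B) (hA : A' ⊆ A) (hB : B' ⊆ B) : Late A' B' :=
  fun x hx y hy => h x (hA hx) y (hB hy)

theorem late_union_l (h : Late A B) (h' : Late A' B) : Late (A ∪ A') B :=
  fun x hx => hx.elim (h x) (h' x)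

theorem late_union_r (h : Late A B) (h' : Late A B') : Late A (B ∪ B') :=
  fun x hx y hy => hy.elim (h x hx y) (h' x hx y)

theorem late_cov (ha : a ∈ Cc) (h : ∀ x ∈ A, ∀ y ∈ B, mdot a y < mdot a x) : Late A B :=
  fun x hx y hy k => by
    have := md_nonneg ha k
    rw [md_sub] at this
    linarith [h x hx y hy]

theorem late_null (ha : IsNull a) (h : ∀ x ∈ A, ∀ y ∈ B, mdot a y < mdot a x) : Late A B :=
  late_cov (null_Cc ha) h

theorem late_be (h : ∀ x ∈ A, ∀ y ∈ B, be y < be x) : Late A B := late_null null_va h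

theorem late_al (h : ∀ x ∈ A, ∀ y ∈ B, al y < al x) : Late A B := late_null null_vb h

theorem late_o (h : ∀ x ∈ A, ∀ y ∈ B, y o < x o) : Late A B :=
  fun x hx y hy k => (h x hx y hy).not_ge (sub_nonneg.1 k.1)

theorem late_sp (h : ∀ x ∈ A, ∀ y ∈ B, mu (x - y) < 0) : Late A B :=
  fun x hx y hy k => (h x hx y hy).not_ge (by rw [← neg_sub, mu_neg]; exact k.2)

theorem late_iff : Late A B ↔ ∀ x ∈ A, ∀ y ∈ B, al x ≤ al y → be x ≤ be y →
    2 * (al y - al x) * (be y - be x) < d2 (tx y - tx x) (tx y - tx x) := by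
  refine forall₄_congr fun x _ y _ => (not_congr (cone_iff (y - x))).trans ?_
  simp

theorem sp_iff : (∀ x ∈ A, ∀ y ∈ B, mu (x - y) < 0) ↔ Late A B ∧ Late B A :=
  ⟨fun h => ⟨late_sp h, fun y hy x hx k => (h x hx y hy).not_ge k.2⟩, fun h x hx y hy =>
    not_le.1 fun k => (Cc_or k).elim (h.2 y hy x hx) fun j => h.1 x hx y hy (by rwa [neg_sub] at j)⟩

theorem sep_iff : Sep f g ↔ Late (tsupport f) (tsupport g) ∧ Late (tsupport g) (tsupport f) :=
  sp_iff

theorem sep_of (h : ∀ x ∈ A, ∀ y ∈ B, mu (x - y) < 0) (hf : tsupport f ⊆ A) (hg : tsupport g ⊆ B) :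
    Sep f g := fun x hx y hy => h x (hf hx) y (hg hy)

theorem sep_symm (h : Sep f g) : Sep g f := sep_iff.2 (sep_iff.1 h).symm

theorem late_or (h : x ≠ y) : Late {x} {y} ∨ Late {y} {x} := by
  by_contra! k
  simp only [late_def, mem_singleton_iff, forall_eq, not_not] at k
  exact h (sub_eq_zero.1 (Cc_anti k.2 (by rw [neg_sub]; exact k.1)))

/-- `Late` is stable for compact sets -/
theorem late_cpt (hA : IsCompact A) (hB : IsCompact B) (h : Late A B) :
    ∃ U W, IsOpen U ∧ IsOpen W ∧ A ⊆ U ∧ B ⊆ W ∧ Late U W := by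
  obtain ⟨U, W, a, b, c, d, e⟩ := generalized_tube_lemma hA hB
    (n := (fun q : V × V => q.2 - q.1) ⁻¹' Ccᶜ) (closed_Cc.isOpen_compl.preimage (by fun_prop))
    fun q hq => h _ hq.1 _ hq.2
  exact ⟨U, W, a, b, c, d, fun x hx y hy => e (mk_mem_prod hx hy)⟩

theorem late_nhds (h : Late {x} {y}) : ∃ U ∈ 𝓝 x, ∃ W ∈ 𝓝 y, Late U W := by
  obtain ⟨U, W, a, b, c, d, e⟩ := late_cpt isCompact_singleton isCompact_singleton h
  exact ⟨U, a.mem_nhds (c rfl), W, b.mem_nhds (d rfl), e⟩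

theorem late_jr (h : Late A B) : Late (jr ⁻¹' B) (jr ⁻¹' A) := fun y hy x hx k =>
  h _ hx _ hy (by
    rw [← neg_sub, show jr x - jr y = jr (x - y) from (jrL.map_sub x y).symm]
    exact Cc_jr.2 k)

theorem late_conf {T : V → V} {c : ℝ} (hT : Conf T c) (hF : ∀ p, T p ∈ Fc ↔ p ∈ Fc) (a : V)
    (h : Late A B) : Late ((fun x => T x + a) ⁻¹' A) ((fun x => T x + a) ⁻¹' B) :=
  fun x hx y hy k => h _ hx _ hy (by
    rw [add_sub_add_right_eq_sub, ← hT.lin.map_sub]
    exact (Cc_conf hT hF).2 k)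

theorem late_sim {s : ℝ} {L : Ix → V} (hs : 0 < s) (hL : IsLor L) (a : V) (h : Late A B) :
    Late (sim s L a ⁻¹' A) (sim s L a ⁻¹' B) := by
  simpa only [← sim_zero] using late_conf (conf_sim hs hL) (Fc_sim hs hL) a h

theorem late_tr (a : V) (h : Late A B) : Late ((· + a) ⁻¹' A) ((· + a) ⁻¹' B) :=
  fun x hx y hy k => h _ hx _ hy (by rwa [add_sub_add_right_eq_sub])

/-! ## the causal hull -/

theorem notMem_Jc : z ∉ Jc K ↔ ∀ x ∈ K, mu (z - x) < 0 := by simp [Jc, mu]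

theorem Jc_mono (h : A ⊆ B) : Jc A ⊆ Jc B := fun _ ⟨x, hx, k⟩ => ⟨x, h hx, k⟩

theorem sub_Jc (K : Set V) : K ⊆ Jc K := fun x hx => ⟨x, hx, by simp⟩

theorem closed_Jc (hK : IsCompact K) : IsClosed (Jc K) := by
  refine isOpen_compl_iff.1 (isOpen_iff_mem_nhds.2 fun z hz => ?_)
  exact (hK.eventually_forall_of_forall_eventually (P := fun z x => mu (z - x) < 0) fun x hx =>
    (show Continuous fun q : V × V => mu (q.1 - q.2) by fun_prop).continuousAt.eventually_lt_const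
      (notMem_Jc.1 hz x hx)).mono fun w hw => notMem_Jc.2 hw

theorem sep_Jc (hf : tsupport f ⊆ (Jc K)ᶜ) (hg : tsupport g ⊆ K) : Sep f g :=
  sep_of (fun _ hx => notMem_Jc.1 hx) hf hg

/-! ## wedges -/

theorem open_wdg (a b v : V) : IsOpen (Wdg a b v) :=
  (isOpen_lt (f := fun x => mdot a (x - v)) (by fun_prop) continuous_const).inter
    (isOpen_lt (g := fun x => mdot b (x - v)) continuous_const (by fun_prop))

theorem wdg_opp (ha : IsNull a) (hb : IsNull b) (hx : x ∈ Wdg a b v) (hz : z ∈ Wdg b a v) :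
    mu (x - z) < 0 := by
  have hs : ∀ n : V, mdot n (x - z) = mdot n (x - v) - mdot n (z - v) := fun n => by
    rw [← md_sub, sub_sub_sub_cancel_right]
  refine not_le.1 fun h => (Cc_or h).elim (fun k => ?_) fun k => ?_
  · linarith [md_nonneg (null_Cc ha) k, hs a, hx.1, hz.2]
  · linarith [md_nonneg (null_Cc hb) k, md_neg b (x - z), hs b, hx.2, hz.1]

theorem sep_wdg (ha : IsNull a) (hb : IsNull b) (hf : tsupport f ⊆ Wdg a b v)
    (hg : tsupport g ⊆ Wdg b a v) : Sep f g := sep_of (fun _ hx _ hz => wdg_opp ha hb hx hz) hf hg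

theorem mem_W : z ∈ Wdg va vb v ↔ be z < be v ∧ al v < al z := by simp [Wdg, md_va, md_vb]

theorem mem_W' : z ∈ Wdg vb va v ↔ al z < al v ∧ be v < be z := by simp [Wdg, md_va, md_vb]

/-- a point that is spacelike to both tips is separated from the closed double cone by a wedge -/
theorem sep_tips (hr : 0 ≤ r) (h1 : mu (z - (y - bas o r)) < 0) (h2 : mu (z - (y + bas o r)) < 0) :
    ∃ a b v, IsNull a ∧ IsNull b ∧ 0 < mdot a b ∧
      (∀ x, x - (y - bas o r) ∈ Cc → y + bas o r - x ∈ Cc → x ∈ Wdg a b v) ∧ z ∈ Wdg b a v := by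
  obtain ⟨w, rfl⟩ : ∃ w, z = y + w := ⟨z - y, by abel⟩
  obtain ⟨s, s0, hs⟩ : ∃ s : ℝ, 0 ≤ s ∧ s * s = w 1 * w 1 + w 2 * w 2 + w 3 * w 3 :=
    ⟨_, Real.sqrt_nonneg _, Real.mul_self_sqrt (add_nonneg (add_nonneg (mul_self_nonneg _)
      (mul_self_nonneg _)) (mul_self_nonneg _))⟩
  simp [mu, mdot_eq, bas, o] at h1 h2
  have k1 := abs_lt.1 (abs_lt_of_sq_lt_sq (a := w 0 + r) (by nlinarith) s0)
  have k2 := abs_lt.1 (abs_lt_of_sq_lt_sq (a := w 0 - r) (by nlinarith) s0)
  have s1 : 0 < s := by linarith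
  obtain ⟨l, l1, l2, l3⟩ : ∃ l, r < l * s ∧ l * s < s + w 0 ∧ l * s < s - w 0 := by
    obtain ⟨t, t1, t2⟩ := exists_between (show r < min (s + w 0) (s - w 0) from
      lt_min (by linarith) (by linarith))
    exact ⟨t / s, by simpa [s1.ne'] using ⟨t1, lt_min_iff.1 t2⟩⟩
  have na : IsNull ![s, -w 1, -w 2, -w 3] := ⟨by simp [mdot_eq]; linarith, s1⟩
  have nb : IsNull ![s, w 1, w 2, w 3] := ⟨by simp [mdot_eq]; linarith, s1⟩
  refine ⟨_, _, y + l • (w - bas o (w 0)), na, nb, ?_, fun x a b => ?_, ?_, ?_⟩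
  · simp [mdot_eq]
    nlinarith
  · have a' := md_nonneg (null_Cc nb) a
    have b' := md_nonneg (null_Cc na) b
    have c := mul_lt_mul_of_pos_left l1 s1
    have d := congrArg (l * ·) hs
    simp [mdot_eq, bas, o, Wdg] at a' b' ⊢
    constructor <;> nlinarith
  · have c := mul_lt_mul_of_pos_left l3 s1
    have d := congrArg (l * ·) hs
    simp [mdot_eq, bas, o]
    nlinarith
  · have c := mul_lt_mul_of_pos_left l2 s1
    have d := congrArg (l * ·) hs
    simp [mdot_eq, bas, o]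
    nlinarith

theorem bas_zero (m : Ix) : bas m 0 = 0 := by rw [bas_smul, zero_smul]

/-- spacelike points lie in opposite wedges -/
theorem sep_pts (h : mu (z - y) < 0) :
    ∃ a b v, IsNull a ∧ IsNull b ∧ 0 < mdot a b ∧ y ∈ Wdg a b v ∧ z ∈ Wdg b a v := by
  obtain ⟨a, b, v, h1, h2, h3, h4, h5⟩ := sep_tips (z := z) (y := y) le_rfl
    (by simpa [bas_zero] using h) (by simpa [bas_zero] using h)
  exact ⟨a, b, v, h1, h2, h3, h4 y (by simpa [bas_zero] using zero_Cc)
    (by simpa [bas_zero] using zero_Cc), h5⟩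

/-! ## double cones -/

theorem open_dc (y : V) (r : ℝ) : IsOpen (dc y r) :=
  (isOpen_Fc.preimage (f := fun z => z - (y - bas o r)) (by fun_prop)).inter
    (isOpen_Fc.preimage (f := fun z => y + bas o r - z) (by fun_prop))

theorem convex_dc (y : V) (r : ℝ) : Convex ℝ (dc y r) := fun x hx z hz s t hs ht e => by
  have k : ∀ p : V, p = s • p + t • p := fun p => by rw [← add_smul, e, one_smul]
  constructor
  · convert convex_Fc hx.1 hz.1 hs ht e using 1
    rw [smul_sub s x, smul_sub t z, sub_add_sub_comm, ← k]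
  · convert convex_Fc hx.2 hz.2 hs ht e using 1
    rw [smul_sub s _ x, smul_sub t _ z, sub_add_sub_comm, ← k]

theorem dc_ball (y : V) (r : ℝ) : dc y r ⊆ ball y r := by
  intro z hz
  obtain ⟨w, rfl⟩ : ∃ w, z = y + w := ⟨z - y, by abel⟩
  obtain ⟨⟨a1, a2⟩, b1, b2⟩ := hz
  simp [mdot_eq, bas, o] at a1 a2 b1 b2
  have k : ∀ t : ℝ, t * t ≤ w 1 * w 1 + w 2 * w 2 + w 3 * w 3 → |t| < r := fun t ht => by
    have c1 := abs_lt_of_sq_lt_sq (a := t) (b := w 0 + r) (by nlinarith) (by linarith)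
    have c2 := abs_lt_of_sq_lt_sq (a := t) (b := r - w 0) (by nlinarith) (by linarith)
    linarith
  rw [mem_ball, dist_self_add_left, pi_norm_lt_iff (by linarith)]
  intro m
  have := mul_self_nonneg (w 1)
  have := mul_self_nonneg (w 2)
  have := mul_self_nonneg (w 3)
  fin_cases m
  exacts [abs_lt.2 ⟨show -r < w 0 by linarith, show w 0 < r by linarith⟩, k (w 1) (by linarith),
    k (w 2) (by linarith), k (w 3) (by linarith)]

theorem ball_dc (y : V) (r : ℝ) : ball y (r / 4) ⊆ dc y r := by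
  intro z hz
  obtain ⟨w, rfl⟩ : ∃ w, z = y + w := ⟨z - y, by abel⟩
  rw [mem_ball, dist_self_add_left] at hz
  have k := fun m => abs_lt.1 ((norm_le_pi_norm w m).trans_lt hz)
  have j : ∀ m, w m * w m < (r / 4) ^ 2 := fun m => by nlinarith [k m]
  refine ⟨⟨?_, ?_⟩, ?_, ?_⟩ <;> simp [mdot_eq, bas, o] <;> nlinarith [k 0, j 1, j 2, j 3]

theorem mem_dc_self (y : V) (hr : 0 < r) : y ∈ dc y r := ball_dc y r (mem_ball_self (by linarith))

theorem dc_nhds (y : V) (hr : 0 < r) : dc y r ∈ 𝓝 y := (open_dc y r).mem_nhds (mem_dc_self y hr)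

theorem closure_dc_ball (y : V) (r : ℝ) : closure (dc y r) ⊆ closedBall y r :=
  (closure_mono (dc_ball y r)).trans closure_ball_subset_closedBall

theorem cpt_dc (y : V) (r : ℝ) : IsCompact (closure (dc y r)) :=
  (isCompact_closedBall y r).of_isClosed_subset isClosed_closure (closure_dc_ball y r)

theorem ex_dc {U : Set V} (h : U ∈ 𝓝 y) : ∃ r > 0, closure (dc y r) ⊆ U := by
  obtain ⟨r, r0, hr⟩ := nhds_basis_closedBall.mem_iff.1 h
  exact ⟨r, r0, (closure_dc_ball y r).trans hr⟩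

theorem closure_dc (hx : x ∈ closure (dc y r)) :
    x - (y - bas o r) ∈ Cc ∧ y + bas o r - x ∈ Cc :=
  closure_minimal (t := {x | x - (y - bas o r) ∈ Cc ∧ y + bas o r - x ∈ Cc})
    (fun _ h => ⟨Fc_sub h.1, Fc_sub h.2⟩) ((closed_Cc.preimage (by fun_prop)).inter
      (closed_Cc.preimage (f := fun z => y + bas o r - z) (by fun_prop))) hx

theorem axis_dc {t : ℝ} (h : |t| < r) : y + t • bas o 1 ∈ dc y r := by
  have := abs_lt.1 h
  refine ⟨⟨?_, ?_⟩, ?_, ?_⟩ <;> simp [mdot_eq, bas, o] <;> nlinarith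

theorem tip_dc (hr : 0 < r) {t : ℝ} (h : |t| ≤ r) : y + bas o t ∈ closure (dc y r) := by
  rw [bas_smul]
  refine map_mem_closure (f := fun t : ℝ => y + t • bas o 1) (s := Ioo (-r) r) (by fun_prop) ?_
    fun t ht => axis_dc (abs_lt.2 ht)
  rw [closure_Ioo (by linarith)]
  exact abs_le.1 h

/-- **wedge separation** of a double cone from a spacelike point -/
theorem sep_dc (hr : 0 < r) (hz : z ∉ Jc (closure (dc y r))) : ∃ a b v, IsNull a ∧ IsNull b ∧
    0 < mdot a b ∧ closure (dc y r) ⊆ Wdg a b v ∧ z ∈ Wdg b a v := by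
  have k := fun t (h : |t| ≤ r) => notMem_Jc.1 hz _ (tip_dc hr h)
  obtain ⟨a, b, v, h1, h2, h3, h4, h5⟩ := sep_tips hr.le (z := z) (y := y) (by
    have := k (-r) (by rw [abs_neg, abs_of_pos hr])
    rwa [bas_smul, neg_smul, ← bas_smul, ← sub_eq_add_neg] at this) (k r (abs_of_pos hr).le)
  exact ⟨a, b, v, h1, h2, h3, fun x hx => h4 x (closure_dc hx).1 (closure_dc hx).2, h5⟩

/-- test functions that are spacelike to a double cone are sums of pieces in opposite wedges -/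
theorem in_ind_dc {P : Fn → Prop} {O : Set V} (hr : 0 < r) (hO : O ⊆ (Jc (closure (dc y r)))ᶜ)
    (h0 : P fun _ => 0) (hadd : ∀ f g, In O f → In O g → P f → P g → P fun x => f x + g x)
    (hw : ∀ a b v f, IsNull a → IsNull b → 0 < mdot a b → closure (dc y r) ⊆ Wdg a b v →
      In (Wdg b a v ∩ O) f → P f) (hf : In O f) : P f :=
  in_ind h0 hadd (fun x hx => by
    obtain ⟨a, b, v, h1, h2, h3, h4, h5⟩ := sep_dc hr (hO hx)
    exact ⟨_, (open_wdg b a v).mem_nhds h5, fun f => hw a b v f h1 h2 h3 h4⟩) hf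

theorem dc_mono {r' : ℝ} (h : r ≤ r') : dc y r ⊆ dc y r' := fun z hz => by
  rcases h.eq_or_lt with rfl | h
  · exact hz
  have k : bas o (r' - r) ∈ Fc := ⟨by simp [mdot_eq, bas, o]; linarith, by simpa [bas] using h⟩
  have e : bas o r' = bas o r + bas o (r' - r) := by
    rw [bas_smul, bas_smul _ r, bas_smul _ (r' - r), ← add_smul, add_sub_cancel]
  exact ⟨by convert Fc_add hz.1 k using 1; rw [e]; abel,
    by convert Fc_add hz.2 k using 1; rw [e]; abel⟩

theorem dc_tr (a y : V) (r : ℝ) : (· + a) ⁻¹' dc (y + a) r = dc y r := by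
  ext z
  simp only [dc, mem_preimage, mem_setOf]
  congr! 2 <;> abel

theorem dc_jr (y : V) (r : ℝ) : jr ⁻¹' dc (jr y) r = dc y r := by
  have k : ∀ p, -jr p ∈ Fc ↔ p ∈ Fc := fun p => by simp [mem_Fc, mu, md_neg, md_neg_l, md_jr]
  have e : bas o r = -jr (bas o r) := by
    ext m; fin_cases m <;> simp [jr_apply, sj, bas, o]
  ext z
  simp only [dc, mem_preimage, mem_setOf]
  rw [and_comm, ← k (z - _), ← k (_ - z)]
  simp only [← jrL_apply, map_sub, map_add]
  simp only [jrL_apply]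
  rw [show jr (bas o r) = -bas o r from neg_eq_iff_eq_neg.1 e.symm]
  congr! 2 <;> abel

end

end Vale.Agent.P352X.Ap
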