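import Vale.Agent.P352X.Api3d

/-!
# P352X, API 3: coordinates, volume, Fourier transforms (helper11); see Api3a, b, c, d
-/
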