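import Vale.Agent.P352X.Api3b
import Vale.Agent.P352X.ST.Syn
import Vale.Agent.P352X.R.LIE
import Mathlib.Analysis.Fourier.LpSpace

/-!
# P352X, API 3c: the Fourier transform of a bilinear form (helper11)
-/

set_option linter.all false

open Set Filter Topology MeasureTheory
open scoped ContDiff ENNReal SchwartzMap ComplexConjugate FourierTransform Real LineDeriv
  RealInnerProductSpace
open Complex (I exp)

namespace Vale.Agent.P352X.FT

noncomputable section

variable {E : Type*} [NormedAddCommGroup E] [NormedSpace ℝ E] [FiniteDimensional ℝ E]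
  [MeasureSpace E] [BorelSpace E]

/-- the Fourier transform of the bilinear form `B` -/
def gft (B : E →L[ℝ] E →L[ℝ] ℝ) (f : E → ℂ) (p : E) : ℂ := ∫ z, f z * exp (I * B p z)

variable {B : E →L[ℝ] E →L[ℝ] ℝ} {f g : E → ℂ}

theorem norm_exp (t : ℝ) : ‖exp (I * t)‖ = 1 := by simp [Complex.norm_exp]

theorem int_exp (hf : Integrable f) (p : E) : Integrable fun z => f z * exp (I * B p z) :=
  hf.mul_bdd (c := 1) (by fun_prop) (ae_of_all _ fun z => (norm_exp _).le)

theorem gft_eq (f : E → ℂ) :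
    gft B f = VectorFourier.fourierIntegral 𝐞 volume ((-(2 * π)⁻¹) • B.flip).toLinearMap₁₂ f := by
  funext p
  rw [Real.vector_fourierIntegral_eq_integral_exp_smul]
  refine integral_congr_ae (ae_of_all _ fun z => ?_)
  simp only [smul_eq_mul, mul_comm (f z)]
  congr 2
  rw [mul_comm I]
  congr 2
  simp [Real.pi_ne_zero]; field_simp

theorem gft_congr (h : f =ᵐ[volume] g) : gft B f = gft B g :=
  funext fun p => integral_congr_ae (h.mono fun z hz => by simp only [hz])

theorem gft_add (hf : Integrable f) (hg : Integrable g) (p : E) :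
    gft B (fun z => f z + g z) p = gft B f p + gft B g p := by
  simp only [gft, add_mul, integral_add (int_exp hf p) (int_exp hg p)]

theorem gft_sub (hf : Integrable f) (hg : Integrable g) (p : E) :
    gft B (fun z => f z - g z) p = gft B f p - gft B g p := by
  simp only [gft, sub_mul, integral_sub (int_exp hf p) (int_exp hg p)]

theorem gft_mul (a : ℂ) (f : E → ℂ) (p : E) : gft B (fun z => a * f z) p = a * gft B f p := by
  simp only [gft, mul_assoc, integral_const_mul]

theorem gft_neg (f : E → ℂ) (p : E) : gft B (fun z => -f z) p = -gft B f p := by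
  simp only [gft, neg_mul, integral_neg]

theorem gft_zero (p : E) : gft B (fun _ => 0) p = 0 := by simp [gft]

theorem gft_sum {ι : Type*} (s : Finset ι) {F : ι → E → ℂ} (h : ∀ i ∈ s, Integrable (F i)) (p : E) :
    gft B (fun z => ∑ i ∈ s, F i z) p = ∑ i ∈ s, gft B (F i) p := by
  simp only [gft, Finset.sum_mul]
  exact integral_finsetSum _ fun i hi => int_exp (h i hi) p

theorem gft_at_zero (f : E → ℂ) : gft B f 0 = ∫ z, f z := by simp [gft]

theorem norm_gft_le (f : E → ℂ) (p : E) : ‖gft B f p‖ ≤ ∫ z, ‖f z‖ :=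
  (norm_integral_le_integral_norm _).trans_eq (by simp only [norm_mul, norm_exp, mul_one])

theorem gft_conj (f : E → ℂ) (p : E) : gft B (fun z => conj (f z)) p = conj (gft B f (-p)) := by
  rw [gft, gft, ← integral_conj]
  refine integral_congr_ae (ae_of_all _ fun z => ?_)
  simp [← Complex.exp_conj]

theorem gft_mdl (f : E → ℂ) (q p : E) :
    gft B (fun z => exp (I * B q z) * f z) p = gft B f (p + q) := by
  refine integral_congr_ae (ae_of_all _ fun z => ?_)
  simp only [map_add, ContinuousLinearMap.add_apply, Complex.ofReal_add, mul_add, Complex.exp_add]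
  ring

/-- changes of variables -/
theorem gft_comp {A : E → E} {k : ℝ} (h : Sc A volume volume k) (f : E → ℂ) {p q : E} {c : ℝ}
    (e : ∀ z, B p z = B q (A z) + c) :
    gft B (fun z => f (A z)) p = k * exp (I * c) * gft B f q := by
  have := h.integral fun y => f y * exp (I * B q y)
  rw [mul_right_comm, gft, gft, ← Complex.real_smul, ← this, ← integral_mul_const]
  refine integral_congr_ae (ae_of_all _ fun z => ?_)
  simp only [e, Complex.ofReal_add, mul_add, Complex.exp_add, mul_assoc]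

theorem continuous_gft (hf : Integrable f) : Continuous (gft B f) := by
  rw [gft_eq]
  exact VectorFourier.fourierIntegral_continuous Real.continuous_fourierChar
    ((-(2 * π)⁻¹) • B.flip).continuous₂ hf

theorem contDiff_gft (hf : ∀ n : ℕ, Integrable fun z => ‖z‖ ^ n * ‖f z‖) :
    ContDiff ℝ ∞ (gft B f) := by
  rw [gft_eq]
  exact VectorFourier.contDiff_fourierIntegral _ fun n _ => hf n

theorem differentiable_gft (hf : Integrable f) (hf' : Integrable fun z => ‖z‖ * ‖f z‖) :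
    Differentiable ℝ (gft B f) := by
  rw [gft_eq]
  exact VectorFourier.differentiable_fourierIntegral _ hf hf'

theorem fderiv_gft (hf : Integrable f) (hf' : Integrable fun z => ‖z‖ * ‖f z‖) (p h : E) :
    fderiv ℝ (gft B f) p h = I * gft B (fun z => (B h z : ℝ) * f z) p := by
  have i : Integrable (VectorFourier.fourierSMulRight ((-(2 * π)⁻¹) • B.flip) f) :=
    (hf'.const_mul (2 * π * ‖(-(2 * π)⁻¹) • B.flip‖)).mono' hf.1.fourierSMulRight
      (ae_of_all _ fun z => by
        simpa only [mul_assoc] using VectorFourier.norm_fourierSMulRight_le _ f z)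
  rw [← gft_mul, gft_eq, gft_eq, VectorFourier.fderiv_fourierIntegral _ hf hf',
    Real.fourierIntegral_continuousLinearMap_apply' i]
  congr 1
  funext z
  simp
  have : (π : ℂ) ≠ 0 := by simp
  field_simp

variable [(volume : Measure E).IsAddHaarMeasure]

theorem gft_tsl (f : E → ℂ) (a p : E) :
    gft B (fun z => f (z + a)) p = exp (-(I * B p a)) * gft B f p := by
  rw [gft_comp (sc_add_right volume a) f (q := p) (c := -B p a) (by simp)]
  simp

theorem gft_refl (f : E → ℂ) (p : E) : gft B (fun z => f (-z)) p = gft B f (-p) := by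
  have := gft_comp (B := B) (sc_smul volume (by norm_num : (-1 : ℝ) ≠ 0)) f (p := p) (q := -p)
    (c := 0) (by simp)
  simpa using this

theorem gft_fderiv (hf : Integrable f) (hd : Differentiable ℝ f) (hf' : Integrable (fderiv ℝ f))
    (y p : E) : gft B (fun z => fderiv ℝ f z y) p = -(I * B p y) * gft B f p := by
  rw [gft_eq, gft_eq, ← Real.fourierIntegral_continuousLinearMap_apply' hf',
    VectorFourier.fourierIntegral_fderiv _ hf hd hf']
  simp
  have : (π : ℂ) ≠ 0 := by simp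
  field_simp

theorem gft_deriv_sch (f : 𝓢(E, ℂ)) (y p : E) :
    gft B (fun z => fderiv ℝ f z y) p = -(I * B p y) * gft B f p :=
  gft_fderiv f.integrable f.differentiable (SchwartzMap.fderivCLM ℝ E ℂ f).integrable y p

theorem fderiv_gft_sch (f : 𝓢(E, ℂ)) (p h : E) :
    fderiv ℝ (gft B f) p h = I * gft B (fun z => (B h z : ℝ) * f z) p :=
  fderiv_gft f.integrable (by simpa using f.integrable_pow_mul volume 1) p h

/-- the multiplication formula -/
theorem gft_swap (hB : ∀ x y, B x y = B y x) (hf : Integrable f) (hg : Integrable g) :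
    ∫ p, gft B f p * g p = ∫ z, f z * gft B g z := by
  have := VectorFourier.integral_fourierIntegral_smul_eq_flip (e := 𝐞) (μ := volume) (ν := volume)
    (L := ((-(2 * π)⁻¹) • B.flip).toLinearMap₁₂) Real.continuous_fourierChar
    ((-(2 * π)⁻¹) • B.flip).continuous₂ hf hg
  rwa [show ((-(2 * π)⁻¹) • B.flip).toLinearMap₁₂.flip = ((-(2 * π)⁻¹) • B.flip).toLinearMap₁₂ by
    ext x y; simp [hB x y], ← gft_eq, ← gft_eq] at this

/-- Euclidean coordinates for a symmetric form -/
structure Dat (E : Type*) [NormedAddCommGroup E] [NormedSpace ℝ E] [MeasureSpace E] (n : ℕ) where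
  B : E →L[ℝ] E →L[ℝ] ℝ
  symm : ∀ x y, B x y = B y x
  e : E ≃L[ℝ] EuclideanSpace ℝ (Fin n)
  σ : E ≃L[ℝ] EuclideanSpace ℝ (Fin n)
  he : MeasurePreserving e volume volume
  hσ : MeasurePreserving σ volume volume
  hB : ∀ p z, B p z = ⟪e z, σ p⟫

/-- composition with a linear equivalence -/
def cE {E' : Type*} [NormedAddCommGroup E'] [NormedSpace ℝ E'] (e : E ≃L[ℝ] E') :
    𝓢(E', ℂ) ≃L[ℂ] 𝓢(E, ℂ) := ContinuousLinearEquiv.equivOfInverse
  (SchwartzMap.compCLMOfContinuousLinearEquiv ℂ e)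
  (SchwartzMap.compCLMOfContinuousLinearEquiv ℂ e.symm) (fun f => by ext; simp) fun f => by ext; simp

namespace Dat

variable {n : ℕ} (d : Dat E n)

def τ : E ≃L[ℝ] EuclideanSpace ℝ (Fin n) := d.σ.trans
  (ContinuousLinearEquiv.smulLeft (Units.mk0 (-(2 * π)⁻¹ : ℝ) (by simp [Real.pi_ne_zero])))

theorem τ_apply (p : E) : d.τ p = (-(2 * π)⁻¹ : ℝ) • d.σ p := rfl

theorem sc_e : Sc d.e volume volume 1 := .of_mp (emb_cle _) d.he

theorem sc_τ : Sc d.τ volume volume ((2 * π) ^ n) := by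
  have := (Sc.of_mp (emb_cle _) d.hσ).comp (sc_smul volume
    (by simp [Real.pi_ne_zero] : (-(2 * π)⁻¹ : ℝ) ≠ 0))
  rwa [abs_neg, abs_of_pos (by positivity), inv_pow, inv_inv, one_mul,
    finrank_euclideanSpace_fin] at this

theorem gft_eq (f : E → ℂ) (p : E) : gft d.B f p = 𝓕 (fun w => f (d.e.symm w)) (d.τ p) := by
  rw [Real.fourier_eq', d.sc_e.integral', inv_one, one_smul]
  refine integral_congr_ae (ae_of_all _ fun z => ?_)
  simp only [smul_eq_mul, mul_comm (f z), ContinuousLinearEquiv.symm_apply_apply, τ_apply,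
    inner_smul_right, d.hB, mul_comm I]
  congr 4
  field_simp

/-- the Fourier transform on Schwartz space -/
def F : 𝓢(E, ℂ) ≃L[ℂ] 𝓢(E, ℂ) :=
  ((cE d.e).symm.trans (FourierTransform.fourierCLE ℂ _)).trans (cE d.τ)

@[simp] theorem F_apply (f : 𝓢(E, ℂ)) (p : E) : d.F f p = gft d.B f p := (d.gft_eq f p).symm

theorem coe_F (f : 𝓢(E, ℂ)) : ⇑(d.F f) = gft d.B f := funext (d.F_apply f)

theorem F_symm (g : 𝓢(E, ℂ)) (z : E) :
    d.F.symm g z = (((2 * π) ^ n)⁻¹ : ℝ) * gft d.B g (-z) := by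
  change 𝓕⁻ ((cE d.τ).symm g) (d.e z) = _
  rw [SchwartzMap.fourierInv_coe, Real.fourierInv_eq', d.sc_τ.integral', Complex.real_smul]
  congr 1
  refine integral_congr_ae (ae_of_all _ fun p => ?_)
  change _ • g (d.τ.symm (d.τ p)) = g p * exp (I * d.B (-z) p)
  rw [ContinuousLinearEquiv.symm_apply_apply, τ_apply, d.symm (-z), d.hB, real_inner_smul_left,
    real_inner_comm, map_neg, inner_neg_left, smul_eq_mul, mul_comm, mul_comm I]
  congr 4
  field_simp

/-- the inversion formula -/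
theorem inv (f : 𝓢(E, ℂ)) (z : E) :
    f z = (((2 * π) ^ n)⁻¹ : ℝ) * ∫ p, gft d.B f p * exp (-(I * d.B p z)) := by
  conv_lhs => rw [← d.F.symm_apply_apply f, F_symm, coe_F]
  simp [gft, d.symm z]

theorem plancherel (f g : 𝓢(E, ℂ)) : ∫ p, conj (gft d.B f p) * gft d.B g p =
    ((2 * π) ^ n : ℝ) * ∫ z, conj (f z) * g z := by
  have := SchwartzMap.integral_inner_fourier_fourier ((cE d.e).symm f) ((cE d.e).symm g)
  rw [d.sc_τ.integral', d.sc_e.integral', inv_one, one_smul, inv_smul_eq_iff₀ (by positivity),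
    Complex.real_smul] at this
  simp only [RCLike.inner_apply, mul_comm _ (conj _)] at this
  convert this using 3 with p
  · rw [d.gft_eq, d.gft_eq]; rfl
  · funext z; simp [cE]

theorem plancherel_norm (f : 𝓢(E, ℂ)) :
    ∫ p, ‖gft d.B f p‖ ^ 2 = (2 * π) ^ n * ∫ z, ‖f z‖ ^ 2 := by
  have := d.plancherel f f
  simp only [Complex.conj_mul', ← Complex.ofReal_pow, integral_complex_ofReal] at this
  exact_mod_cast this

theorem plancherel_bil (f g : 𝓢(E, ℂ)) : ∫ p, gft d.B f p * gft d.B g (-p) =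
    ((2 * π) ^ n : ℝ) * ∫ z, f z * g z := by
  have i : Integrable fun p => gft d.B g (-p) := by
    exact d.coe_F g ▸ (d.F g).integrable.comp_neg
  rw [gft_swap d.symm f.integrable i, ← integral_const_mul]
  refine integral_congr_ae (ae_of_all _ fun z => ?_)
  have := d.F_symm (d.F g) z
  rw [d.F.symm_apply_apply, coe_F] at this
  have h : (((2 * π) ^ n : ℝ) : ℂ) ≠ 0 := by simp [Real.pi_ne_zero]
  simp only [gft_refl, this, Complex.ofReal_inv]
  field_simp

theorem memLp (f : 𝓢(E, ℂ)) (p : ℝ≥0∞) (μ : Measure E)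
    [μ.HasTemperateGrowth] : MemLp (gft d.B f) p μ := d.coe_F f ▸ (d.F f).memLp p μ

theorem integrable (f : 𝓢(E, ℂ)) : Integrable (gft d.B f) := d.coe_F f ▸ (d.F f).integrable

theorem smooth (f : 𝓢(E, ℂ)) : ContDiff ℝ ∞ (gft d.B f) := d.coe_F f ▸ (d.F f).smooth ⊤

theorem sn_F (N : ℕ) : ∃ (m : ℕ) (C : ℝ), 0 ≤ C ∧ ∀ f, sn N (d.F f) ≤ C * sn m f :=
  Lie.clm (((Finset.Iic (N, N)).sup (schwartzSeminormFamily ℂ E ℂ)).comp d.F.toLinearMap)
    ((Seminorm.continuous_finsetSup fun k _ =>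
      (schwartz_withSeminorms ℂ E ℂ).continuous_seminorm k).comp d.F.continuous)

theorem decay (N : ℕ) : ∃ (m : ℕ) (C : ℝ), 0 ≤ C ∧ ∀ (f : 𝓢(E, ℂ)) (p : E),
    (1 + ‖p‖) ^ N * ‖gft d.B f p‖ ≤ C * sn m f := by
  obtain ⟨m, C, h0, h⟩ := d.sn_F N
  refine ⟨m, 2 ^ N * C, by positivity, fun f p => ?_⟩
  have := Lie.dec le_rfl (Nat.zero_le N) (d.F f) p
  rw [norm_iteratedFDeriv_zero, F_apply] at this
  exact this.trans (by rw [mul_assoc]; gcongr; exact h f)

/-- the dual action on `L^2` -/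
theorem l2_dual {b : E → ℂ} (hb : MemLp b 2) : ∃ b' : E → ℂ, MemLp b' 2 ∧
    ∫ z, ‖b' z‖ ^ 2 = (2 * π) ^ n * ∫ p, ‖b p‖ ^ 2 ∧
    ∀ f : 𝓢(E, ℂ), ∫ p, b p * gft d.B f p = ∫ z, b' z * f z := by
  have h1 : MemLp (fun w => conj (b (d.τ.symm w))) 2 := d.sc_τ.memLp.1
    (by simp only [ContinuousLinearEquiv.symm_apply_apply]; exact hb.star)
  set v := h1.toLp
  set u := 𝓕⁻ v
  have hp : (0 : ℝ) < (2 * π) ^ n := by positivity
  refine ⟨fun z => ((2 * π) ^ n : ℝ) * conj (u (d.e z)),
    (d.sc_e.memLp.2 (Lp.memLp u).star).const_mul _, ?_, fun f => ?_⟩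
  · have e1 : ‖u‖ = ‖v‖ := (Lp.fourierTransformₗᵢ _ ℂ).symm.norm_map _
    have e2 (v : Lp ℂ 2 (volume : Measure (EuclideanSpace ℝ (Fin n)))) :
        ‖v‖ ^ 2 = ∫ w, ‖v w‖ ^ 2 := by
      rw [← inner_self_eq_norm_sq (𝕜 := ℂ), L2.inner_def, ← integral_re (L2.integrable_inner v v)]
      simp only [inner_self_eq_norm_sq]
    have e3 := d.sc_e.integral fun w => ‖u w‖ ^ 2
    have e4 := d.sc_τ.integral fun w => ‖v w‖ ^ 2
    rw [← e2, e1] at e3
    rw [← e2, integral_congr_ae ((d.sc_τ.ae_eq h1.coeFn_toLp).mono fun p hp => by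
      change ‖v (d.τ p)‖ ^ 2 = ‖b p‖ ^ 2
      simp [v, hp])] at e4
    simp only [norm_mul, mul_pow, integral_const_mul, Complex.norm_real, RCLike.norm_conj,
      ContinuousLinearEquiv.symm_apply_apply, smul_eq_mul, one_mul, Real.norm_eq_abs, sq_abs] at e3 e4 ⊢
    rw [e3, e4]; ring
  · set g := (cE d.e).symm f
    have e1 : inner ℂ u (g.toLp 2) = inner ℂ v ((𝓕 g).toLp 2) := by
      rw [← Lp.inner_fourier_eq, FourierTransform.fourier_fourierInv_eq,
        SchwartzMap.toLp_fourier_eq]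
    rw [L2.inner_def, L2.inner_def, d.sc_e.integral', d.sc_τ.integral', inv_one, one_smul,
      eq_inv_smul_iff₀ hp.ne', Complex.real_smul, ← integral_const_mul] at e1
    refine (integral_congr_ae ?_).trans (e1.symm.trans (integral_congr_ae ?_))
    · filter_upwards [d.sc_τ.ae_eq h1.coeFn_toLp, d.sc_τ.ae_eq ((𝓕 g).coeFn_toLp 2 volume)]
        with p h2 h3
      rw [h2, h3, d.gft_eq]
      simp [mul_comm]; left; rfl
    · filter_upwards [d.sc_e.ae_eq (g.coeFn_toLp 2 volume)] with z h2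
      rw [h2]
      simp [g, cE]; ring

/-- transforms of test functions with compact support are dense in `L^2` -/
theorem dense {s : Set E} (hs : MeasurableSet s) {ψ : E → ℂ} (hψ : MemLp ψ 2 (volume.restrict s))
    {ε : ℝ} (hε : 0 < ε) : ∃ f : 𝓢(E, ℂ), HasCompactSupport f ∧
      eLpNorm (fun p => ψ p - gft d.B f p) 2 (volume.restrict s) < ENNReal.ofReal ε := by
  have h1 : MemLp (s.indicator ψ) 2 := (memLp_indicator_iff_restrict hs).2 hψ
  obtain ⟨g, hg⟩ := (SchwartzMap.denseRange_toLpCLM (E := E) (F := ℂ) (p := 2)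
    (μ := volume) ENNReal.ofNat_ne_top).exists_dist_lt h1.toLp hε
  obtain ⟨-, u, -, -, hu, -, hl⟩ := ST.exists_cut (d.F.symm g)
  have := ((SchwartzMap.toLpCLM ℝ ℂ 2 volume).continuous.comp d.F.continuous).tendsto _ |>.comp hl
  simp only [Function.comp, ContinuousLinearEquiv.apply_symm_apply] at this
  obtain ⟨k, hk⟩ := (((tendsto_const_nhds (x := h1.toLp)).dist this).eventually_lt_const hg).exists
  refine ⟨u k, hu k, ?_⟩
  rw [← edist_lt_ofReal, Lp.edist_def] at hk
  refine lt_of_le_of_lt ((eLpNorm_congr_ae ?_).trans_le (eLpNorm_restrict_le _ _ _ s)) hk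
  filter_upwards [ae_restrict_mem hs, ae_restrict_of_ae h1.coeFn_toLp,
    ae_restrict_of_ae ((d.F (u k)).coeFn_toLp 2 volume)] with p a b c
  simp [a, b, c]

theorem dense_seq {s : Set E} (hs : MeasurableSet s) {ψ : E → ℂ}
    (hψ : MemLp ψ 2 (volume.restrict s)) : ∃ f : ℕ → 𝓢(E, ℂ), (∀ k, HasCompactSupport (f k)) ∧
      Tendsto (fun k => eLpNorm (fun p => ψ p - gft d.B (f k) p) 2 (volume.restrict s)) atTop
        (𝓝 0) := by
  choose f h1 h2 using fun k : ℕ => d.dense hs hψ (Nat.one_div_pos_of_nat (α := ℝ) (n := k))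
  refine ⟨f, h1, tendsto_of_tendsto_of_tendsto_of_le_of_le tendsto_const_nhds ?_
    (fun _ => zero_le) fun k => (h2 k).le⟩
  simpa using ENNReal.tendsto_ofReal (tendsto_one_div_add_atTop_nhds_zero_nat (𝕜 := ℝ))

theorem eq_zero {s : Set E} (hs : MeasurableSet s) {ψ : E → ℂ} (hψ : MemLp ψ 2 (volume.restrict s))
    (h : ∀ f : 𝓢(E, ℂ), HasCompactSupport f → ∫ p in s, conj (gft d.B f p) * ψ p = 0) :
    ψ =ᵐ[volume.restrict s] 0 := by
  obtain ⟨f, h1, h2⟩ := d.dense_seq hs hψ
  have m (k) : MemLp (gft d.B (f k)) 2 (volume.restrict s) := (d.memLp (f k) 2 volume).restrict s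
  have h3 := (Lp.tendsto_Lp_iff_tendsto_eLpNorm'' _ m ψ hψ).2
    (by simp only [eLpNorm_sub_comm _ ψ]; exact h2)
  have h4 (k) : inner ℂ (m k).toLp hψ.toLp = 0 := by
    rw [L2.inner_def, ← h _ (h1 k)]
    refine integral_congr_ae ?_
    filter_upwards [(m k).coeFn_toLp, hψ.coeFn_toLp] with p a b
    simp [a, b, mul_comm]
  have h5 := h3.inner (𝕜 := ℂ) (tendsto_const_nhds (x := hψ.toLp))
  simp only [h4, tendsto_const_nhds_iff] at h5
  exact hψ.coeFn_toLp.symm.trans (inner_self_eq_zero.1 h5.symm ▸ Lp.coeFn_zero _ _ _)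

end Dat

end

end Vale.Agent.P352X.FT
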