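import Vale.Agent.P352X.Api3c

/-!
# P352X, API 3d: the transforms `ft`, `ft3`, `ft1` (helper11)
-/

set_option linter.all false

open Set Filter Topology MeasureTheory
open scoped ContDiff ENNReal SchwartzMap ComplexConjugate Real LineDeriv RealInnerProductSpace
open Complex (I exp)

namespace Vale.Agent.P352X

open Vale.Agent.P352.GF Vale.Agent.P352.BW Vale.Agent.P352.H496 Vale.Agent.P352.H755
open Vale.Agent.P352.H246 (linv isLor_linv box In)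

noncomputable section

namespace FT

instance haarP3 : (volume : Measure P3).IsAddHaarMeasure := Measure.prod.instIsAddHaarMeasure _ _

theorem mp_euc (n : ℕ) : MeasurePreserving (EuclideanSpace.equiv (Fin n) ℝ).symm volume volume :=
  PiLp.volume_preserving_toLp (Fin n)

theorem conf_eta : Conf (fun (x : V) m => eta m * x m) 1 :=
  ⟨⟨fun x y => by ext m; simp [mul_add], fun t x => by ext m; simp [mul_left_comm]⟩, one_pos,
    fun x y => by simp [mdot_eq, eta, o]⟩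

def d4 : Dat V 4 where
  B := mdL
  symm := md_comm
  e := (EuclideanSpace.equiv (Fin 4) ℝ).symm
  σ := conf_eta.cle.trans (EuclideanSpace.equiv (Fin 4) ℝ).symm
  he := mp_euc 4
  hσ := (mp_euc 4).comp (Sc.mp (A := fun (x : V) m => eta m * x m)
    (by simpa using conf_eta.sc) conf_eta.cont.measurable)
  hB p z := by simp [PiLp.inner_apply, mdot]

/-- the form of `ft3` -/
def B3 : P3 →L[ℝ] P3 →L[ℝ] ℝ :=
  (ContinuousLinearMap.mul ℝ ℝ).bilinearComp (.fst ℝ ℝ R2) (.fst ℝ ℝ R2) +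
    mdL.bilinearComp (tvL ∘L .snd ℝ ℝ R2) (tvL ∘L .snd ℝ ℝ R2)

@[simp] theorem B3_apply (k y : P3) : B3 k y = y.1 * k.1 - d2 y.2 k.2 := by
  simp [B3, md_tv, mul_comm, d2_comm, sub_eq_add_neg]

def e3 : P3 ≃L[ℝ] (Fin 3 → ℝ) := LinearEquiv.toContinuousLinearEquiv
  { toFun := fun y => ![y.1, y.2 0, y.2 1]
    invFun := fun x => (x 0, ![x 1, x 2])
    map_add' := fun x y => by ext i; fin_cases i <;> rfl
    map_smul' := fun t x => by ext i; fin_cases i <;> rfl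
    left_inv := fun y => Prod.ext rfl (by ext i; fin_cases i <;> rfl)
    right_inv := fun x => by ext i; fin_cases i <;> rfl }

theorem mp_e3 : MeasurePreserving e3 volume volume :=
  ((volume_preserving_piFinSuccAbove (fun _ : Fin 3 => ℝ) 0).symm _).congr e3.continuous.measurable
    (ae_of_all _ fun y => by ext i; fin_cases i <;> rfl)

def d3 : Dat P3 3 where
  B := B3
  symm x y := by simp [mul_comm, d2_comm]
  e := e3.trans (EuclideanSpace.equiv (Fin 3) ℝ).symm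
  σ := ((ContinuousLinearEquiv.refl ℝ ℝ).prodCongr (ContinuousLinearEquiv.neg ℝ)).trans
    (e3.trans (EuclideanSpace.equiv (Fin 3) ℝ).symm)
  he := (mp_euc 3).comp mp_e3
  hσ := ((mp_euc 3).comp mp_e3).comp ((MeasurePreserving.id volume).prod
    (Measure.measurePreserving_neg volume))
  hB p z := by simp [PiLp.inner_apply, Fin.sum_univ_three, e3, d2]; ring

def d1 : Dat ℝ 1 where
  B := ContinuousLinearMap.mul ℝ ℝ
  symm := mul_comm
  e := (ContinuousLinearEquiv.funUnique (Fin 1) ℝ ℝ).symm.trans (EuclideanSpace.equiv (Fin 1) ℝ).symm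
  σ := (ContinuousLinearEquiv.funUnique (Fin 1) ℝ ℝ).symm.trans (EuclideanSpace.equiv (Fin 1) ℝ).symm
  he := (mp_euc 1).comp ((volume_preserving_funUnique (Fin 1) ℝ).symm _)
  hσ := (mp_euc 1).comp ((volume_preserving_funUnique (Fin 1) ℝ).symm _)
  hB p z := by simp [PiLp.inner_apply]

/-- the transverse plane with the form `d2` -/
def dT : Dat R2 2 where
  B := -mdL.bilinearComp tvL tvL
  symm x y := by simp [md_tv, d2_comm]
  e := (EuclideanSpace.equiv (Fin 2) ℝ).symm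
  σ := (EuclideanSpace.equiv (Fin 2) ℝ).symm
  he := mp_euc 2
  hσ := mp_euc 2
  hB p z := by simp [PiLp.inner_apply, md_tv, d2_sum]

@[simp] theorem d4_B (p z : V) : d4.B p z = mdot p z := rfl
@[simp] theorem d3_B (k y : P3) : d3.B k y = y.1 * k.1 - d2 y.2 k.2 := B3_apply k y
@[simp] theorem d1_B (k t : ℝ) : d1.B k t = k * t := rfl
@[simp] theorem dT_B (k y : R2) : dT.B k y = d2 k y := by simp [dT, md_tv]

section pol

variable {E : Type*} [NormedAddCommGroup E] [NormedSpace ℝ E] [FiniteDimensional ℝ E]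
  [MeasureSpace E] [BorelSpace E] [(volume : Measure E).IsAddHaarMeasure] {μ : Measure E}
  {g : E → ℂ} {C : ℝ} {N : ℕ}

theorem pol_bdd (F : 𝓢(E, ℂ)) (hb : ∀ᵐ p ∂μ, ‖g p‖ ≤ C * (1 + ‖p‖) ^ N) :
    ∀ᵐ p ∂μ, ‖g p * F p‖ ≤ |C| * (2 ^ N * sn N F) := hb.mono fun p hp => by
  have := Lie.dec le_rfl (Nat.zero_le N) F p
  rw [norm_iteratedFDeriv_zero] at this
  rw [norm_mul]
  refine (mul_le_mul_of_nonneg_right (hp.trans (mul_le_mul_of_nonneg_right (le_abs_self C)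
    (by positivity))) (norm_nonneg _)).trans ?_
  rw [mul_assoc]; gcongr

/-- polynomially bounded functions times Schwartz functions -/
theorem pol_int (hμ : μ ≤ volume) (hg : AEStronglyMeasurable g μ)
    (hb : ∀ᵐ p ∂μ, ‖g p‖ ≤ C * (1 + ‖p‖) ^ N) (F : 𝓢(E, ℂ)) :
    Integrable (fun p => g p * F p) μ :=
  (((ST.integrable_one_add_pow F 1 N).mono_measure hμ).const_mul C).mono'
    (hg.mul F.continuous.aestronglyMeasurable) (hb.mono fun p hp => by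
      rw [norm_mul, one_mul, mul_comm ‖F p‖, ← mul_assoc]; gcongr)

theorem pol_memLp (hμ : μ ≤ volume) (hg : AEStronglyMeasurable g μ)
    (hb : ∀ᵐ p ∂μ, ‖g p‖ ≤ C * (1 + ‖p‖) ^ N) (F : 𝓢(E, ℂ)) :
    MemLp (fun p => g p * F p) 2 μ := by
  have i := pol_int hμ hg hb F
  refine (memLp_two_iff_integrable_sq_norm i.1).2 ?_
  simp only [sq]
  exact i.norm.mul_bdd i.1.norm ((pol_bdd F hb).mono fun p hp => by rwa [norm_norm])

theorem pol_int2 (hμ : μ ≤ volume) (hg : AEStronglyMeasurable g μ)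
    (hb : ∀ᵐ p ∂μ, ‖g p‖ ≤ C * (1 + ‖p‖) ^ N) (F : 𝓢(E, ℂ)) {h : E → ℂ} (hh : MemLp h 2 μ) :
    Integrable (fun p => g p * F p * h p) μ := (pol_memLp hμ hg hb F).integrable_mul hh

end pol

end FT

open FT

theorem ft_eq : ft = gft d4.B := rfl
theorem ft3_eq : ft3 = gft d3.B := by funext g k; simp [ft3, gft]
theorem ft1_eq : ft1 = gft d1.B := by funext g k; simp [ft1, gft, mul_comm k]

/-- the transforms on Schwartz space -/
def ftS : Sch ≃L[ℂ] Sch := d4.F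
def ft3S : 𝓢(P3, ℂ) ≃L[ℂ] 𝓢(P3, ℂ) := d3.F
def ft1S : 𝓢(ℝ, ℂ) ≃L[ℂ] 𝓢(ℝ, ℂ) := d1.F
@[simp] theorem ftS_apply (f : Sch) (p : V) : ftS f p = ft (ev f) p := d4.F_apply f p
@[simp] theorem ft3S_apply (g : 𝓢(P3, ℂ)) (k : P3) : ft3S g k = ft3 g k := ft3_eq ▸ d3.F_apply g k
@[simp] theorem ft1S_apply (φ : 𝓢(ℝ, ℂ)) (k : ℝ) : ft1S φ k = ft1 φ k := ft1_eq ▸ d1.F_apply φ k
theorem ev_ftS (f : Sch) : ev (ftS f) = ft (ev f) := funext (ftS_apply f)
theorem coe_ft3S (g : 𝓢(P3, ℂ)) : ⇑(ft3S g) = ft3 g := funext (ft3S_apply g)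
theorem coe_ft1S (φ : 𝓢(ℝ, ℂ)) : ⇑(ft1S φ) = ft1 φ := funext (ft1S_apply φ)
theorem ft_symm (g : Sch) : ft (ev (ftS.symm g)) = ev g := by rw [← ev_ftS, ftS.apply_symm_apply]
theorem ft3_symm (g : 𝓢(P3, ℂ)) : ft3 (ft3S.symm g) = g := by
  rw [← coe_ft3S, ft3S.apply_symm_apply]
theorem ft1_symm (g : 𝓢(ℝ, ℂ)) : ft1 (ft1S.symm g) = g := by
  rw [← coe_ft1S, ft1S.apply_symm_apply]
theorem ftS_symm (g : Sch) (z : V) : ftS.symm g z = (((2 * π) ^ 4)⁻¹ : ℝ) * ft (ev g) (-z) :=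
  d4.F_symm g z
theorem ft3S_symm (g : 𝓢(P3, ℂ)) (y : P3) :
    ft3S.symm g y = (((2 * π) ^ 3)⁻¹ : ℝ) * ft3 g (-y) := ft3_eq ▸ d3.F_symm g y
theorem ft1S_symm (g : 𝓢(ℝ, ℂ)) (t : ℝ) : ft1S.symm g t = ((2 * π)⁻¹ : ℝ) * ft1 g (-t) := by
  simpa only [pow_one, ← ft1_eq, ft1S] using d1.F_symm g t

/-! ### test functions on `V` -/

section four

variable {f g : Fn} {A : V → V} {c s r : ℝ} {L : Ix → V}

theorem test_int (hf : IsTest f) : Integrable f := by obtain ⟨g, rfl⟩ := hf; exact g.integrable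
theorem test_memLp (hf : IsTest f) (q : ℝ≥0∞) : MemLp f q := by
  obtain ⟨g, rfl⟩ := hf; exact g.memLp q volume
theorem test_smooth (hf : IsTest f) : ContDiff ℝ ∞ f := by obtain ⟨g, rfl⟩ := hf; exact g.smooth ⊤
theorem test_ft (hf : IsTest f) : IsTest (ft f) := by obtain ⟨g, rfl⟩ := hf; exact ⟨_, ev_ftS g⟩
theorem exists_ft (hg : IsTest g) : ∃ f, IsTest f ∧ ft f = g := by
  obtain ⟨g, rfl⟩ := hg; exact ⟨_, ⟨_, rfl⟩, ft_symm g⟩
theorem cont_ft (hf : IsTest f) : Continuous (ft f) := (test_smooth (test_ft hf)).continuous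
theorem int_ft (hf : IsTest f) : Integrable (ft f) := test_int (test_ft hf)
theorem memLp_ft (hf : IsTest f) (s : Set V) : MemLp (ft f) 2 (volume.restrict s) :=
  (test_memLp (test_ft hf) 2).restrict s
theorem test_neg (hf : IsTest f) : IsTest fun z => f (-z) := by
  obtain ⟨g, rfl⟩ := hf; exact ⟨cE (ContinuousLinearEquiv.neg ℝ) g, rfl⟩
theorem test_conf (h : Conf A c) (hf : IsTest f) : IsTest fun z => f (A z) := by
  obtain ⟨g, rfl⟩ := hf; exact ⟨cE h.cle g, rfl⟩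
theorem test_tsl (hf : IsTest f) (a : V) : IsTest fun z => f (z + a) := by
  obtain ⟨g, rfl⟩ := hf; exact ⟨ST.tsl (-a) g, funext fun z => by simp [ev, ST.tsl_apply]⟩
theorem test_mul {u : Fn} (hu : u.HasTemperateGrowth) (hf : IsTest f) :
    IsTest fun z => u z * f z := by
  obtain ⟨g, rfl⟩ := hf
  exact ⟨SchwartzMap.smulLeftCLM ℂ u g, funext fun z => SchwartzMap.smulLeftCLM_apply_apply hu g z⟩
theorem test_lin (l : V →L[ℝ] ℝ) (hf : IsTest f) : IsTest fun z => (l z : ℝ) * f z :=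
  test_mul (Complex.ofRealCLM ∘L l).hasTemperateGrowth hf
theorem test_fd (hf : IsTest f) (h : V) : IsTest fun z => fderiv ℝ f z h := by
  obtain ⟨g, rfl⟩ := hf; exact ⟨∂_{h} g, rfl⟩

theorem pd_at {x : V} (hf : DifferentiableAt ℝ f x) (m : Ix) : pd m f x = fderiv ℝ f x (bas m 1) := by
  rw [← hf.lineDeriv_eq_fderiv, pd, lineDeriv]
  congr 2 with t
  congr 1 with n
  simp [bas]
theorem dv_at {x : V} (hf : DifferentiableAt ℝ f x) (h : V) : dv h f x = fderiv ℝ f x h := by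
  simp only [dv, pd_at hf, ← Complex.real_smul, ← map_smul, ← map_sum]
  congr 1 with n
  simp [bas]
theorem pd_test (hf : IsTest f) (m : Ix) : pd m f = fun x => fderiv ℝ f x (bas m 1) :=
  funext fun x => pd_at ((test_smooth hf).differentiable (by simp) x) m
theorem dv_test (hf : IsTest f) (h : V) : dv h f = fun x => fderiv ℝ f x h :=
  funext fun x => dv_at ((test_smooth hf).differentiable (by simp) x) h

theorem ft_add (hf : IsTest f) (hg : IsTest g) (p : V) :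
    ft (fun z => f z + g z) p = ft f p + ft g p := gft_add (B := d4.B) (test_int hf) (test_int hg) p
theorem ft_sub (hf : IsTest f) (hg : IsTest g) (p : V) :
    ft (fun z => f z - g z) p = ft f p - ft g p := gft_sub (B := d4.B) (test_int hf) (test_int hg) p
theorem ft_mul (a : ℂ) (f : Fn) (p : V) : ft (fun z => a * f z) p = a * ft f p :=
  gft_mul (B := d4.B) a f p
theorem ft_neg (f : Fn) (p : V) : ft (fun z => -f z) p = -ft f p := gft_neg (B := d4.B) f p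
theorem ft_sum {ι : Type*} (s : Finset ι) {F : ι → Fn} (h : ∀ i ∈ s, IsTest (F i)) (p : V) :
    ft (fun z => ∑ i ∈ s, F i z) p = ∑ i ∈ s, ft (F i) p :=
  gft_sum (B := d4.B) s (fun i hi => test_int (h i hi)) p
theorem norm_ft_le (f : Fn) (p : V) : ‖ft f p‖ ≤ ∫ z, ‖f z‖ := norm_gft_le (B := d4.B) f p
theorem ft_bar (f : Fn) (p : V) : ft (bar f) p = conj (ft f (-p)) := gft_conj (B := d4.B) f p
theorem ft_bar' (f : Fn) (p : V) : ft (bar f) (-p) = conj (ft f p) := by rw [ft_bar, neg_neg]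
theorem ft_tsl (f : Fn) (a p : V) :
    ft (fun z => f (z + a)) p = exp (-(I * mdot p a)) * ft f p := gft_tsl (B := d4.B) f a p
theorem ft_tsl' (f : Fn) (a p : V) : ft (fun z => f (z - a)) p = exp (I * mdot p a) * ft f p := by
  simpa [sub_eq_add_neg, md_neg] using ft_tsl f (-a) p
theorem ft_mdl (f : Fn) (q p : V) : ft (fun z => exp (I * mdot q z) * f z) p = ft f (p + q) :=
  gft_mdl (B := d4.B) f q p
theorem ft_refl (f : Fn) (p : V) : ft (fun z => f (-z)) p = ft f (-p) := gft_refl (B := d4.B) f p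

theorem ft_conf (h : Conf A c) (f : Fn) (a p : V) : ft (fun z => f (A z + a)) p =
    ((c ^ 2)⁻¹ : ℝ) * exp (-(I * mdot (c⁻¹ • A p) a)) * ft f (c⁻¹ • A p) := by
  have := gft_comp (B := d4.B) (h.sca a) f (p := p) (q := c⁻¹ • A p) (c := -mdot (c⁻¹ • A p) a)
    fun z => by simp [md_add, md_smul_l, h.md, h.pos.ne', mul_add]
  simpa only [Complex.ofReal_neg, mul_neg, ← ft_eq] using this
theorem ft_conf0 (h : Conf A c) (f : Fn) (p : V) :
    ft (fun z => f (A z)) p = ((c ^ 2)⁻¹ : ℝ) * ft f (c⁻¹ • A p) := by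
  simpa using ft_conf h f 0 p
theorem ft_sim (hs : 0 < s) (hL : IsLor L) (f : Fn) (a p : V) :
    ft (fun z => f (sim s L a z)) (s • p) =
      ((s ^ 4)⁻¹ : ℝ) * exp (-(I * mdot (sim 1 L 0 p) a)) * ft f (sim 1 L 0 p) := by
  have := ft_conf (conf_sim hs hL) f a (s • p)
  rwa [(conf_sim hs hL).lin.2, sim_smul p, smul_smul, smul_smul,
    show (s ^ 2)⁻¹ * s * s = 1 by field_simp, one_smul, ← pow_mul, funext fun z =>
      congrArg f (sim_zero (s := s) (L := L) a z).symm] at this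
theorem ft_scp (hr : 0 < r) (hs : 0 < s) (f : Fn) (p : V) :
    ft (fun z => f (scp r s z)) p = (((r * s) ^ 2)⁻¹ : ℝ) * ft f (scp s⁻¹ r⁻¹ p) := by
  rw [ft_conf0 (conf_scp hr hs)]
  congr 2
  refine null_ext (by simp; field_simp) (by simp; field_simp) ?_
  rw [tx_smul, tx_scp, tx_scp, smul_smul, ← mul_inv, mul_comm s r, Real.sqrt_inv]
  congr 1
  rw [inv_mul_eq_iff_eq_mul₀ (by positivity), ← div_eq_mul_inv, Real.div_sqrt]
theorem ft_gap (u : R2) (f : Fn) (p : V) : ft (fun z => f (gap u z)) p = ft f (gap u p) := by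
  simpa using ft_conf0 (conf_gap u) f p
theorem ft_gbp (s : ℝ) (f : Fn) (p : V) : ft (fun z => f (gbp s z)) p = ft f (gbp s p) := by
  simpa using ft_conf0 (conf_gbp s) f p
theorem ft_jr (f : Fn) (p : V) : ft (fun z => f (jr z)) p = ft f (jr p) := by
  simpa using ft_conf0 conf_jr f p

theorem ft_fd (hf : IsTest f) (y p : V) :
    ft (fun z => fderiv ℝ f z y) p = -(I * mdot p y) * ft f p := by
  obtain ⟨g, rfl⟩ := hf; exact gft_deriv_sch (B := d4.B) g y p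
theorem ft_dv (hf : IsTest f) (y p : V) : ft (dv y f) p = -(I * mdot p y) * ft f p := by
  rw [dv_test hf, ft_fd hf]
theorem ft_pd (hf : IsTest f) (m : Ix) (p : V) :
    ft (pd m f) p = -(I * (eta m * p m : ℝ)) * ft f p := by
  rw [pd_test hf, ft_fd hf]
  simp [mdot, bas]
theorem ft_box (hf : IsTest f) (p : V) : ft (box f) p = -(mu p : ℝ) * ft f p := by
  have t {f : Fn} (hf : IsTest f) (m) : IsTest (pd m f) := pd_test hf m ▸ test_fd hf _
  refine (gft_sum (B := d4.B) _ (fun m _ => (test_int (t (t hf m) m)).const_mul _) p).trans ?_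
  simp only [← ft_eq, ft_mul, ft_pd (t hf _), ft_pd hf, mu, mdot, Complex.ofReal_sum, neg_mul,
    Finset.sum_mul, ← Finset.sum_neg_distrib]
  refine Finset.sum_congr rfl fun m _ => ?_
  have : (eta m : ℂ) * eta m = 1 := by exact_mod_cast eta_sq m
  push_cast
  linear_combination (eta m * p m * p m * ft f p) * (eta m * eta m * Complex.I_sq - this)
theorem fderiv_ft (hf : IsTest f) (p h : V) :
    fderiv ℝ (ft f) p h = I * ft (fun z => (mdot h z : ℝ) * f z) p := by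
  obtain ⟨g, rfl⟩ := hf; exact fderiv_gft_sch (B := d4.B) g p h
theorem ft_md (hf : IsTest f) (h p : V) :
    ft (fun z => (mdot h z : ℝ) * f z) p = -I * dv h (ft f) p := by
  rw [dv_test (test_ft hf)]
  simp only [fderiv_ft hf, ← mul_assoc, neg_mul, Complex.I_mul_I, neg_neg, one_mul]
theorem ft_al (hf : IsTest f) (p : V) : ft (fun z => (al z : ℝ) * f z) p = -I * dv vb (ft f) p :=
  ft_md hf vb p
theorem ft_be (hf : IsTest f) (p : V) : ft (fun z => (be z : ℝ) * f z) p = -I * dv va (ft f) p :=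
  ft_md hf va p
theorem ft_tx (hf : IsTest f) (i : Fin 2) (p : V) :
    ft (fun z => (tx z i : ℝ) * f z) p = I * dv (ex i) (ft f) p := by
  have := ft_md hf (ex i) p
  simp only [md_ex, Complex.ofReal_neg, neg_mul, ft_neg, neg_inj] at this
  exact this

theorem ft_inv (hf : IsTest f) (z : V) :
    f z = (((2 * π) ^ 4)⁻¹ : ℝ) * ∫ p, ft f p * exp (-(I * mdot p z)) := by
  obtain ⟨g, rfl⟩ := hf; exact d4.inv g z
theorem ft_plancherel (hf : IsTest f) (hg : IsTest g) :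
    ∫ p, conj (ft f p) * ft g p = ((2 * π) ^ 4 : ℝ) * ∫ z, conj (f z) * g z := by
  obtain ⟨f, rfl⟩ := hf; obtain ⟨g, rfl⟩ := hg; exact d4.plancherel f g
theorem ft_plancherel_norm (hf : IsTest f) : ∫ p, ‖ft f p‖ ^ 2 = (2 * π) ^ 4 * ∫ z, ‖f z‖ ^ 2 := by
  obtain ⟨f, rfl⟩ := hf; exact d4.plancherel_norm f
theorem ft_plancherel_bil (hf : IsTest f) (hg : IsTest g) :
    ∫ p, ft f p * ft g (-p) = ((2 * π) ^ 4 : ℝ) * ∫ z, f z * g z := by
  obtain ⟨f, rfl⟩ := hf; obtain ⟨g, rfl⟩ := hg; exact d4.plancherel_bil f g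
theorem ft_swap (hf : Integrable f) (hg : Integrable g) :
    ∫ p, ft f p * g p = ∫ z, f z * ft g z := gft_swap (B := d4.B) d4.symm hf hg
theorem sn_ftS (N : ℕ) : ∃ (m : ℕ) (C : ℝ), 0 ≤ C ∧ ∀ f, sn N (ftS f) ≤ C * sn m f := d4.sn_F N
theorem ft_decay (N : ℕ) : ∃ (m : ℕ) (C : ℝ), 0 ≤ C ∧ ∀ (f : Sch) (p : V),
    (1 + ‖p‖) ^ N * ‖ft (ev f) p‖ ≤ C * sn m f := d4.decay N
theorem ft_l2_dual {b : Fn} (hb : MemLp b 2) : ∃ b' : Fn, MemLp b' 2 ∧
    ∫ z, ‖b' z‖ ^ 2 = (2 * π) ^ 4 * ∫ p, ‖b p‖ ^ 2 ∧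
    ∀ f, IsTest f → ∫ p, b p * ft f p = ∫ z, b' z * f z := by
  obtain ⟨b', h1, h2, h3⟩ := d4.l2_dual hb
  exact ⟨b', h1, h2, fun _ ⟨f, e⟩ => e ▸ h3 f⟩
theorem ft_dense_seq {s : Set V} (hs : MeasurableSet s) {ψ : Fn}
    (hψ : MemLp ψ 2 (volume.restrict s)) : ∃ f : ℕ → Fn, (∀ k, In univ (f k)) ∧
      Tendsto (fun k => eLpNorm (fun p => ψ p - ft (f k) p) 2 (volume.restrict s)) atTop (𝓝 0) := by
  obtain ⟨f, h1, h2⟩ := d4.dense_seq hs hψ
  exact ⟨fun k => ev (f k), fun k => ⟨⟨_, rfl⟩, h1 k, subset_univ _⟩, h2⟩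
theorem ft_eq_zero {s : Set V} (hs : MeasurableSet s) {ψ : Fn} (hψ : MemLp ψ 2 (volume.restrict s))
    (h : ∀ f, In univ f → ∫ p in s, conj (ft f p) * ψ p = 0) : ψ =ᵐ[volume.restrict s] 0 :=
  d4.eq_zero hs hψ fun f hf => h _ ⟨⟨_, rfl⟩, hf, subset_univ _⟩

variable {u : Fn} {C : ℝ} {N : ℕ} {S : Set V}
theorem int_pol_ft (hu : AEStronglyMeasurable u (volume.restrict S))
    (hb : ∀ᵐ p ∂volume.restrict S, ‖u p‖ ≤ C * (1 + ‖p‖) ^ N) (hf : IsTest f) :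
    IntegrableOn (fun p => u p * ft f p) S := by
  obtain ⟨F, e⟩ := test_ft hf; exact e ▸ pol_int Measure.restrict_le_self hu hb F
theorem memLp_pol_ft (hu : AEStronglyMeasurable u (volume.restrict S))
    (hb : ∀ᵐ p ∂volume.restrict S, ‖u p‖ ≤ C * (1 + ‖p‖) ^ N) (hf : IsTest f) :
    MemLp (fun p => u p * ft f p) 2 (volume.restrict S) := by
  obtain ⟨F, e⟩ := test_ft hf; exact e ▸ pol_memLp Measure.restrict_le_self hu hb F
theorem memLp_mu_ft (hf : IsTest f) (S : Set V) :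
    MemLp (fun p => ((mu p : ℝ) : ℂ) * ft f p) 2 (volume.restrict S) :=
  memLp_pol_ft (C := 4) (N := 2) (by fun_prop) (ae_of_all _ fun p => by
    rw [Complex.norm_real]
    exact (abs_mdot_le p p).trans (by nlinarith [norm_nonneg p])) hf

end four

/-! ### slices -/

theorem exp_pt (p : V) (y : P3) (t : ℝ) : exp (I * mdot p (pt y.1 t y.2)) =
    exp (I * (y.1 * be p - d2 y.2 (tx p) : ℝ)) * exp (I * (t * al p : ℝ)) := by
  rw [← Complex.exp_add, mdot_null, d2_comm]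
  simp only [al_pt, be_pt, tx_pt]
  congr 1; push_cast; ring

theorem ft_pf (g : P3 → ℂ) (φ : ℝ → ℂ) (p : V) : ft (pf g φ) p = ft3 g (pm p) * ft1 φ (al p) :=
  sc_pt.mul (ae_of_all _ fun y => by simp only [pf, exp_pt, pl_pt, be_pt, pm_1, pm_2]; ring)

theorem pr_eq (g : P3 → ℝ) (φ : ℝ → ℝ) : pr g φ = pf (cx g) (cx φ) := by
  funext z; simp [pr, pf, cx]

theorem ft_pr (g : P3 → ℝ) (φ : ℝ → ℝ) (p : V) :
    ft (pr g φ) p = ft3 (cx g) (pm p) * ft1 (cx φ) (al p) := by rw [pr_eq, ft_pf]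

theorem ft_slice {f : Fn} (hf : Integrable f) (p : V) :
    ft f p = ft1 (fun t => ft3 (fun y => f (pt y.1 t y.2)) (pm p)) (al p) := by
  refine (sc_pt.iter' (int_exp (B := d4.B) hf p)).trans ?_
  simp only [ft1, ft3, d4_B, exp_pt, ← integral_mul_const, mul_assoc, pm_1, pm_2]

/-! ### `ft3` and `ft1` -/

section three

variable {g g' : P3 → ℂ} {a b : ℝ}

theorem ft3_add (hg : Integrable g) (hg' : Integrable g') (k : P3) :
    ft3 (fun y => g y + g' y) k = ft3 g k + ft3 g' k := ft3_eq ▸ gft_add hg hg' k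
theorem ft3_sub (hg : Integrable g) (hg' : Integrable g') (k : P3) :
    ft3 (fun y => g y - g' y) k = ft3 g k - ft3 g' k := ft3_eq ▸ gft_sub hg hg' k
theorem ft3_mul (a : ℂ) (g : P3 → ℂ) (k : P3) : ft3 (fun y => a * g y) k = a * ft3 g k :=
  ft3_eq ▸ gft_mul a g k
theorem norm_ft3_le (g : P3 → ℂ) (k : P3) : ‖ft3 g k‖ ≤ ∫ y, ‖g y‖ := ft3_eq ▸ norm_gft_le g k
theorem ft3_zero (g : P3 → ℂ) : ft3 g 0 = ∫ y, g y := ft3_eq ▸ gft_at_zero g
theorem cont_ft3 (hg : Integrable g) : Continuous (ft3 g) := ft3_eq ▸ continuous_gft hg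
theorem ft3_conj (g : P3 → ℂ) (k : P3) : ft3 (fun y => conj (g y)) k = conj (ft3 g (-k)) :=
  ft3_eq ▸ gft_conj g k
theorem ft3_refl (g : P3 → ℂ) (k : P3) : ft3 (fun y => g (-y)) k = ft3 g (-k) :=
  ft3_eq ▸ gft_refl g k
theorem ft3_tsl (g : P3 → ℂ) (y0 k : P3) : ft3 (fun y => g (y + y0)) k =
    exp (-(I * (y0.1 * k.1 - d2 y0.2 k.2 : ℝ))) * ft3 g k := by rw [ft3_eq, gft_tsl, d3_B]
theorem ft3_scale (ha : 0 < a) (hb : b ≠ 0) (g : P3 → ℂ) (k : P3) :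
    ft3 (fun y => g (a * y.1, b • y.2)) k = ((a * b ^ 2)⁻¹ : ℝ) * ft3 g (k.1 / a, b⁻¹ • k.2) := by
  have := gft_comp (B := d3.B) (sc_P3 ha hb) g (p := k) (q := (k.1 / a, b⁻¹ • k.2)) (c := 0)
    fun y => by simp only [d3_B, d2_smul, d2_smul_l]; field_simp; ring
  simpa only [← ft3_eq, Complex.ofReal_zero, mul_zero, Complex.exp_zero, mul_one] using this
theorem ft3_kL (κ : P3 → ℝ) {L : ℝ} (hL : 0 < L) (k : P3) :
    ft3 (cx (kL κ L)) k = (L ^ 2 : ℝ) * ft3 (cx κ) (L * k.1, Real.sqrt L • k.2) := by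
  have := ft3_scale (inv_pos.2 hL) (inv_pos.2 (Real.sqrt_pos.2 hL)).ne' (cx κ) k
  rw [inv_pow, Real.sq_sqrt hL.le, ← mul_inv, inv_inv, inv_inv, div_inv_eq_mul, mul_comm k.1,
    ← sq] at this
  rw [← this]
  congr 1 with y
  simp [cx, kL, div_eq_inv_mul]
theorem ft3_shear (w : R2) (g : P3 → ℂ) (k : P3) :
    ft3 (fun y => g (y.1 + d2 w y.2, y.2)) k = ft3 g (k.1, k.2 + k.1 • w) := by
  have := gft_comp (B := d3.B) (sc_shear' volume volume (h := d2 w) (by fun_prop)) g (p := k)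
    (q := (k.1, k.2 + k.1 • w)) (c := 0)
    fun y => by simp only [d3_B, d2_add, d2_smul, d2_comm w]; ring
  simpa [← ft3_eq] using this
theorem ft3_fd (g : 𝓢(P3, ℂ)) (v k : P3) : ft3 (fun y => fderiv ℝ g y v) k =
    -(I * (v.1 * k.1 - d2 v.2 k.2 : ℝ)) * ft3 g k := by rw [ft3_eq, gft_deriv_sch, d3_B]
theorem fderiv_ft3 (g : 𝓢(P3, ℂ)) (k h : P3) : fderiv ℝ (ft3 g) k h =
    I * ft3 (fun y => (y.1 * h.1 - d2 y.2 h.2 : ℝ) * g y) k := by
  simp only [ft3_eq, fderiv_gft_sch, d3_B]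
theorem ft3_inv (g : 𝓢(P3, ℂ)) (y : P3) : g y = (((2 * π) ^ 3)⁻¹ : ℝ) *
    ∫ k, ft3 g k * exp (-(I * (y.1 * k.1 - d2 y.2 k.2 : ℝ))) := by
  simpa only [← ft3_eq, d3_B] using d3.inv g y
theorem ft3_plancherel (g g' : 𝓢(P3, ℂ)) :
    ∫ k, conj (ft3 g k) * ft3 g' k = ((2 * π) ^ 3 : ℝ) * ∫ y, conj (g y) * g' y :=
  ft3_eq ▸ d3.plancherel g g'
theorem ft3_plancherel_norm (g : 𝓢(P3, ℂ)) :
    ∫ k, ‖ft3 g k‖ ^ 2 = (2 * π) ^ 3 * ∫ y, ‖g y‖ ^ 2 := ft3_eq ▸ d3.plancherel_norm g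
theorem ft3_decay (N : ℕ) : ∃ (m : ℕ) (C : ℝ), 0 ≤ C ∧ ∀ (g : 𝓢(P3, ℂ)) (k : P3),
    (1 + ‖k‖) ^ N * ‖ft3 g k‖ ≤ C * sn m g := ft3_eq ▸ d3.decay N
theorem memLp_ft3_m3 (g : 𝓢(P3, ℂ)) : MemLp (ft3 g) 2 m3 := by
  refine memLp_m3.2 ?_
  simpa [coe_ft3S] using pol_memLp (g := fun k : P3 => (k.1 : ℂ)) (C := 1) (N := 1)
    (μ := volume.restrict Pp) Measure.restrict_le_self (by fun_prop) (ae_of_all _ fun k => by
      simpa using (norm_fst_le k).trans (le_add_of_nonneg_left zero_le_one)) (ft3S g)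

end three

section one

variable {φ ψ : ℝ → ℂ} {s : ℝ}

theorem ft1_add (hφ : Integrable φ) (hψ : Integrable ψ) (k : ℝ) :
    ft1 (fun t => φ t + ψ t) k = ft1 φ k + ft1 ψ k := ft1_eq ▸ gft_add hφ hψ k
theorem ft1_sub (hφ : Integrable φ) (hψ : Integrable ψ) (k : ℝ) :
    ft1 (fun t => φ t - ψ t) k = ft1 φ k - ft1 ψ k := ft1_eq ▸ gft_sub hφ hψ k
theorem ft1_mul (a : ℂ) (φ : ℝ → ℂ) (k : ℝ) : ft1 (fun t => a * φ t) k = a * ft1 φ k :=
  ft1_eq ▸ gft_mul a φ k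
theorem norm_ft1_le (φ : ℝ → ℂ) (k : ℝ) : ‖ft1 φ k‖ ≤ ∫ t, ‖φ t‖ := ft1_eq ▸ norm_gft_le φ k
theorem ft1_zero (φ : ℝ → ℂ) : ft1 φ 0 = ∫ t, φ t := ft1_eq ▸ gft_at_zero φ
theorem cont_ft1 (hφ : Integrable φ) : Continuous (ft1 φ) := ft1_eq ▸ continuous_gft hφ
theorem ft1_conj (φ : ℝ → ℂ) (k : ℝ) : ft1 (fun t => conj (φ t)) k = conj (ft1 φ (-k)) :=
  ft1_eq ▸ gft_conj φ k
theorem ft1_cx (φ : ℝ → ℝ) (k : ℝ) : ft1 (cx φ) (-k) = conj (ft1 (cx φ) k) := by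
  rw [← neg_neg k, ← ft1_conj, neg_neg]; congr 1 with t; simp [cx]
theorem ft1_refl (φ : ℝ → ℂ) (k : ℝ) : ft1 (fun t => φ (-t)) k = ft1 φ (-k) :=
  ft1_eq ▸ gft_refl φ k
theorem ft1_tsl (φ : ℝ → ℂ) (a k : ℝ) :
    ft1 (fun t => φ (t + a)) k = exp (-(I * (k * a : ℝ))) * ft1 φ k := by rw [ft1_eq, gft_tsl, d1_B]
theorem ft1_scale (hs : 0 < s) (φ : ℝ → ℂ) (k : ℝ) :
    ft1 (fun t => φ (t / s)) k = s * ft1 φ (s * k) := by
  have := gft_comp (B := d1.B) (sc_smul volume (inv_pos.2 hs).ne') φ (p := k) (q := s * k) (c := 0)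
    fun y => by simp only [d1_B, smul_eq_mul]; field_simp; ring
  simpa [← ft1_eq, abs_of_pos hs, div_eq_inv_mul] using this
theorem ft1_dil (hs : 0 < s) (φ : ℝ → ℝ) (k : ℝ) :
    ft1 (cx (dil s φ)) k = s * ft1 (cx φ) (s * k) := ft1_scale hs (cx φ) k
theorem ft1_dlt (hs : 0 < s) (ρ : ℝ → ℝ) (k : ℝ) : ft1 (cx (dlt s ρ)) k = ft1 (cx ρ) (s * k) := by
  have : cx (dlt s ρ) = fun t => (s : ℂ)⁻¹ * cx ρ (t / s) := by
    funext t; simp [cx, dlt, div_eq_inv_mul]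
  rw [this, ft1_mul, ft1_scale hs, inv_mul_cancel_left₀ (by simpa using hs.ne')]
theorem ft1_deriv (φ : 𝓢(ℝ, ℂ)) (k : ℝ) : ft1 (deriv φ) k = -(I * k) * ft1 φ k := by
  simpa [← ft1_eq] using gft_deriv_sch (B := d1.B) φ 1 k
theorem deriv_ft1 (φ : 𝓢(ℝ, ℂ)) (k : ℝ) : deriv (ft1 φ) k = I * ft1 (fun t => t * φ t) k := by
  simpa [← ft1_eq] using fderiv_gft_sch (B := d1.B) φ k 1
theorem ft1_inv (φ : 𝓢(ℝ, ℂ)) (t : ℝ) :
    φ t = ((2 * π)⁻¹ : ℝ) * ∫ k, ft1 φ k * exp (-(I * (k * t : ℝ))) := by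
  simpa only [← ft1_eq, d1_B, pow_one] using d1.inv φ t
theorem ft1_plancherel (φ ψ : 𝓢(ℝ, ℂ)) :
    ∫ k, conj (ft1 φ k) * ft1 ψ k = (2 * π : ℝ) * ∫ t, conj (φ t) * ψ t := by
  simpa only [← ft1_eq, pow_one] using d1.plancherel φ ψ
theorem ft1_plancherel_norm (φ : 𝓢(ℝ, ℂ)) : ∫ k, ‖ft1 φ k‖ ^ 2 = 2 * π * ∫ t, ‖φ t‖ ^ 2 := by
  simpa only [← ft1_eq, pow_one] using d1.plancherel_norm φ
theorem ft1_decay (N : ℕ) : ∃ (m : ℕ) (C : ℝ), 0 ≤ C ∧ ∀ (φ : 𝓢(ℝ, ℂ)) (k : ℝ),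
    (1 + ‖k‖) ^ N * ‖ft1 φ k‖ ≤ C * sn m φ := ft1_eq ▸ d1.decay N
theorem memLp_mul_ft1 (φ : 𝓢(ℝ, ℂ)) (S : Set ℝ) :
    MemLp (fun t : ℝ => (t : ℂ) * ft1 φ t) 2 (volume.restrict S) := by
  simpa [coe_ft1S] using pol_memLp (g := fun t : ℝ => (t : ℂ)) (C := 1) (N := 1)
    (μ := volume.restrict S) Measure.restrict_le_self (by fun_prop) (ae_of_all _ fun t => by simp)
    (ft1S φ)

end one

end

end Vale.Agent.P352X
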