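import Vale.Agent.P352X.Defs
import Vale.Agent.P352X.ST.Ker

/-!
# P352X, row API4: parameter integrals (PAR) and tensor products (TENS) of test functions
-/

set_option linter.all false

noncomputable section

open Filter Topology Metric MeasureTheory Set
open scoped SchwartzMap ContDiff LineDeriv

namespace Vale.Agent.P352X.Api4

open Vale.Agent.P352.H755 (Tst)

variable {Y E E' E'' : Type*} [NormedAddCommGroup Y] [NormedSpace ℝ Y] [NormedAddCommGroup E]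
  [NormedSpace ℝ E] [NormedAddCommGroup E'] [NormedSpace ℝ E'] [NormedAddCommGroup E'']
  [NormedSpace ℝ E'']

/-! ## the operation `sch` -/

lemma sch_apply' {F : E → ℂ} (h : ∃ G : 𝓢(E, ℂ), ∀ x, G x = F x) (x : E) : sch F x = F x := by
  rw [sch, dif_pos h]
  exact h.choose_spec x

lemma sch_eq {F : E → ℂ} (G : 𝓢(E, ℂ)) (h : ∀ x, G x = F x) : sch F = G :=
  SchwartzMap.ext fun x => (sch_apply' ⟨G, h⟩ x).trans (h x).symm

lemma sch_coe (G : 𝓢(E, ℂ)) : sch (fun x => G x) = G := sch_eq G fun _ => rfl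

lemma ex_of_dc {F : E → ℂ} (h : Dc F) : ∃ G : 𝓢(E, ℂ), ∀ x, G x = F x :=
  ⟨h.2.toSchwartzMap h.1, fun _ => rfl⟩

lemma sch_apply {F : E → ℂ} (h : Dc F) (x : E) : sch F x = F x := sch_apply' (ex_of_dc h) x

lemma coe_sch {F : E → ℂ} (h : Dc F) : (sch F : E → ℂ) = F := funext (sch_apply h)

lemma tsupport_sch {F : E → ℂ} (h : Dc F) : tsupport (sch F) = tsupport F := by rw [coe_sch h]

lemma sn_eq (m : ℕ) (f : 𝓢(E, ℂ)) : sn m f = ST.sn E ℂ m f := by
  refine le_antisymm (Seminorm.finset_sup_apply_le (apply_nonneg _ _) fun k hk => ?_)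
    (ST.sn_le (apply_nonneg _ _) fun k hk n hn => ?_)
  · rw [ST.seminorm_eq]
    exact ST.seminorm_le_sn (Finset.mem_Iic.1 hk).1 (Finset.mem_Iic.1 hk).2 f
  · rw [← ST.seminorm_eq (𝕜 := ℂ)]
    exact Seminorm.le_finset_sup_apply (p := schwartzSeminormFamily ℂ E ℂ) (x := f)
      (i := (k, n)) (Finset.mem_Iic.2 (Prod.mk_le_mk.2 ⟨hk, hn⟩))

/-! ## the class `Dc` -/

section dc

variable {F G : E → ℂ}

lemma dc_of_sch (g : 𝓢(E, ℂ)) (h : HasCompactSupport g) : Dc fun x => g x := ⟨g.smooth ⊤, h⟩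

lemma dc_of_zero (h : ContDiff ℝ ∞ F) {K : Set E} (hK : IsCompact K) (h0 : ∀ x ∉ K, F x = 0) :
    Dc F := ⟨h, HasCompactSupport.intro hK h0⟩

lemma dc_cx {f : E → ℝ} (h : Tst f) : Dc (cx f) :=
  ⟨Complex.ofRealCLM.contDiff.comp h.1, h.2.comp_left (g := fun x : ℝ => (x : ℂ)) (by simp)⟩

lemma dc_zero : Dc fun _ : E => (0 : ℂ) := ⟨contDiff_const, HasCompactSupport.zero⟩

lemma dc_add (h : Dc F) (h' : Dc G) : Dc fun x => F x + G x := ⟨h.1.add h'.1, h.2.add h'.2⟩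

lemma dc_neg (h : Dc F) : Dc fun x => -F x := ⟨h.1.neg, h.2.neg⟩

lemma dc_sub (h : Dc F) (h' : Dc G) : Dc fun x => F x - G x := ⟨h.1.sub h'.1, h.2.sub h'.2⟩

lemma dc_mul_left (h : ContDiff ℝ ∞ G) (h' : Dc F) : Dc fun x => G x * F x :=
  ⟨h.mul h'.1, h'.2.mul_left⟩

lemma dc_mul_right (h : Dc F) (h' : ContDiff ℝ ∞ G) : Dc fun x => F x * G x :=
  ⟨h.1.mul h', h.2.mul_right⟩

lemma dc_const_mul (a : ℂ) (h : Dc F) : Dc fun x => a * F x := dc_mul_left contDiff_const h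

lemma dc_sum {ι : Type*} (s : Finset ι) {F : ι → E → ℂ} (h : ∀ i ∈ s, Dc (F i)) :
    Dc fun x => ∑ i ∈ s, F i x := by
  classical
  induction s using Finset.induction_on with
  | empty => simpa using dc_zero
  | insert i s hi ih =>
    simp only [Finset.sum_insert hi]
    exact dc_add (h i (Finset.mem_insert_self _ _))
      (ih fun j hj => h j (Finset.mem_insert_of_mem hj))

lemma dc_star (h : Dc F) : Dc fun x => star (F x) :=
  ⟨(Complex.conjCLE : ℂ →L[ℝ] ℂ).contDiff.comp h.1,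
    h.2.comp_left (g := fun x : ℂ => star x) (by simp)⟩

/-- Vector fields with smooth coefficients. -/
lemma dc_fderiv (h : Dc F) {X : E → E} (hX : ContDiff ℝ ∞ X) : Dc fun x => fderiv ℝ F x (X x) := by
  refine ⟨(h.1.fderiv_right (m := ∞) le_rfl).clm_apply hX, ?_⟩
  refine HasCompactSupport.intro h.2 fun x hx => ?_
  rw [notMem_tsupport_iff_eventuallyEq] at hx
  rw [hx.fderiv_eq]
  simp

lemma tsupport_fderiv_subset (F : E → ℂ) (X : E → E) :
    tsupport (fun x => fderiv ℝ F x (X x)) ⊆ tsupport F := by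
  refine closure_minimal (fun x hx => ?_) (isClosed_tsupport _)
  by_contra h
  rw [notMem_tsupport_iff_eventuallyEq] at h
  apply hx
  simp only
  rw [h.fderiv_eq]
  simp

/-- Smooth proper substitutions. -/
lemma dc_comp {g : E' → E} (h : Dc F) (hg : ContDiff ℝ ∞ g)
    (hp : ∀ K, IsCompact K → IsCompact (g ⁻¹' K)) : Dc fun x => F (g x) :=
  dc_of_zero (h.1.comp hg) (hp _ h.2) fun _ hx => image_eq_zero_of_notMem_tsupport hx

lemma dc_comp_cle (h : Dc F) (e : E' ≃L[ℝ] E) : Dc fun x => F (e x) :=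
  dc_comp h e.contDiff fun _ hK => e.toHomeomorph.isCompact_preimage.2 hK

lemma dc_add_const (h : Dc F) (a : E) : Dc fun x => F (x + a) :=
  dc_comp h (contDiff_id.add contDiff_const) fun _ hK =>
    (Homeomorph.addRight a).isCompact_preimage.2 hK

lemma dc_sub_const (h : Dc F) (a : E) : Dc fun x => F (x - a) := by
  simpa only [sub_eq_add_neg] using dc_add_const h (-a)

lemma dc_tens {G : E' → ℂ} (h : Dc F) (h' : Dc G) : Dc fun z : E × E' => F z.1 * G z.2 := by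
  refine dc_of_zero ((h.1.comp contDiff_fst).mul (h'.1.comp contDiff_snd)) (h.2.prod h'.2)
    fun z hz => ?_
  rw [mem_prod, not_and_or] at hz
  rcases hz with hz | hz
  · rw [image_eq_zero_of_notMem_tsupport hz, zero_mul]
  · rw [image_eq_zero_of_notMem_tsupport hz, mul_zero]

lemma dc_slice {G : Y × E → ℂ} (h : Dc G) (y : Y) : Dc fun z => G (y, z) :=
  dc_of_zero (h.1.comp (contDiff_const.prodMk contDiff_id)) (h.2.image continuous_snd)
    fun z hz => image_eq_zero_of_notMem_tsupport fun h1 => hz ⟨(y, z), h1, rfl⟩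

lemma dc_slice' {G : E × Y → ℂ} (h : Dc G) (y : Y) : Dc fun z => G (z, y) :=
  dc_of_zero (h.1.comp (contDiff_id.prodMk contDiff_const)) (h.2.image continuous_fst)
    fun z hz => image_eq_zero_of_notMem_tsupport fun h1 => hz ⟨(z, y), h1, rfl⟩

lemma sch_zero : sch (fun _ : E => (0 : ℂ)) = 0 := sch_eq _ fun _ => rfl

lemma sch_add (h : Dc F) (h' : Dc G) : sch (fun x => F x + G x) = sch F + sch G :=
  sch_eq _ fun x => by rw [SchwartzMap.add_apply, sch_apply h, sch_apply h']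

lemma sch_sub (h : Dc F) (h' : Dc G) : sch (fun x => F x - G x) = sch F - sch G :=
  sch_eq _ fun x => by rw [SchwartzMap.sub_apply, sch_apply h, sch_apply h']

lemma sch_neg (h : Dc F) : sch (fun x => -F x) = -sch F :=
  sch_eq _ fun x => by rw [SchwartzMap.neg_apply, sch_apply h]

lemma sch_const_mul (a : ℂ) (h : Dc F) : sch (fun x => a * F x) = a • sch F :=
  sch_eq _ fun x => by rw [SchwartzMap.smul_apply, sch_apply h, smul_eq_mul]

lemma sch_sum {ι : Type*} (s : Finset ι) {F : ι → E → ℂ} (h : ∀ i ∈ s, Dc (F i)) :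
    sch (fun x => ∑ i ∈ s, F i x) = ∑ i ∈ s, sch (F i) := by
  classical
  induction s using Finset.induction_on with
  | empty => simpa using sch_zero
  | insert i s hi ih =>
    have h1 := fun j hj => h j (Finset.mem_insert_of_mem hj)
    simp only [Finset.sum_insert hi]
    rw [sch_add (h i (Finset.mem_insert_self _ _)) (dc_sum s h1), ih h1]

lemma sch_fderiv (h : Dc F) (v : E) : sch (fun x => fderiv ℝ F x v) = ∂_{v} (sch F) :=
  sch_eq _ fun x => by rw [SchwartzMap.lineDerivOp_apply_eq_fderiv, coe_sch h]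

lemma sch_mul (hG : G.HasTemperateGrowth) (h : Dc F) :
    sch (fun x => G x * F x) = SchwartzMap.smulLeftCLM ℂ G (sch F) :=
  sch_eq _ fun x => by rw [SchwartzMap.smulLeftCLM_apply_apply hG, sch_apply h, smul_eq_mul]

lemma sch_tens {G : E' → ℂ} (h : Dc F) (h' : Dc G) :
    sch (fun z : E × E' => F z.1 * G z.2) = ST.tens (sch F) (sch G) :=
  sch_eq _ fun x => by rw [ST.tens_apply, sch_apply h, sch_apply h']

lemma sch_tsl (h : Dc F) (a : E) : sch (fun x => F (x - a)) = ST.tsl a (sch F) :=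
  sch_eq _ fun x => by rw [ST.tsl_apply, sch_apply h]

end dc

/-! ## polynomials -/

lemma temperate_aeval {σ : Type*} {l : σ → E → ℂ} (hl : ∀ i, (l i).HasTemperateGrowth)
    (q : MvPolynomial σ ℂ) :
    (fun z => MvPolynomial.aeval (fun i => l i z) q).HasTemperateGrowth := by
  induction q using MvPolynomial.induction_on with
  | C a => simpa using Function.HasTemperateGrowth.const a
  | add p q hp hq => simp only [map_add]; exact hp.add hq
  | mul_X p i hp => simp only [map_mul, MvPolynomial.aeval_X]; exact hp.mul (hl i)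

lemma contDiff_aeval {σ : Type*} {l : σ → E → ℂ} (hl : ∀ i, ContDiff ℝ ∞ (l i))
    (q : MvPolynomial σ ℂ) : ContDiff ℝ ∞ fun z => MvPolynomial.aeval (fun i => l i z) q := by
  induction q using MvPolynomial.induction_on with
  | C a => simpa using contDiff_const
  | add p q hp hq => simp only [map_add]; exact hp.add hq
  | mul_X p i hp => simp only [map_mul, MvPolynomial.aeval_X]; exact hp.mul (hl i)

lemma temperate_clm (l : E →L[ℝ] ℝ) : (fun z => (l z : ℂ)).HasTemperateGrowth :=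
  (Complex.ofRealCLM ∘L l).hasTemperateGrowth

lemma temperate_evp (q : MvPolynomial Vale.Agent.P352.GF.Ix ℂ) (L : E →L[ℝ] Vale.Agent.P352.GF.V) :
    (fun z => evp q (L z)).HasTemperateGrowth := by
  have := temperate_aeval (l := fun m z => (L z m : ℂ))
    (fun m => temperate_clm (ContinuousLinearMap.proj (R := ℝ) (φ := fun _ => ℝ) m ∘L L)) q
  exact this

/-! ## slices of Schwartz functions -/

/-- `G ↦ G (y, ·)` -/
def sl (y : Y) : 𝓢(Y × E, ℂ) →L[ℂ] 𝓢(E, ℂ) :=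
  SchwartzMap.compCLM ℂ (g := fun z : E => ((y, z) : Y × E))
    (by
      have := (Function.HasTemperateGrowth.const (E := E) ((y, 0) : Y × E)).add
        (ContinuousLinearMap.inr ℝ Y E).hasTemperateGrowth
      refine (show (fun z : E => ((y, z) : Y × E)) = _ from funext fun z => ?_) ▸ this
      simp)
    ⟨1, 1, fun z => by
      have : ‖z‖ ≤ ‖((y, z) : Y × E)‖ := norm_snd_le ((y, z) : Y × E)
      simp only [pow_one, one_mul]
      linarith⟩

@[simp] lemma sl_apply (y : Y) (G : 𝓢(Y × E, ℂ)) (z : E) : sl y G z = G (y, z) := rfl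

lemma sch_slice {G : Y × E → ℂ} (h : Dc G) (y : Y) : sch (fun z => G (y, z)) = sl y (sch G) :=
  sch_eq _ fun z => by rw [sl_apply, sch_apply h]

lemma sn_sl (G : 𝓢(Y × E, ℂ)) (y : Y) (N M : ℕ) :
    ST.sn E ℂ N (sl y G) ≤ 2 ^ (N + M) * ST.sn (Y × E) ℂ (N + M) G / (1 + ‖y‖) ^ M := by
  have hb := (((ST.bd_sch G (k := N + M) le_rfl (Nat.le_add_right N M)).add_const
    ((y, 0) : Y × E)).comp (ContinuousLinearMap.inr ℝ Y E) le_rfl
      (ContinuousLinearMap.norm_inr_le_one ..)).congr (ψ := sl y G) fun z => by simp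
  refine hb.sn_le fun z => ?_
  have e : (ContinuousLinearMap.inr ℝ Y E) z + ((y, 0) : Y × E) = (y, z) := by simp
  simp only [e, one_pow, one_mul]
  have h1 : ‖z‖ ≤ ‖((y, z) : Y × E)‖ := norm_snd_le ((y, z) : Y × E)
  have h2 : ‖y‖ ≤ ‖((y, z) : Y × E)‖ := norm_fst_le ((y, z) : Y × E)
  have h3 : (1 + ‖z‖) ^ N * (1 + ‖y‖) ^ M ≤ (1 + ‖((y, z) : Y × E)‖) ^ (N + M) := by
    rw [pow_add]
    gcongr
  rw [← mul_div_assoc, div_le_div_iff₀ (by positivity) (by positivity)]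
  have h4 : 0 ≤ 2 ^ (N + M) * ST.sn (Y × E) ℂ (N + M) G := by positivity
  calc _ = 2 ^ (N + M) * ST.sn (Y × E) ℂ (N + M) G * ((1 + ‖z‖) ^ N * (1 + ‖y‖) ^ M) := by ring
    _ ≤ _ := mul_le_mul_of_nonneg_left h3 h4

lemma continuous_sl [FiniteDimensional ℝ E] :
    Continuous fun q : Y × 𝓢(Y × E, ℂ) => sl q.1 q.2 :=
  ST.continuous_joint sl
    (fun N => ⟨fun _ => 2 ^ N, N, continuous_const, fun y G => by simpa using sn_sl G y N 0⟩)
    fun z => ST.continuous_eval.comp (continuous_snd.prodMk (continuous_fst.prodMk continuous_const))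

lemma continuous_sl' [FiniteDimensional ℝ E] (G : 𝓢(Y × E, ℂ)) : Continuous fun y => sl y G :=
  continuous_sl.comp (continuous_id.prodMk continuous_const)

section par

variable [FiniteDimensional ℝ E] [MeasurableSpace Y] [BorelSpace Y] [SecondCountableTopology Y]
  {B : Type*} [NormedAddCommGroup B] [NormedSpace ℂ B] [CompleteSpace B]

section sch

variable (μ : Measure Y) [μ.HasTemperateGrowth]

lemma integrable_w : Integrable (fun y : Y => ((1 + ‖y‖) ^ μ.integrablePower)⁻¹) μ := by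
  refine (Measure.integrable_pow_neg_integrablePower μ).congr (Eventually.of_forall fun y => ?_)
  simp only
  rw [Real.rpow_neg (by positivity), Real.rpow_natCast]

lemma sint_sl (G : 𝓢(Y × E, ℂ)) : ST.SInt (fun y => sl y G) μ :=
  ST.SInt.of_sn (continuous_sl' G).aestronglyMeasurable fun N =>
    ⟨_, (integrable_w μ).const_mul
      (2 ^ (N + μ.integrablePower) * ST.sn (Y × E) ℂ (N + μ.integrablePower) G),
      Eventually.of_forall fun y => (sn_sl G y N _).trans (le_of_eq (div_eq_mul_inv _ _))⟩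

lemma sn_int (G : 𝓢(Y × E, ℂ)) (N : ℕ) : ST.sn E ℂ N (sint_sl μ G).int ≤
    (2 ^ (N + μ.integrablePower) * ∫ y, ((1 + ‖y‖) ^ μ.integrablePower)⁻¹ ∂μ) *
      ST.sn (Y × E) ℂ (N + μ.integrablePower) G := by
  have h0 : 0 ≤ ∫ y, ((1 + ‖y‖) ^ μ.integrablePower)⁻¹ ∂μ :=
    integral_nonneg fun y => by positivity
  refine ST.sn_le (by positivity) fun k hk n hn => ?_
  refine ((sint_sl μ G).seminorm_le (fun _ => rfl) k n).trans ?_
  refine (integral_mono ((sint_sl μ G).seminorm k n) ((integrable_w μ).const_mul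
    (2 ^ (N + μ.integrablePower) * ST.sn (Y × E) ℂ (N + μ.integrablePower) G)) fun y =>
      (ST.seminorm_le_sn hk hn _).trans ((sn_sl G y N _).trans
        (le_of_eq (div_eq_mul_inv _ _)))).trans (le_of_eq ?_)
  rw [integral_const_mul]
  ring

/-- Integration over the first variable. -/
def pint : 𝓢(Y × E, ℂ) →L[ℂ] 𝓢(E, ℂ) where
  toFun G := (sint_sl μ G).int
  map_add' G H := SchwartzMap.ext fun z =>
    integral_add ((sint_sl μ G).apply z) ((sint_sl μ H).apply z)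
  map_smul' c G := SchwartzMap.ext fun z => integral_smul c fun y => G (y, z)
  cont := ST.continuous_of_sn_le
    (AddMonoidHom.mk' (fun G => (sint_sl μ G).int) fun G H => SchwartzMap.ext fun z =>
      integral_add ((sint_sl μ G).apply z) ((sint_sl μ H).apply z))
    fun N => ⟨_, _, fun G => sn_int μ G N⟩

@[simp] lemma pint_apply (G : 𝓢(Y × E, ℂ)) (z : E) : pint μ G z = ∫ y, G (y, z) ∂μ := rfl

/-- **PAR for Schwartz functions.** -/
theorem par_sch (G : 𝓢(Y × E, ℂ)) (Λ : 𝓢(E, ℂ) →L[ℂ] B) :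
    Integrable (fun y => Λ (sl y G)) μ ∧ Λ (pint μ G) = ∫ y, Λ (sl y G) ∂μ :=
  (sint_sl μ G).clm (fun _ => rfl) Λ

/-- Derivatives commute with the integral. -/
lemma pint_deriv (G : 𝓢(Y × E, ℂ)) (v : E) :
    ∂_{v} (pint μ G) = pint μ (∂_{((0, v) : Y × E)} G) := by
  have h := ((sint_sl μ G).map (LineDeriv.lineDerivOpCLM ℝ 𝓢(E, ℂ) v)).2 (pint μ G) fun _ => rfl
  refine SchwartzMap.ext fun z => (h z).trans ?_
  refine integral_congr_ae (Eventually.of_forall fun y => ?_)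
  simp only [LineDeriv.lineDerivOpCLM_apply, SchwartzMap.lineDerivOp_apply_eq_fderiv]
  have h1 : HasFDerivAt (fun z : E => ((y, z) : Y × E)) (ContinuousLinearMap.inr ℝ Y E) z :=
    hasFDerivAt_prodMk_right y z
  have h2 := ((G.hasFDerivAt (y, z)).comp z h1).fderiv
  change fderiv ℝ ((G : Y × E → ℂ) ∘ fun z : E => ((y, z) : Y × E)) z v = _
  rw [h2]
  simp [SchwartzMap.lineDerivOp_apply_eq_fderiv]

lemma sch_int {G : Y × E → ℂ} (h : Dc G) :
    sch (fun z => ∫ y, G (y, z) ∂μ) = pint μ (sch G) :=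
  sch_eq _ fun z => by rw [pint_apply, coe_sch h]

lemma int_eq_zero {G : Y × E → ℂ} {z : E} (hz : z ∉ Prod.snd '' tsupport G) :
    ∫ y, G (y, z) ∂μ = 0 := by
  have : ∀ y, G (y, z) = 0 := fun y =>
    image_eq_zero_of_notMem_tsupport fun h1 => hz ⟨(y, z), h1, rfl⟩
  simp [this]

lemma dc_int {G : Y × E → ℂ} (h : Dc G) : Dc fun z => ∫ y, G (y, z) ∂μ := by
  refine dc_of_zero ?_ (h.2.image continuous_snd) fun z hz => int_eq_zero μ hz
  have := (pint μ (sch G)).smooth ⊤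
  rwa [show (pint μ (sch G) : E → ℂ) = fun z => ∫ y, G (y, z) ∂μ from
    funext fun z => by rw [pint_apply, coe_sch h]] at this

lemma tsupport_int {G : Y × E → ℂ} (h : Dc G) :
    tsupport (fun z => ∫ y, G (y, z) ∂μ) ⊆ Prod.snd '' tsupport G :=
  closure_minimal (fun z hz => by_contra fun h1 => hz (int_eq_zero μ h1))
    (h.2.image continuous_snd).isClosed

lemma integrable_slice {G : Y × E → ℂ} (h : Dc G) (z : E) : Integrable (fun y => G (y, z)) μ := by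
  simpa only [sl_apply, coe_sch h] using (sint_sl μ (sch G)).apply z

/-- **PAR.** -/
theorem par {G : Y × E → ℂ} (h : Dc G) (Λ : 𝓢(E, ℂ) →L[ℂ] B) :
    Dc (fun z => ∫ y, G (y, z) ∂μ) ∧ Integrable (fun y => Λ (sch fun z => G (y, z))) μ ∧
      Λ (sch fun z => ∫ y, G (y, z) ∂μ) = ∫ y, Λ (sch fun z => G (y, z)) ∂μ := by
  simp only [sch_slice h, sch_int μ h]
  exact ⟨dc_int μ h, par_sch μ _ Λ⟩

/-- Differentiation under the integral. -/
lemma fderiv_int {G : Y × E → ℂ} (h : Dc G) (z v : E) :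
    fderiv ℝ (fun z => ∫ y, G (y, z) ∂μ) z v = ∫ y, fderiv ℝ G (y, z) (0, v) ∂μ := by
  have := congrArg (fun g : 𝓢(E, ℂ) => g z) (pint_deriv μ (sch G) v)
  simp only [SchwartzMap.lineDerivOp_apply_eq_fderiv, pint_apply, coe_sch h] at this
  rw [← this, ← sch_int μ h, coe_sch (dc_int μ h)]

end sch

/-- The integral of a derivative in the parameter vanishes. -/
lemma int_fderiv_zero [FiniteDimensional ℝ Y] (μ : Measure Y) [μ.IsAddHaarMeasure]
    {G : Y × E → ℂ} (h : Dc G) (z : E) (v : Y) : ∫ y, fderiv ℝ G (y, z) (v, 0) ∂μ = 0 := by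
  have h1 := dc_slice' h z
  have e : ∀ y, fderiv ℝ G (y, z) (v, 0) = fderiv ℝ (fun y => G (y, z)) y v := fun y => by
    have h0 : HasFDerivAt (fun y : Y => ((y, z) : Y × E)) (ContinuousLinearMap.inl ℝ Y E) y :=
      hasFDerivAt_prodMk_left y z
    have h2 := ((h.1.differentiable (by simp) (y, z)).hasFDerivAt.comp y h0).fderiv
    change _ = fderiv ℝ (G ∘ fun y : Y => ((y, z) : Y × E)) y v
    rw [h2]
    simp
  simp only [e]
  have := integral_mul_fderiv_eq_neg_fderiv_mul_of_integrable (μ := μ) (f := fun _ => (1 : ℂ))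
    (g := fun y => G (y, z)) (v := v) (by simp)
    (by simpa using (dc_fderiv h1 (X := fun _ => v) contDiff_const).1.continuous
          |>.integrable_of_hasCompactSupport (dc_fderiv h1 (X := fun _ => v) contDiff_const).2)
    (by simpa using h1.1.continuous.integrable_of_hasCompactSupport h1.2)
    (fun _ _ => differentiableAt_const _)
    (fun y _ => h1.1.differentiable (by simp) y)
  simpa using this

end par

/-! ## differentiation in the parameter -/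

section der

variable [FiniteDimensional ℝ E] [FiniteDimensional ℝ Y]
  {B : Type*} [NormedAddCommGroup B] [NormedSpace ℂ B] [CompleteSpace B]

/-- The derivative of `y ↦ Λ (G (y, ·))`. -/
def dsl (Λ : 𝓢(E, ℂ) →L[ℂ] B) (G : 𝓢(Y × E, ℂ)) (y : Y) : Y →L[ℝ] B :=
  LinearMap.toContinuousLinearMap
    { toFun := fun h => Λ (sl y (∂_{((h, 0) : Y × E)} G))
      map_add' := fun a b => by
        rw [← map_add, ← map_add, ← LineDeriv.lineDerivOp_left_add]
        simp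
      map_smul' := fun c a => by
        have e : ∂_{((c • a, 0) : Y × E)} G = (c : ℂ) • ∂_{((a, 0) : Y × E)} G := by
          refine SchwartzMap.ext fun z => ?_
          rw [SchwartzMap.smul_apply, SchwartzMap.lineDerivOp_apply_eq_fderiv,
            SchwartzMap.lineDerivOp_apply_eq_fderiv,
            show ((c • a, 0) : Y × E) = c • ((a, 0) : Y × E) by simp, map_smul]
          simp
        rw [e, map_smul, map_smul]
        simp }

lemma dsl_apply (Λ : 𝓢(E, ℂ) →L[ℂ] B) (G : 𝓢(Y × E, ℂ)) (y h : Y) :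
    dsl Λ G y h = Λ (sl y (∂_{((h, 0) : Y × E)} G)) := rfl

lemma continuous_dsl (Λ : 𝓢(E, ℂ) →L[ℂ] B) (G : 𝓢(Y × E, ℂ)) : Continuous (dsl Λ G) :=
  continuous_clm_apply.2 fun _ => Λ.continuous.comp (continuous_sl' _)

lemma sl_sub (Λ : 𝓢(E, ℂ) →L[ℂ] B) (G : 𝓢(Y × E, ℂ)) (y h : Y) :
    Λ (sl (y + h) G) - Λ (sl y G) = ∫ s in (0 : ℝ)..1, dsl Λ G (y + s • h) h := by
  set G' := ∂_{((h, 0) : Y × E)} G with hG'
  have hc : Continuous fun s : ℝ => sl (y + s • h) G' := (continuous_sl' G').comp (by fun_prop)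
  have hi : ST.SInt (fun s : ℝ => sl (y + s • h) G') (volume.restrict (Ioc 0 1)) :=
    ST.SInt.of_sn hc.aestronglyMeasurable fun N =>
      ⟨fun _ => 2 ^ N * ST.sn (Y × E) ℂ N G', integrable_const _,
        Eventually.of_forall fun s => by simpa using sn_sl G' _ N 0⟩
  rw [← map_sub, intervalIntegral.integral_of_le zero_le_one]
  refine (hi.clm (fun z => ?_) Λ).2
  have hd : ∀ s : ℝ, HasDerivAt (fun s : ℝ => G (y + s • h, z)) (G' (y + s • h, z)) s := by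
    intro s
    have h1 : HasDerivAt (fun s : ℝ => ((y + s • h, z) : Y × E)) (h, 0) s := by
      refine HasDerivAt.prodMk ?_ (hasDerivAt_const _ _)
      simpa using ((hasDerivAt_id s).smul_const h).const_add y
    exact (G.hasFDerivAt _).comp_hasDerivAt s h1
  have := intervalIntegral.integral_eq_sub_of_hasDerivAt (a := 0) (b := 1) (fun s _ => hd s)
    ((G'.continuous.comp (by fun_prop)).intervalIntegrable _ _)
  rw [intervalIntegral.integral_of_le zero_le_one] at this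
  simp only [sl_apply, SchwartzMap.sub_apply]
  rw [this]
  simp

theorem hasFDerivAt_sl (Λ : 𝓢(E, ℂ) →L[ℂ] B) (G : 𝓢(Y × E, ℂ)) (y : Y) :
    HasFDerivAt (fun y => Λ (sl y G)) (dsl Λ G y) y := by
  rw [hasFDerivAt_iff_isLittleO_nhds_zero, Asymptotics.isLittleO_iff]
  intro ε hε
  obtain ⟨δ, hδ, h1⟩ := Metric.continuousAt_iff.1 (continuous_dsl Λ G).continuousAt ε hε
  filter_upwards [ball_mem_nhds (0 : Y) hδ] with h hh
  rw [mem_ball, dist_zero_right] at hh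
  have hc : Continuous fun s : ℝ => dsl Λ G (y + s • h) h :=
    ((continuous_dsl Λ G).comp (by fun_prop)).clm_apply continuous_const
  have e : Λ (sl (y + h) G) - Λ (sl y G) - dsl Λ G y h =
      ∫ s in (0 : ℝ)..1, (dsl Λ G (y + s • h) h - dsl Λ G y h) := by
    rw [intervalIntegral.integral_sub (hc.intervalIntegrable _ _) intervalIntegrable_const, sl_sub]
    simp
  rw [e]
  refine (intervalIntegral.norm_integral_le_of_norm_le_const (C := ε * ‖h‖) fun s hs => ?_).trans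
    (by simp)
  rw [uIoc_of_le zero_le_one] at hs
  have h2 : dist (y + s • h) y < δ := by
    rw [dist_eq_norm, add_sub_cancel_left, norm_smul, Real.norm_of_nonneg hs.1.le]
    exact lt_of_le_of_lt (mul_le_of_le_one_left (norm_nonneg _) hs.2) hh
  have h3 := h1 h2
  rw [dist_eq_norm] at h3
  exact (dsl Λ G (y + s • h) - dsl Λ G y).le_of_opNorm_le h3.le h

theorem contDiff_sl (Λ : 𝓢(E, ℂ) →L[ℂ] B) (G : 𝓢(Y × E, ℂ)) :
    ContDiff ℝ ∞ fun y => Λ (sl y G) := by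
  rw [contDiff_infty]
  intro n
  induction n generalizing G with
  | zero => exact contDiff_zero.2 (Λ.continuous.comp (continuous_sl' G))
  | succ n ih =>
    rw [Nat.cast_succ, contDiff_succ_iff_fderiv_apply]
    refine ⟨fun y => (hasFDerivAt_sl Λ G y).differentiableAt, fun h => by simp at h, fun h => ?_⟩
    simp only [(hasFDerivAt_sl Λ G _).fderiv, dsl_apply]
    exact ih _

end der

/-! ## smooth families of test functions on open parameter sets -/

/-- Smooth families with locally uniformly compact supports. -/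
structure Fam (U : Set Y) (G : Y → E → ℂ) : Prop where
  isOpen : IsOpen U
  smooth : ContDiffOn ℝ ∞ (fun q : Y × E => G q.1 q.2) (U ×ˢ univ)
  supp : ∀ y ∈ U, ∃ K, IsCompact K ∧ ∀ᶠ y' in 𝓝 y, ∀ z ∉ K, G y' z = 0

lemma fam_of_dc {G : Y → E → ℂ} (h : Dc fun q : Y × E => G q.1 q.2) : Fam univ G :=
  ⟨isOpen_univ, h.1.contDiffOn, fun _ _ => ⟨_, h.2.image continuous_snd,
    Eventually.of_forall fun y z hz =>
      image_eq_zero_of_notMem_tsupport (f := fun q : Y × E => G q.1 q.2) (x := (y, z))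
        fun h1 => hz ⟨(y, z), h1, rfl⟩⟩⟩

/-- Families with supports in a fixed compact set. -/
lemma fam_of_compact {U : Set Y} {G : Y → E → ℂ} (hU : IsOpen U)
    (hs : ContDiffOn ℝ ∞ (fun q : Y × E => G q.1 q.2) (U ×ˢ univ)) {K : Set E} (hK : IsCompact K)
    (h0 : ∀ y ∈ U, ∀ z ∉ K, G y z = 0) : Fam U G :=
  ⟨hU, hs, fun _ hy => ⟨K, hK, (hU.eventually_mem hy).mono fun y' hy' => h0 y' hy'⟩⟩

namespace Fam

variable {U : Set Y} {G H : Y → E → ℂ}

lemma mono (h : Fam U G) {U' : Set Y} (hU : IsOpen U') (hs : U' ⊆ U) : Fam U' G :=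
  ⟨hU, h.smooth.mono (prod_mono hs le_rfl), fun y hy => h.supp y (hs hy)⟩

lemma at' (h : Fam U G) {y : Y} (hy : y ∈ U) (z : E) :
    ContDiffAt ℝ ∞ (fun q : Y × E => G q.1 q.2) (y, z) :=
  h.smooth.contDiffAt ((h.isOpen.prod isOpen_univ).mem_nhds ⟨hy, mem_univ _⟩)

lemma dc (h : Fam U G) {y : Y} (hy : y ∈ U) : Dc (G y) := by
  obtain ⟨K, hK, h0⟩ := h.supp y hy
  exact dc_of_zero (contDiff_iff_contDiffAt.2 fun z => (h.at' hy z).comp z
    (contDiffAt_const.prodMk contDiffAt_id)) hK h0.self_of_nhds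

lemma mul_left (h : Fam U G) (hs : ContDiffOn ℝ ∞ (fun q : Y × E => H q.1 q.2) (U ×ˢ univ)) :
    Fam U fun y z => H y z * G y z :=
  ⟨h.isOpen, hs.mul h.smooth, fun y hy => (h.supp y hy).imp fun _ hK =>
    ⟨hK.1, hK.2.mono fun _ h1 z hz => by rw [h1 z hz, mul_zero]⟩⟩

lemma add (h : Fam U G) (h' : Fam U H) : Fam U fun y z => G y z + H y z := by
  refine ⟨h.isOpen, h.smooth.add h'.smooth, fun y hy => ?_⟩
  obtain ⟨K, hK, h0⟩ := h.supp y hy
  obtain ⟨K', hK', h0'⟩ := h'.supp y hy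
  refine ⟨K ∪ K', hK.union hK', ?_⟩
  filter_upwards [h0, h0'] with y' a b z hz
  rw [mem_union, not_or] at hz
  rw [a z hz.1, b z hz.2, add_zero]

/-- The derivative in the parameter. -/
lemma fderiv (h : Fam U G) (v : Y) : Fam U fun y z => fderiv ℝ (fun y => G y z) y v := by
  refine ⟨h.isOpen, ?_, fun y hy => ?_⟩
  · have h1 := (h.smooth.fderiv_of_isOpen (m := ∞) (h.isOpen.prod isOpen_univ) le_rfl).clm_apply
      (contDiffOn_const (c := ((v, 0) : Y × E)))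
    refine h1.congr fun q hq => ?_
    have h0 : HasFDerivAt (fun y : Y => ((y, q.2) : Y × E)) (ContinuousLinearMap.inl ℝ Y E) q.1 :=
      hasFDerivAt_prodMk_left _ _
    have h2 := (((h.at' hq.1 q.2).differentiableAt (by simp)).hasFDerivAt.comp q.1 h0).fderiv
    change _root_.fderiv ℝ ((fun q : Y × E => G q.1 q.2) ∘ fun y : Y => ((y, q.2) : Y × E)) q.1 v = _
    rw [h2]
    simp
  · obtain ⟨K, hK, h0⟩ := h.supp y hy
    refine ⟨K, hK, h0.eventually_nhds.mono fun y' h1 z hz => ?_⟩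
    have : (fun y => G y z) =ᶠ[𝓝 y'] fun _ => 0 := h1.mono fun _ h2 => h2 z hz
    rw [this.fderiv_eq]
    simp

lemma deriv {U : Set ℝ} {G : ℝ → E → ℂ} (h : Fam U G) :
    Fam U fun t z => deriv (fun t => G t z) t := h.fderiv 1

variable [FiniteDimensional ℝ Y]

/-- Localisation in the parameter. -/
lemma loc (h : Fam U G) {y : Y} (hy : y ∈ U) :
    ∃ H : 𝓢(Y × E, ℂ), ∀ᶠ y' in 𝓝 y, ∀ z, H (y', z) = G y' z := by
  haveI := FiniteDimensional.proper ℝ Y
  obtain ⟨K, hK, h0⟩ := h.supp y hy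
  obtain ⟨r, hr, hb⟩ := Metric.eventually_nhds_iff_ball.1 (h0.and (h.isOpen.eventually_mem hy))
  let b : ContDiffBump y := ⟨r / 4, r / 2, by positivity, by linarith⟩
  have hsub : closedBall y (r / 2) ⊆ ball y r := closedBall_subset_ball (by linarith)
  have hbz : ∀ y' ∉ closedBall y (r / 2), b y' = 0 := fun y' hy' =>
    b.zero_of_le_dist (by rw [mem_closedBall, not_le] at hy'; exact hy'.le)
  have hd : Dc fun q : Y × E => (b q.1 : ℂ) * G q.1 q.2 := by
    refine dc_of_zero (contDiff_iff_contDiffAt.2 fun q => ?_)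
      ((isCompact_closedBall y (r / 2)).prod hK) fun q hq => ?_
    · by_cases hq : q.1 ∈ closedBall y (r / 2)
      · exact ((Complex.ofRealCLM.contDiff.comp (b.contDiff.comp contDiff_fst)).contDiffAt).mul
          (h.at' (hb _ (hsub hq)).2 q.2)
      · have : ∀ᶠ q' in 𝓝 q, q'.1 ∉ closedBall y (r / 2) :=
          (isClosed_closedBall.preimage continuous_fst).isOpen_compl.mem_nhds hq
        refine (contDiffAt_const (c := (0 : ℂ))).congr_of_eventuallyEq (this.mono fun q' h1 => ?_)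
        simp [hbz _ h1]
    · by_cases h1 : q.1 ∈ closedBall y (r / 2)
      · rw [(hb _ (hsub h1)).1 q.2 fun h2 => hq ⟨h1, h2⟩, mul_zero]
      · simp [hbz _ h1]
  refine ⟨sch fun q : Y × E => (b q.1 : ℂ) * G q.1 q.2, ?_⟩
  filter_upwards [closedBall_mem_nhds y (show 0 < r / 4 by positivity)] with y' hy' z
  rw [sch_apply hd, b.one_of_mem_closedBall hy']
  simp

lemma loc' (h : Fam U G) {y : Y} (hy : y ∈ U) :
    ∃ H : 𝓢(Y × E, ℂ), (∀ᶠ y' in 𝓝 y, ∀ z, H (y', z) = G y' z) ∧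
      ∀ᶠ y' in 𝓝 y, sch (G y') = sl y' H :=
  (h.loc hy).imp fun _ hH => ⟨hH, hH.mono fun _ h1 => sch_eq _ h1⟩

variable [FiniteDimensional ℝ E]
  {B : Type*} [NormedAddCommGroup B] [NormedSpace ℂ B] [CompleteSpace B]

theorem continuousAt (h : Fam U G) {y : Y} (hy : y ∈ U) :
    ContinuousAt (fun y => sch (G y)) y := by
  obtain ⟨H, -, hH⟩ := h.loc' hy
  exact (continuous_sl' H).continuousAt.congr (hH.mono fun _ h1 => h1.symm)

theorem continuousOn (h : Fam U G) : ContinuousOn (fun y => sch (G y)) U :=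
  fun _ hy => (h.continuousAt hy).continuousWithinAt

theorem contDiffAt (h : Fam U G) (Λ : 𝓢(E, ℂ) →L[ℂ] B) {y : Y} (hy : y ∈ U) :
    ContDiffAt ℝ ∞ (fun y => Λ (sch (G y))) y := by
  obtain ⟨H, -, hH⟩ := h.loc' hy
  exact (contDiff_sl Λ H).contDiffAt.congr_of_eventuallyEq (hH.mono fun _ h1 => congrArg Λ h1)

theorem fderiv_apply (h : Fam U G) (Λ : 𝓢(E, ℂ) →L[ℂ] B) {y : Y} (hy : y ∈ U) (v : Y) :
    _root_.fderiv ℝ (fun y => Λ (sch (G y))) y v =
      Λ (sch fun z => _root_.fderiv ℝ (fun y => G y z) y v) := by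
  obtain ⟨H, h1, hH⟩ := h.loc' hy
  have e : (fun y => Λ (sch (G y))) =ᶠ[𝓝 y] fun y => Λ (sl y H) :=
    hH.mono fun _ h2 => congrArg Λ h2
  rw [e.fderiv_eq, (hasFDerivAt_sl Λ H y).fderiv, dsl_apply]
  congr 1
  refine (sch_eq _ fun z => ?_).symm
  have e2 : (fun y => G y z) =ᶠ[𝓝 y] fun y => H (y, z) := h1.mono fun _ h2 => (h2 z).symm
  have h0 : HasFDerivAt (fun y : Y => ((y, z) : Y × E)) (ContinuousLinearMap.inl ℝ Y E) y :=
    hasFDerivAt_prodMk_left _ _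
  have h2 := ((H.hasFDerivAt (y, z)).comp y h0).fderiv
  rw [e2.fderiv_eq, sl_apply, SchwartzMap.lineDerivOp_apply_eq_fderiv]
  change _ = _root_.fderiv ℝ ((H : Y × E → ℂ) ∘ fun y : Y => ((y, z) : Y × E)) y v
  rw [h2]
  simp

/-- Differentiation in a real parameter. -/
theorem hasDerivAt {U : Set ℝ} {G : ℝ → E → ℂ} (h : Fam U G) (Λ : 𝓢(E, ℂ) →L[ℂ] B) {t : ℝ}
    (ht : t ∈ U) : HasDerivAt (fun t => Λ (sch (G t)))
      (Λ (sch fun z => _root_.deriv (fun t => G t z) t)) t := by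
  have h1 := ((h.contDiffAt Λ ht).differentiableAt (by simp)).hasDerivAt
  rwa [show _root_.deriv (fun t => Λ (sch (G t))) t = _ from h.fderiv_apply Λ ht 1] at h1

/-- The fundamental theorem of calculus for families. -/
theorem ftc {U : Set ℝ} {G : ℝ → E → ℂ} (h : Fam U G) (Λ : 𝓢(E, ℂ) →L[ℂ] B) {a b : ℝ}
    (hab : uIcc a b ⊆ U) : Λ (sch (G b)) - Λ (sch (G a)) =
      ∫ t in a..b, Λ (sch fun z => _root_.deriv (fun t => G t z) t) :=
  (intervalIntegral.integral_eq_sub_of_hasDerivAt (fun _ ht => h.hasDerivAt Λ (hab ht))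
    ((Λ.continuous.comp_continuousOn (h.deriv.continuousOn.mono hab)).intervalIntegrable)).symm

/-- Uniform bounds on compact parameter sets. -/
lemma bdd (h : Fam U G) {K : Set Y} (hK : IsCompact K) (hKU : K ⊆ U) (N : ℕ) :
    ∃ C, ∀ y ∈ K, sn N (sch (G y)) ≤ C := by
  obtain ⟨C, hC⟩ := hK.bddAbove_image
    ((ST.continuous_sn N).comp_continuousOn (h.continuousOn.mono hKU))
  exact ⟨C, fun y hy => (sn_eq _ _).trans_le (hC ⟨y, hy, rfl⟩)⟩

omit [FiniteDimensional ℝ Y] [FiniteDimensional ℝ E] in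
lemma supp_compact (h : Fam U G) {K : Set Y} (hK : IsCompact K) (hKU : K ⊆ U) :
    ∃ L, IsCompact L ∧ ∀ y ∈ K, ∀ z ∉ L, G y z = 0 := by
  refine hK.induction_on (p := fun s => ∃ L, IsCompact L ∧ ∀ y ∈ s, ∀ z ∉ L, G y z = 0)
    ⟨∅, isCompact_empty, fun _ h => h.elim⟩ (fun s t hst ⟨L, hL, h1⟩ =>
      ⟨L, hL, fun y hy => h1 y (hst hy)⟩) ?_ fun y hy => ?_
  · rintro s t ⟨L, hL, h1⟩ ⟨L', hL', h2⟩
    refine ⟨L ∪ L', hL.union hL', fun y hy z hz => ?_⟩
    rw [mem_union, not_or] at hz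
    exact hy.elim (fun a => h1 y a z hz.1) fun a => h2 y a z hz.2
  · obtain ⟨L, hL, h0⟩ := h.supp y (hKU hy)
    exact ⟨_, mem_nhdsWithin_of_mem_nhds h0, L, hL, fun _ h1 => h1⟩

variable [MeasurableSpace Y] [BorelSpace Y] {μ : Measure Y}

lemma meas (h : Fam U G) (hμ : ∀ᵐ y ∂μ, y ∈ U) : AEStronglyMeasurable (fun y => sch (G y)) μ := by
  haveI := FiniteDimensional.proper ℝ Y
  have := h.continuousOn.aestronglyMeasurable (μ := μ) h.isOpen.measurableSet
  rwa [Measure.restrict_eq_self_of_ae_mem hμ] at this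

/-- **PAR with seminorm bounds.** -/
theorem par_bd (h : Fam U G) (hμ : ∀ᵐ y ∂μ, y ∈ U)
    (hb : ∀ N, ∃ b : Y → ℝ, Integrable b μ ∧ ∀ᵐ y ∂μ, sn N (sch (G y)) ≤ b y) :
    (∀ z, sch (fun z => ∫ y, G y z ∂μ) z = ∫ y, G y z ∂μ) ∧ ∀ Λ : 𝓢(E, ℂ) →L[ℂ] B,
      Integrable (fun y => Λ (sch (G y))) μ ∧
        Λ (sch fun z => ∫ y, G y z ∂μ) = ∫ y, Λ (sch (G y)) ∂μ := by
  have hi : ST.SInt (fun y => sch (G y)) μ :=
    ST.SInt.of_sn (h.meas hμ) fun N => by simpa only [sn_eq] using hb N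
  have e : ∀ z, hi.int z = ∫ y, G y z ∂μ := fun z =>
    integral_congr_ae (hμ.mono fun y hy => sch_apply (h.dc hy) z)
  rw [sch_eq _ e]
  exact ⟨e, fun Λ => hi.clm (fun _ => rfl) Λ⟩

/-- **PAR on compact parameter sets.** -/
theorem par (h : Fam U G) [IsFiniteMeasure μ] {K : Set Y} (hK : IsCompact K) (hKU : K ⊆ U)
    (hμ : ∀ᵐ y ∂μ, y ∈ K) (Λ : 𝓢(E, ℂ) →L[ℂ] B) :
    Dc (fun z => ∫ y, G y z ∂μ) ∧ Integrable (fun y => Λ (sch (G y))) μ ∧
      Λ (sch fun z => ∫ y, G y z ∂μ) = ∫ y, Λ (sch (G y)) ∂μ := by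
  obtain ⟨e, h1⟩ := h.par_bd (B := B) (hμ.mono fun y hy => hKU hy) fun N =>
    (h.bdd hK hKU N).elim fun C hC => ⟨fun _ => C, integrable_const _, hμ.mono hC⟩
  refine ⟨?_, h1 Λ⟩
  obtain ⟨L, hL, h0⟩ := h.supp_compact hK hKU
  refine dc_of_zero ?_ hL fun z hz => integral_eq_zero_of_ae (hμ.mono fun y hy => h0 y hy z hz)
  rw [← show (sch fun z => ∫ y, G y z ∂μ : E → ℂ) = _ from funext e]
  exact (sch _).smooth ⊤

/-- **PAR on intervals.** -/
theorem par_interval {U : Set ℝ} {G : ℝ → E → ℂ} (h : Fam U G) {a b : ℝ} (hab : uIcc a b ⊆ U)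
    (Λ : 𝓢(E, ℂ) →L[ℂ] B) : Dc (fun z => ∫ t in a..b, G t z) ∧
      Λ (sch fun z => ∫ t in a..b, G t z) = ∫ t in a..b, Λ (sch (G t)) := by
  haveI : IsFiniteMeasure (volume.restrict (uIoc a b)) :=
    inferInstanceAs (IsFiniteMeasure (volume.restrict (Ioc (min a b) (max a b))))
  have h1 := h.par (μ := volume.restrict (uIoc a b)) isCompact_uIcc hab
    ((ae_restrict_mem measurableSet_uIoc).mono fun _ ht => uIoc_subset_uIcc ht) Λ
  simp only [intervalIntegral.intervalIntegral_eq_integral_uIoc]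
  by_cases hle : a ≤ b
  · simpa [hle] using And.intro h1.1 h1.2.2
  · simp only [hle, if_false, neg_smul, one_smul]
    rw [sch_neg h1.1, map_neg, h1.2.2]
    exact ⟨dc_neg h1.1, rfl⟩

end Fam

/-! ## tensor products -/

/-- `H ↦ χ ((e z).1) H ((e z).2)` -/
def tenE (e : E'' ≃L[ℝ] E × E') (χ : 𝓢(E, ℂ)) : 𝓢(E', ℂ) →L[ℂ] 𝓢(E'', ℂ) :=
  SchwartzMap.compCLMOfContinuousLinearEquiv ℂ e ∘L ST.tensR χ

/-- `χ ↦ χ ((e z).1) H ((e z).2)` -/
def tenE' (e : E'' ≃L[ℝ] E × E') (H : 𝓢(E', ℂ)) : 𝓢(E, ℂ) →L[ℂ] 𝓢(E'', ℂ) :=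
  SchwartzMap.compCLMOfContinuousLinearEquiv ℂ e ∘L ST.tensL H

@[simp] lemma tenE_apply (e : E'' ≃L[ℝ] E × E') (χ : 𝓢(E, ℂ)) (H : 𝓢(E', ℂ)) (z : E'') :
    tenE e χ H z = χ (e z).1 * H (e z).2 := rfl

lemma tenE'_eq (e : E'' ≃L[ℝ] E × E') (χ : 𝓢(E, ℂ)) (H : 𝓢(E', ℂ)) :
    tenE' e H χ = tenE e χ H := rfl

lemma sch_comp {F : E → ℂ} (h : Dc F) (e : E' ≃L[ℝ] E) :
    sch (fun z => F (e z)) = SchwartzMap.compCLMOfContinuousLinearEquiv ℂ e (sch F) :=
  sch_eq _ fun z => sch_apply h (e z)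

lemma dc_tenE (e : E'' ≃L[ℝ] E × E') {χ : E → ℂ} {H : E' → ℂ} (h : Dc χ) (h' : Dc H) :
    Dc fun z => χ (e z).1 * H (e z).2 := dc_comp_cle (dc_tens h h') e

lemma sch_tenE (e : E'' ≃L[ℝ] E × E') {χ : E → ℂ} {H : E' → ℂ} (h : Dc χ) (h' : Dc H) :
    sch (fun z => χ (e z).1 * H (e z).2) = tenE e (sch χ) (sch H) :=
  sch_eq _ fun z => by rw [tenE_apply, sch_apply h, sch_apply h']

lemma tsupport_tenE (e : E'' ≃L[ℝ] E × E') (χ : 𝓢(E, ℂ)) (H : 𝓢(E', ℂ)) :
    tsupport (tenE e χ H) ⊆ {z | (e z).1 ∈ tsupport χ ∧ (e z).2 ∈ tsupport H} := by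
  refine closure_minimal (fun z hz => ?_)
    (((isClosed_tsupport _).prod (isClosed_tsupport _)).preimage e.continuous)
  have hz' : χ (e z).1 * H (e z).2 ≠ 0 := hz
  exact ⟨subset_tsupport _ (left_ne_zero_of_mul hz'), subset_tsupport _ (right_ne_zero_of_mul hz')⟩

lemma continuous_tenE [FiniteDimensional ℝ E] [FiniteDimensional ℝ E'] (e : E'' ≃L[ℝ] E × E') :
    Continuous fun q : 𝓢(E, ℂ) × 𝓢(E', ℂ) => tenE e q.1 q.2 :=
  (SchwartzMap.compCLMOfContinuousLinearEquiv ℂ e).continuous.comp ST.continuous_tens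

/-- The bilinear bound. -/
lemma sn_tenE (e : E'' ≃L[ℝ] E × E') (N : ℕ) : ∃ C, 0 ≤ C ∧ ∀ (χ : 𝓢(E, ℂ)) (H : 𝓢(E', ℂ)),
    sn N (tenE e χ H) ≤ C * sn N χ * sn N H := by
  set M := 1 + ‖(e : E'' →L[ℝ] E × E')‖
  set K := 1 + ‖(e.symm : E × E' →L[ℝ] E'')‖
  have h1 := norm_nonneg (e : E'' →L[ℝ] E × E')
  have h2 := norm_nonneg (e.symm : E × E' →L[ℝ] E'')
  refine ⟨2 ^ N * M ^ N * K ^ N * 8 ^ N, by positivity, fun χ H => ?_⟩
  simp only [sn_eq]
  refine (ST.sn_comp (e : E'' →L[ℝ] E × E') (M := M) (K := K) (by linarith) (by linarith)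
    (by linarith) (fun z => ?_) (ST.tens χ H) _ (fun _ => rfl) N).trans ?_
  · have := (e.symm : E × E' →L[ℝ] E'').le_opNorm (e z)
    simp only [ContinuousLinearEquiv.coe_coe, e.symm_apply_apply] at this ⊢
    nlinarith [norm_nonneg (e z)]
  · refine (mul_le_mul_of_nonneg_left (ST.sn_tens χ H N) (by positivity)).trans (le_of_eq ?_)
    ring

open ContinuousLinearMap (fst snd) in
variable (E) in
/-- `(z1, z2) ↦ (z1 - z2, z2)` -/
def sh2 : (E × E) ≃L[ℝ] E × E :=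
  .equivOfInverse ((fst ℝ E E - snd ℝ E E).prod (snd ℝ E E))
    ((fst ℝ E E + snd ℝ E E).prod (snd ℝ E E)) (fun z => by simp) fun z => by simp

open ContinuousLinearMap (fst snd) in
variable (E E') in
/-- `(z1, z2, z3) ↦ (z1 - z2, z2, z3)` -/
def sh3 : (E × E × E') ≃L[ℝ] E × E × E' :=
  .equivOfInverse ((fst ℝ E _ - fst ℝ E E' ∘L snd ℝ E _).prod (snd ℝ E _))
    ((fst ℝ E _ + fst ℝ E E' ∘L snd ℝ E _).prod (snd ℝ E _)) (fun z => by simp) fun z => by simp

open ContinuousLinearMap (fst snd) in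
variable (E E') in
/-- `(z1, z2, z3) ↦ (z1 - z3, z2, z3)` -/
def sh3' : (E × E' × E) ≃L[ℝ] E × E' × E :=
  .equivOfInverse ((fst ℝ E _ - snd ℝ E' E ∘L snd ℝ E _).prod (snd ℝ E _))
    ((fst ℝ E _ + snd ℝ E' E ∘L snd ℝ E _).prod (snd ℝ E _)) (fun z => by simp) fun z => by simp

open ContinuousLinearMap (fst snd) in
variable (E) in
/-- `(z1, z2, z3) ↦ (z2, z1 - z2, z3 - z2)`, with the inverse `(y, u, v) ↦ (y + u, y, y + v)` -/
def rd3 : (E × E × E) ≃L[ℝ] E × E × E :=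
  .equivOfInverse ((fst ℝ E E ∘L snd ℝ E _).prod ((fst ℝ E _ - fst ℝ E E ∘L snd ℝ E _).prod
      (snd ℝ E E ∘L snd ℝ E _ - fst ℝ E E ∘L snd ℝ E _)))
    ((fst ℝ E _ + fst ℝ E E ∘L snd ℝ E _).prod ((fst ℝ E _).prod
      (fst ℝ E _ + snd ℝ E E ∘L snd ℝ E _))) (fun z => by simp) fun z => by simp

@[simp] lemma sh2_apply (z : E × E) : sh2 E z = (z.1 - z.2, z.2) := rfl

@[simp] lemma sh2_symm (z : E × E) : (sh2 E).symm z = (z.1 + z.2, z.2) := rfl

@[simp] lemma sh3_apply (z : E × E × E') : sh3 E E' z = (z.1 - z.2.1, z.2) := rfl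

@[simp] lemma sh3_symm (z : E × E × E') : (sh3 E E').symm z = (z.1 + z.2.1, z.2) := rfl

@[simp] lemma sh3'_apply (z : E × E' × E) : sh3' E E' z = (z.1 - z.2.2, z.2) := rfl

@[simp] lemma sh3'_symm (z : E × E' × E) : (sh3' E E').symm z = (z.1 + z.2.2, z.2) := rfl

@[simp] lemma rd3_apply (z : E × E × E) : rd3 E z = (z.2.1, z.1 - z.2.1, z.2.2 - z.2.1) := rfl

@[simp] lemma rd3_symm (z : E × E × E) : (rd3 E).symm z = (z.1 + z.2.1, z.1, z.1 + z.2.2) := rfl

/-- `f ↦ χ (z1 - z2) f z2` -/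
def ten2 (χ : 𝓢(E, ℂ)) : 𝓢(E, ℂ) →L[ℂ] 𝓢(E × E, ℂ) := tenE (sh2 E) χ

/-- `H ↦ χ (z1 - z2) H (z2, z3)` -/
def ten3 (χ : 𝓢(E, ℂ)) : 𝓢(E × E', ℂ) →L[ℂ] 𝓢(E × E × E', ℂ) := tenE (sh3 E E') χ

/-- `H ↦ χ (z1 - z3) H (z2, z3)` -/
def ten3' (χ : 𝓢(E, ℂ)) : 𝓢(E' × E, ℂ) →L[ℂ] 𝓢(E × E' × E, ℂ) := tenE (sh3' E E') χ

/-- `φ ↦ ρ z2 φ (z1 - z2, z3 - z2)` -/
def red3 (ρ : 𝓢(E, ℂ)) : 𝓢(E × E, ℂ) →L[ℂ] 𝓢(E × E × E, ℂ) := tenE (rd3 E) ρ

@[simp] lemma ten2_apply (χ f : 𝓢(E, ℂ)) (z : E × E) : ten2 χ f z = χ (z.1 - z.2) * f z.2 := rfl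

@[simp] lemma ten3_apply (χ : 𝓢(E, ℂ)) (H : 𝓢(E × E', ℂ)) (z : E × E × E') :
    ten3 χ H z = χ (z.1 - z.2.1) * H z.2 := rfl

@[simp] lemma ten3'_apply (χ : 𝓢(E, ℂ)) (H : 𝓢(E' × E, ℂ)) (z : E × E' × E) :
    ten3' χ H z = χ (z.1 - z.2.2) * H z.2 := rfl

@[simp] lemma red3_apply (ρ : 𝓢(E, ℂ)) (φ : 𝓢(E × E, ℂ)) (z : E × E × E) :
    red3 ρ φ z = ρ z.2.1 * φ (z.1 - z.2.1, z.2.2 - z.2.1) := rfl

lemma ten3_tens (χ f : 𝓢(E, ℂ)) (g : 𝓢(E', ℂ)) (z : E × E × E') :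
    ten3 χ (ST.tens f g) z = ten2 χ f (z.1, z.2.1) * g z.2.2 := (mul_assoc _ _ _).symm

lemma sch_ten2 {χ f : E → ℂ} (h : Dc χ) (h' : Dc f) : Dc (fun z : E × E => χ (z.1 - z.2) * f z.2) ∧
    sch (fun z : E × E => χ (z.1 - z.2) * f z.2) = ten2 (sch χ) (sch f) :=
  ⟨dc_tenE (sh2 E) h h', sch_tenE (sh2 E) h h'⟩

lemma sch_ten3 {χ : E → ℂ} {H : E × E' → ℂ} (h : Dc χ) (h' : Dc H) :
    Dc (fun z : E × E × E' => χ (z.1 - z.2.1) * H z.2) ∧
      sch (fun z : E × E × E' => χ (z.1 - z.2.1) * H z.2) = ten3 (sch χ) (sch H) :=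
  ⟨dc_tenE (sh3 E E') h h', sch_tenE (sh3 E E') h h'⟩

lemma sch_ten3' {χ : E → ℂ} {H : E' × E → ℂ} (h : Dc χ) (h' : Dc H) :
    Dc (fun z : E × E' × E => χ (z.1 - z.2.2) * H z.2) ∧
      sch (fun z : E × E' × E => χ (z.1 - z.2.2) * H z.2) = ten3' (sch χ) (sch H) :=
  ⟨dc_tenE (sh3' E E') h h', sch_tenE (sh3' E E') h h'⟩

lemma sch_red3 {ρ : E → ℂ} {φ : E × E → ℂ} (h : Dc ρ) (h' : Dc φ) :
    Dc (fun z : E × E × E => ρ z.2.1 * φ (z.1 - z.2.1, z.2.2 - z.2.1)) ∧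
      sch (fun z : E × E × E => ρ z.2.1 * φ (z.1 - z.2.1, z.2.2 - z.2.1)) =
        red3 (sch ρ) (sch φ) :=
  ⟨dc_tenE (rd3 E) h h', sch_tenE (rd3 E) h h'⟩

section fib

variable [FiniteDimensional ℝ E] [MeasurableSpace E] [BorelSpace E] [SecondCountableTopology E]
  (μ : Measure E) [μ.HasTemperateGrowth]

/-- Fibre integration `F ↦ ∫ F (y + u, y, y + v) dy`. -/
def fib3 : 𝓢(E × E × E, ℂ) →L[ℂ] 𝓢(E × E, ℂ) :=
  pint μ ∘L SchwartzMap.compCLMOfContinuousLinearEquiv ℂ (rd3 E).symm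

@[simp] lemma fib3_apply (F : 𝓢(E × E × E, ℂ)) (z : E × E) :
    fib3 μ F z = ∫ y, F (y + z.1, y, y + z.2) ∂μ := rfl

lemma sch_fib3 {F : E × E × E → ℂ} (h : Dc F) :
    Dc (fun z : E × E => ∫ y, F (y + z.1, y, y + z.2) ∂μ) ∧
      sch (fun z : E × E => ∫ y, F (y + z.1, y, y + z.2) ∂μ) = fib3 μ (sch F) :=
  ⟨dc_int μ (dc_comp_cle h (rd3 E).symm), sch_eq _ fun z => by rw [fib3_apply, coe_sch h]⟩

end fib

end Vale.Agent.P352X.Api4
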