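import Vale.Agent.P352X.R.CTX
import Vale.Agent.P352.H246.Sub
import Vale.Agent.P352.H246.CfImpr2
import Vale.Agent.P352.H496.Enl2
import Vale.Agent.P352.H746.Chg2
import Vale.Agent.P352.H731.Top2
import Vale.Agent.P352.H755.ChJ
import Vale.Agent.P352.H496.SimC

/-!
# P352X: from the rows to conformal invariance
-/

set_option linter.all false

namespace Vale.Agent.P352X

open Vale.Agent.P352 Vale.Agent.P352.GF Vale.Agent.P352.BW Vale.Agent.P352.H246
open Vale.Agent.P352.H496 Vale.Agent.P352.H755 Vale.Agent.P352.H15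
open UniformSpace (Completion)

variable {D : Type*} [NormedAddCommGroup D] [InnerProductSpace ℂ D]

/-- a tempered distribution as a continuous linear map -/
noncomputable def Dist.clm {E H : Type*} [NormedAddCommGroup E] [NormedSpace ℝ E]
    [NormedAddCommGroup H] [NormedSpace ℂ H] {w : SchwartzMap E ℂ → H} (h : Dist w) :
    SchwartzMap E ℂ →L[ℂ] H := ⟨h.1.mk' w, h.2⟩

theorem TO2.tp2 {Q : Theory D} {T : Ix → Ix → Fld D} {e : Bool}
    {w : I2 → I2 → S2 → Completion D} (h : TO2 Q T e w) :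
    TP2 Q T e fun I J => (h.dist I J).clm where
  fac I J f g F hF hL := h.fac I J (ev f) (ev g) F ⟨f, rfl⟩ ⟨g, rfl⟩ hF hL
  swap I J F G hG := h.swap I J F G hG
  ind I J := ContinuousLinearMap.ext fun F => congrFun (h.ind I J) F
  cov s L a I J F G hs hL hG := h.cov s L a I J F G hs hL hG

theorem TO.tp' {Q : Theory D} {T : Ix → Ix → Fld D} {wp wm : I2 → I2 → S2 → Completion D}
    {t : I2 → I2 → I2 → S3 → ℂ} (h : TO Q T wp wm t) :
    TP Q T (fun I J => (h.tp.dist I J).clm) (fun I J => (h.tm.dist I J).clm)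
      fun I J K => (h.t3.dist I J K).clm where
  tp := h.tp.tp2
  tm := h.tm.tp2
  fac1 I J K f G F hF hL := h.fac1 I J K (ev f) G F ⟨f, rfl⟩ hF hL
  fac3 I J K G G' f F hF hG hL :=
    h.fac3 I J K G G' (ev f) F ⟨f, rfl⟩ hF (fun x y => hG (x, y)) hL
  swap1 I J K F G hG := h.t3.swap1 I J K F G hG
  swap2 I J K F G hG := h.t3.swap2 I J K F G hG
  ind I J K := ContinuousLinearMap.ext fun F => congrFun (h.t3.ind I J K) F
  cov s L a I J K F G hs hL hG h1 := h.t3.cov s L a I J K F G hs hL hG h1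

theorem final1 (h : ∀ (c : Ctx D) [Fact c.tp], G2 c ∧ (Rec c.Q → G3 c)) (Q : Theory D)
    (T : Ix → Ix → Fld D) (hT : Q.IsStress T) (A : (V → V) → D → D) (hA : ND.PCh Q T A)
    (hG : TfGen Q) (N : Set V → VonNeumannAlgebra (Completion D)) (hN : LNm Q A N) (hU : UVac Q)
    {wp wm t} (hP : TP Q T wp wm t) :
    (∃ l, IsPot Q T l ∧ ∀ ν, N86.WeakLoc Q fun f => l (pd ν f)) ∧
    (Rec Q → ∃ J, IsVirial Q T J ∧ ∀ Q' : Theory D, IsEnl Q Q' →
      IsImpr Q' T (improveJ T J) ∧ ConfAct Q' (improveJ T J)) := by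
  obtain ⟨c, rfl, rfl, e⟩ := ctx_row D Q T A N _ _ _ True hT hA hG hN hU fun _ => hP
  have : Fact c.tp := ⟨e ▸ trivial⟩
  refine ⟨⟨c.l, c.hl, (h c).1⟩, fun hR => ?_⟩
  obtain ⟨J, hJ, hc⟩ := (h c).2 hR
  refine ⟨J, hJ, fun Q' hE => ?_⟩
  have hT' := Vale.Agent.P352.H746.isStress_enl hE hT
  have hJ' := Vale.Agent.P352.H731.enl_virial hE hJ
  have hc' : Curl J Q'.vac := by
    rw [hE.vac]
    exact curl_of hc
  have h1 := Vale.Agent.P352.H246D.impr_of_curl hT' hJ' hc'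
  exact ⟨h1, conf_act (isT_of_impr h1 hT')⟩

theorem final (h : ∀ (c : Ctx D) [Fact c.tp], G2 c ∧ (Rec c.Q → G3 c)) (Q : Theory D)
    (T : Ix → Ix → Fld D) (hT : Q.IsStress T) (A : (V → V) → D → D) (hA : ND.PCh Q T A)
    (hG : TfGen Q) (N : Set V → VonNeumannAlgebra (Completion D)) (hN : LNm Q A N) (hU : UVac Q)
    (wp wm : I2 → I2 → S2 → Completion D) (t : I2 → I2 → I2 → S3 → ℂ)
    (hP : TO Q T wp wm t) :
    (∃ l, IsPot Q T l ∧ ∀ ν, N86.WeakLoc Q fun f => l (pd ν f)) ∧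
    (Rec Q → ∃ J, IsVirial Q T J ∧ ∀ Q' : Theory D, IsEnl Q Q' →
      IsImpr Q' T (improveJ T J) ∧ ConfAct Q' (improveJ T J)) :=
  final1 h Q T hT A hA hG N hN hU hP.tp'

/-- a context without time ordered products -/
theorem ctx0 (Q : Theory D) (T : Ix → Ix → Fld D) (hT : Q.IsStress T) (A : (V → V) → D → D)
    (hA : ND.PCh Q T A) (hG : TfGen Q) (N : Set V → VonNeumannAlgebra (Completion D))
    (hN : LNm Q A N) (hU : UVac Q) : ∃ c : Ctx D, c.Q = Q ∧ c.T = T :=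
  let ⟨c, h1, h2, _⟩ := ctx_row D Q T A N 0 0 0 False hT hA hG hN hU False.elim
  ⟨c, h1, h2⟩

end Vale.Agent.P352X
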