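import Vale.Agent.P352X.Hyp
import Vale.Agent.P352X.SN.Defs
import Vale.Agent.P352.BW.U
import Vale.Agent.P352.BW.H268.Grp1
import Vale.Agent.P352.BW.T.Spec
import Vale.Agent.P352.BW.T.TgDefs
import Vale.Agent.P352.BW.H649.LcDefs
import Vale.Agent.P352.H746.Nrt
import Vale.Agent.P352.ND.Defs

/-!
# P352X: vocabulary and the context bundle (see notes/P352/blueprint.md, section 0)
-/

set_option linter.all false

open MeasureTheory Filter Topology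
open scoped SchwartzMap ComplexConjugate ENNReal ContDiff

namespace Vale.Agent.P352X

open Vale.Agent.P352 Vale.Agent.P352.GF Vale.Agent.P352.BW Vale.Agent.P352.H246
open Vale.Agent.P352.H496 Vale.Agent.P352.H755 Vale.Agent.P352.H15
open Vale.Agent.P132 (ModData jconj)
open UniformSpace (Completion)
open Complex (I)

noncomputable section

/-! ## coordinates -/

/-- transverse vectors -/
abbrev R2 := Fin 2 → ℝ

/-- the null plane with coordinates `(al, x)`, also `(p_a, q)` -/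
abbrev P3 := ℝ × R2

def va : V := ![1, 1, 0, 0]
def vb : V := ![1 / 2, -(1 / 2), 0, 0]
/-- `z = al a + be b + x`; for momenta `al p = p_b` -/
def al (z : V) : ℝ := mdot vb z
/-- for momenta `be p = p_a` -/
def be (z : V) : ℝ := mdot va z
def tx (z : V) : R2 := ![z 2, z 3]
def pt (α β : ℝ) (x : R2) : V := ![α + β / 2, α - β / 2, x 0, x 1]
def tv (x : R2) : V := pt 0 0 x
/-- transverse unit vectors -/
def e2 (i : Fin 2) : R2 := Pi.single i 1
def ex (i : Fin 2) : V := tv (e2 i)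
/-- euclidean product of transverse vectors -/
def d2 (x y : R2) : ℝ := x 0 * y 0 + x 1 * y 1
def pl (z : V) : P3 := (al z, tx z)
def pm (p : V) : P3 := (be p, tx p)
def mu (p : V) : ℝ := mdot p p
/-- `n_p(h) = 2 (h.p)^2 - p^2 h^2` -/
def nn (p h : V) : ℝ := 2 * mdot h p ^ 2 - mu p * mdot h h
/-- the reflection `j` -/
def jr (z : V) : V := pt (-al z) (-be z) (tx z)
/-- the signs of `j` on the coordinate axes -/
def sj (m : Ix) : ℝ := ![-1, -1, 1, 1] m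
/-- `j L j` -/
def jL (L : Ix → V) : Ix → V := fun m n => sj m * sj n * L m n
/-- `(al, be, x) ↦ (r al, s be, sqrt (r s) x)` -/
def scp (r s : ℝ) (z : V) : V := pt (r * al z) (s * be z) (Real.sqrt (r * s) • tx z)
/-- the point map of `G_w` -/
def gap (w : R2) (z : V) : V := pt (al z + d2 w (tx z) + d2 w w * be z / 2) (be z) (tx z + be z • w)
/-- the point map of `G^b_s` -/
def gbp (s : ℝ) (z : V) : V :=
  pt (al z) (be z + s * tx z 0 + s ^ 2 * al z / 2) (tx z + (s * al z) • e2 0)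
/-- the causal hull: points that are not spacelike to all points of `K` -/
def Jc (K : Set V) : Set V := {z | ∃ x ∈ K, 0 ≤ mdot (z - x) (z - x)}
/-- double cones -/
def dc (y : V) (r : ℝ) : Set V := {z | z - (y - bas o r) ∈ Fc ∧ (y + bas o r) - z ∈ Fc}
/-- translated forward cut cones -/
def Rc (c : ℝ) (y : V) : Set V := {z | z - y ∈ HM.Rg va vb c}

/-! ## functions -/

/-- derivative in the direction `h` -/
def dv (h : V) (f : Fn) : Fn := fun x => ∑ m, (h m : ℂ) * pd m f x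
/-- Fourier transform, Minkowski convention -/
def ft (f : Fn) (p : V) : ℂ := ∫ z, f z * Complex.exp (I * mdot p z)
def ft3 (g : P3 → ℂ) (k : P3) : ℂ := ∫ y : P3, g y * Complex.exp (I * (y.1 * k.1 - d2 y.2 k.2 : ℝ))
def ft1 (φ : ℝ → ℂ) (k : ℝ) : ℂ := ∫ t : ℝ, φ t * Complex.exp (I * (t * k : ℝ))
/-- `g(al, x) φ(be)` -/
def pf (g : P3 → ℂ) (φ : ℝ → ℂ) : Fn := fun z => g (pl z) * φ (be z)
/-- real functions as complex functions -/
def cx {α : Type*} (f : α → ℝ) : α → ℂ := fun x => f x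
/-- `g(al, x) φ(be)`, real -/
def pr (g : P3 → ℝ) (φ : ℝ → ℝ) : Fn := fun z => ((g (pl z) * φ (be z) : ℝ) : ℂ)
/-- `κ(al / L, x / sqrt L)` -/
def kL (κ : P3 → ℝ) (L : ℝ) (y : P3) : ℝ := κ (y.1 / L, (Real.sqrt L)⁻¹ • y.2)
def dil (s : ℝ) (φ : ℝ → ℝ) : ℝ → ℝ := fun t => φ (t / s)
/-- `ρ(t / δ) / δ` -/
def dlt (δ : ℝ) (ρ : ℝ → ℝ) : ℝ → ℝ := fun t => ρ (t / δ) / δ
/-- smooth functions with compact support, complex valued -/
def Dc {E : Type*} [NormedAddCommGroup E] [NormedSpace ℝ E] (f : E → ℂ) : Prop :=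
  ContDiff ℝ ∞ f ∧ HasCompactSupport f
/-- cutoffs: smooth, compact support, equal to one near the origin -/
def Cut {E : Type*} [NormedAddCommGroup E] [NormedSpace ℝ E] (κ : E → ℝ) : Prop :=
  Tst κ ∧ ∀ᶠ y in 𝓝 (0 : E), κ y = 1
/-- even plateau functions -/
def Bump (θ : ℝ → ℝ) : Prop := Tst θ ∧ (∀ t, θ (-t) = θ t) ∧ ∀ t, |t| ≤ 1 → θ t = 1
/-- `-t θ'(t)` on `t > 0` -/
def chp (θ : ℝ → ℝ) (t : ℝ) : ℝ := if 0 < t then -t * deriv θ t else 0
/-- `-t θ'(t)` on `t < 0` -/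
def chm (θ : ℝ → ℝ) (t : ℝ) : ℝ := if t < 0 then -t * deriv θ t else 0
/-- the part of `θ1` above the plane, cut at height `δ` -/
def abv (θ1 θ : ℝ → ℝ) (δ t : ℝ) : ℝ := if 0 < t then θ1 t * (1 - θ (t / δ)) else 0
/-- the part of `θ1` below the plane, cut at depth `δ` -/
def blw (θ1 θ : ℝ → ℝ) (δ t : ℝ) : ℝ := if t < 0 then θ1 t * (1 - θ (t / δ)) else 0
/-- test functions on the line that vanish near zero -/
def D0 (φ : ℝ → ℝ) : Prop := Tst φ ∧ (0 : ℝ) ∉ tsupport φ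
/-- tensor test function `h_m k_n f` (lower indices) -/
def hk (h k : V) (f : Fn) : Ix → Ix → Fn := fun m n x =>
  ((eta m * h m * (eta n * k n) : ℝ) : ℂ) * f x
/-- charge densities `χ ∂_m Ξ X_n` -/
def dens (χ Ξ : V → ℝ) (X : V → V) : Ix → Ix → Fn := fun m n x =>
  ((χ x * dr m Ξ x * (eta n * X x n) : ℝ) : ℂ)
/-- `χ dΞ` is a charge density for the compact set `K` -/
def Chg (K : Set V) (χ Ξ : V → ℝ) : Prop := Tst χ ∧ ContDiff ℝ ∞ Ξ ∧
  (∃ R, ∀ z ∈ Jc K, (R ≤ z o → ∀ᶠ x in 𝓝 z, Ξ x = 1) ∧ (z o ≤ -R → ∀ᶠ x in 𝓝 z, Ξ x = 0)) ∧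
  ∀ z ∈ Jc K, (∀ᶠ x in 𝓝 z, χ x = 1) ∨ ∀ᶠ x in 𝓝 z, Ξ x = Ξ z
/-- plane densities `h_m X_n g` -/
def hX (h : V) (X : V → V) (g : Fn) : Ix → Ix → Fn := fun m n x =>
  ((eta m * h m * (eta n * X x n) : ℝ) : ℂ) * g x
/-- infinitesimal special conformal transformation on test functions of fields of dimension `Δ` -/
def Kc (Δ : ℝ) (f : Fn) : Fn := fun z =>
  -∑ m, (cK va z m : ℂ) * pd m f z + ((2 * Δ - 8) * be z : ℝ) * f z
/-- `x_i ∂_al + be ∂_i` -/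
def Mc (i : Fin 2) (f : Fn) : Fn := fun z =>
  (tx z i : ℝ) * dv va f z + (be z : ℝ) * dv (ex i) f z
/-- `al ∂_al - be ∂_be` -/
def Bc (f : Fn) : Fn := fun z => (al z : ℝ) * dv va f z - (be z : ℝ) * dv vb f z
/-- `x_1 ∂_be + al ∂_1` -/
def Mb (f : Fn) : Fn := fun z => (tx z 0 : ℝ) * dv vb f z + (al z : ℝ) * dv (ex 0) f z
/-- `al ^ j g` -/
def ap (j : ℕ) (g : P3 → ℝ) : P3 → ℝ := fun y => y.1 ^ j * g y
/-- `k(al) k'(x)` -/
def k3 (k : ℝ → ℝ) (k' : R2 → ℝ) : P3 → ℝ := fun y => k y.1 * k' y.2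
/-- `(x2 - x1).(x2 - x3) (al1 - al3)^2` -/
def Ph0 (z1 z2 z3 : V) : ℝ := d2 (tx z2 - tx z1) (tx z2 - tx z3) * (al z1 - al z3) ^ 2
/-- the transverse derivative of `κ` at `y` in the direction `w` -/
def dx (κ : P3 → ℝ) (y : P3) (w : R2) : ℝ := fderiv ℝ κ y (0, w)
/-- the polynomial `p^2` -/
def mup : MvPolynomial Ix ℂ := ∑ m, MvPolynomial.C (eta m : ℂ) * MvPolynomial.X m ^ 2
/-- evaluation of polynomials at real points -/
def evp (q : MvPolynomial Ix ℂ) (p : V) : ℂ := MvPolynomial.eval (fun m => (p m : ℂ)) q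
/-- Schwartz seminorms -/
def sn {E : Type*} [NormedAddCommGroup E] [NormedSpace ℝ E] (m : ℕ) (f : 𝓢(E, ℂ)) : ℝ :=
  (Finset.Iic (m, m)).sup (fun k => SchwartzMap.seminorm ℂ k.1 k.2) f

open Classical in
/-- the Schwartz function with the values of `F`, if there is one -/
def sch {E : Type*} [NormedAddCommGroup E] [NormedSpace ℝ E] (F : E → ℂ) : 𝓢(E, ℂ) :=
  if h : ∃ G : 𝓢(E, ℂ), ∀ x, G x = F x then h.choose else 0

/-! ## Hilbert space notions -/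

section hilbert

variable {H : Type*} [NormedAddCommGroup H] [InnerProductSpace ℂ H] [CompleteSpace H]

/-- `k = A ψ` where `W t = exp (i t A)` -/
def Gn (W : ℝ → H →L[ℂ] H) (ψ k : H) : Prop := HasDerivAt (fun t => W t ψ) (I • k) 0
/-- the domain of the generator -/
def Dm (W : ℝ → H →L[ℂ] H) (ψ : H) : Prop := DifferentiableAt ℝ (fun t => W t ψ) 0
/-- the generator -/
def gen (W : ℝ → H →L[ℂ] H) (ψ : H) : H := -I • deriv (fun t => W t ψ) 0
/-- pairs `(X ξ, X* ξ)` in the weak sense -/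
def Pr (M : VonNeumannAlgebra H) (ξ ψ ψ' : H) : Prop :=
  ∀ Z ∈ M.commutant, inner ℂ (star Z ξ) ψ = inner ℂ ψ' (Z ξ)

end hilbert

variable {D : Type*} [NormedAddCommGroup D] [InnerProductSpace ℂ D]

open Classical in
/-- the similitudes as bounded operators -/
def Ug (Q : Theory D) (s : ℝ) (L : Ix → V) (a : V) : Completion D →L[ℂ] Completion D :=
  if h : 0 < s ∧ IsLor L then (ueC Q h.1 h.2 a).toContinuousLinearMap else 1

lemma Ug_apply (Q : Theory D) {s : ℝ} {L : Ix → V} (hs : 0 < s) (hL : IsLor L) (a : V)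
    (z : Completion D) : Ug Q s L a z = Ue Q s L a z := by
  rw [Ug, dif_pos ⟨hs, hL⟩]
  rfl

/-- translations -/
def Ut (Q : Theory D) (y : V) : Completion D →L[ℂ] Completion D := Ug Q 1 GF.one y
/-- `U(sc(r,s))` -/
def Usc (Q : Theory D) (r s : ℝ) : Completion D →L[ℂ] Completion D :=
  Ug Q (Real.sqrt (r * s)) (bst va vb (Real.sqrt (r / s) - 1) (Real.sqrt (s / r) - 1)) 0
/-- null rotations `G_w` that fix `a` -/
def Ga (Q : Theory D) (w : R2) : Completion D →L[ℂ] Completion D :=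
  Ug Q 1 (H746.nrt va (tv ((1 / 2 : ℝ) • w))) 0
/-- null rotations `G^b_s` that fix `b` -/
def Gb (Q : Theory D) (s : ℝ) : Completion D →L[ℂ] Completion D :=
  Ug Q 1 (H746.nrt vb (tv ((s / 2) • e2 0))) 0
/-- boosts `exp (i t B)`, velocity `al a - be b` -/
def Bo (Q : Theory D) (t : ℝ) : Completion D →L[ℂ] Completion D :=
  Usc Q (Real.exp t) (Real.exp (-t))
/-- `exp (i t P)`, `P = p_a` -/
def Pa (Q : Theory D) (t : ℝ) : Completion D →L[ℂ] Completion D := Ut Q (t • va)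
/-- `exp (i t P_b)` -/
def Pb (Q : Theory D) (t : ℝ) : Completion D →L[ℂ] Completion D := Ut Q (t • vb)
/-- `exp (i t M_i)` -/
def Mi (Q : Theory D) (i : Fin 2) (t : ℝ) : Completion D →L[ℂ] Completion D := Ga Q (t • e2 i)

/-- the pairing of `(p, m)` with `(t, w)` -/
def pr3 (k y : P3) : ℝ := k.1 * y.1 + d2 k.2 y.2

/-- **The context**: the hypotheses of the theorem and the objects constructed from them. -/
structure Ctx (D : Type*) [NormedAddCommGroup D] [InnerProductSpace ℂ D] where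
  Q : Theory D
  T : Ix → Ix → Fld D
  A : (V → V) → D → D
  N : Set V → VonNeumannAlgebra (Completion D)
  S : V → ℝ → Completion D →L[ℂ] Completion D
  l : Fn → Completion D
  E : ModData (N (Wdg va vb 0)) (om Q)
  wp : I2 → I2 → S2 →L[ℂ] Completion D
  wm : I2 → I2 → S2 →L[ℂ] Completion D
  t : I2 → I2 → I2 → S3 →L[ℂ] ℂ
  bt : SN.BC (fun p y : V => mdot p y) (fun y z => Ut Q y z)
  a3 : SN.BC pr3 (fun (y : P3) z => Ut Q (y.1 • va) (Ga Q y.2 z))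
  hT : Q.IsStress T
  hP : ND.PCh Q T A
  hG : TfGen Q
  hN : LNm Q A N
  hU : UVac Q
  hS : Grp1 Q N S
  pos : ∀ a (z w : Completion D), IsNull a → Gn (S a) z w → 0 ≤ (inner ℂ z w).re
  hl : IsPot Q T l
  wl : ∀ L a f X X', IsLor L → In (Wed L a 1) f → Al Q (Wed L a (-1)) X X' →
    inner ℂ ((X' Q.vac : D) : Completion D) (l f) =
      inner ℂ (l (bar f)) ((X Q.vac : D) : Completion D)
  bw : ∀ t z, E.U t z = Bo Q (-(2 * Real.pi * t)) z
  tp : Prop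
  hTP0 : tp → TP Q T wp wm t

namespace Ctx

variable (c : Ctx D)

theorem hTP [h : Fact c.tp] : TP c.Q c.T c.wp c.wm c.t := c.hTP0 h.out

abbrev Om : Completion D := om c.Q
abbrev J : Completion D ≃ₗᵢ⋆[ℂ] Completion D := c.E.J
/-- `exp (i t K)` -/
abbrev SK : ℝ → Completion D →L[ℂ] Completion D := c.S va
/-- `exp (i t K_y)` -/
def Ky (y : V) (t : ℝ) : Completion D →L[ℂ] Completion D := Ut c.Q y * c.S va t * Ut c.Q (-y)
/-- `exp (i t M^2 / P)` -/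
def S0 (t : ℝ) : Completion D →L[ℂ] Completion D :=
  c.a3.Phi fun k => Complex.exp (I * (t * (d2 k.2 k.2 / k.1) : ℝ))
/-- `exp (i t Kt)` -/
def Sk (t : ℝ) : Completion D →L[ℂ] Completion D := c.S va t * c.S0 (-t)
/-- spectral measures of the translations -/
abbrev nu (v : Completion D) : Measure V := c.bt.nu v
/-- the form of `P_b` -/
def qb (v : Completion D) : ℝ≥0∞ := ∫⁻ p, ENNReal.ofReal (al p) ∂c.nu v
/-- `T^{mn}(F_mn)` -/
def Tf (F : Ix → Ix → Fn) (v : D) : D := ∑ m, ∑ n, c.T m n (F m n) v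
def Tv (F : Ix → Ix → Fn) : Completion D := (c.Tf F c.Q.vac : D)
/-- the trace -/
def Thf (f : Fn) (v : D) : D := GF.tr c.T f v
def Th (f : Fn) : Completion D := (c.Thf f c.Q.vac : D)
/-- `X` is smooth in norm under the boosts, the translations along `b` and the null rotations
that fix `b` -/
def Good (X : Completion D →L[ℂ] Completion D) : Prop :=
  ContDiff ℝ ∞ fun q : ℝ × ℝ × ℝ => Bo c.Q q.1 * Pb c.Q q.2.1 * Gb c.Q q.2.2 * X *
    Gb c.Q (-q.2.2) * Pb c.Q (-q.2.1) * Bo c.Q (-q.1)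
/-- the group generated by `B`, `P_b`, `M^b` -/
def gq (q : ℝ × ℝ × ℝ) : Completion D →L[ℂ] Completion D :=
  Bo c.Q q.1 * Pb c.Q q.2.1 * Gb c.Q q.2.2
/-- the defect of locality of the potential -/
def bb (Z : Completion D →L[ℂ] Completion D) (f : Fn) : ℂ :=
  inner ℂ (star Z c.Om) (c.l f) - inner ℂ (c.l (bar f)) (Z c.Om)
/-- the form `ω(T(h,k)(g))` between `Y* Ω` and `X Ω`, with `w = Y X Ω`, `w' = X* Y* Ω` -/
def om2 (w w' : Completion D) (χ : ℝ → ℝ) (F : Ix → Ix → Fn) : ℂ :=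
  inner ℂ (c.Tv fun m n z => (χ (al z) : ℝ) * bar (F m n) z) w +
    inner ℂ w' (c.Tv fun m n z => (1 - χ (al z) : ℝ) * F m n z)
/-- `⟨T(Θ T_aa Θ)⟩` -/
def t0 (F : S3) : ℂ := ∑ m, ∑ k, ∑ l, ∑ n,
  ((eta m * (eta k * va k) * (eta l * va l) * eta n : ℝ) : ℂ) * c.t (m, m) (k, l) (n, n) F
/-- the plane form of the weight `(x - x_A).(x - x_B)` between `fA` (above) and `fB` (below) -/
def PF (fA fB : Fn) : ℂ :=
  inner ℂ (c.Th (bar fA)) (gen c.SK (c.Th fB)) -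
    ∑ i, (inner ℂ (c.Th (bar fun z => (tx z i : ℝ) * fA z)) (gen (Mi c.Q i) (c.Th fB)) +
      inner ℂ (c.Th (bar fA)) (gen (Mi c.Q i) (c.Th fun z => (tx z i : ℝ) * fB z))) +
    ∑ i, inner ℂ (c.Th (bar fun z => (tx z i : ℝ) * fA z))
      (gen (Pa c.Q) (c.Th fun z => (tx z i : ℝ) * fB z))

/-- the four faces -/
def Faces (ρ1 κ3 : P3 → ℝ) (θ : ℝ → ℝ) (ε δ : ℝ) : ℂ := ∑ j : Fin 3, (![1, -2, 1] j : ℂ) *
  (c.PF (pr (ap (2 - j) ρ1) (dil ε (chp θ))) (pr (ap j κ3) (blw (dil ε θ) θ δ)) +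
    c.PF (pr (ap j κ3) (abv (dil ε θ) θ δ)) (pr (ap (2 - j) ρ1) (dil ε (chm θ))) +
    c.PF (pr (ap (2 - j) ρ1) (abv (dil ε θ) θ δ)) (pr (ap j κ3) (dil ε (chm θ))) +
    c.PF (pr (ap j κ3) (dil ε (chp θ))) (pr (ap (2 - j) ρ1) (blw (dil ε θ) θ δ)))

/-- distributions on test functions with compact support, with values in the Hilbert space,
covariant under the translations, the null rotations `G_w` and the scalings -/
structure Cov2 (φ : Fn → Completion D) (x y : ℝ) : Prop where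
  lin : ∀ (f g : Fn) (a : ℂ), In Set.univ f → In Set.univ g →
    φ (fun z => f z + a * g z) = φ f + a • φ g
  bd : ∀ K : Set V, IsCompact K → ∃ (m : ℕ) (C : ℝ), ∀ g : Sch, tsupport g ⊆ K →
    ‖φ (ev g)‖ ≤ C * sn m g
  tra : ∀ a f, In Set.univ f → Ut c.Q a (φ fun z => f (z + a)) = φ f
  rot : ∀ w f, In Set.univ f → Ga c.Q w (φ fun z => f (gap w z)) = φ f
  sca : ∀ r s f, 0 < r → 0 < s → In Set.univ f →
    Usc c.Q r s (φ fun z => f (scp r s z)) = ((r ^ x * s ^ y : ℝ) : ℂ) • φ f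
  perp : ∀ f, In Set.univ f → inner ℂ c.Om (φ f) = 0

end Ctx

/-- the divergence in the first slot -/
def dv1 (w : I2 → I2 → S2 →L[ℂ] Completion D) (n : Ix) (J : I2) (G : S2) : Completion D :=
  ∑ m, w (m, n) J (LineDeriv.lineDerivOp ((bas m 1, 0) : V × V) G)

/-- derivatives transverse to the diagonal, restricted to the diagonal -/
def dg {k : ℕ} (γ : Fin k → Ix) (G : S2) : Sch :=
  sch fun z => iteratedFDeriv ℝ k (fun u : V => G (z + u, z)) 0 fun i => bas (γ i) 1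

/-- the index `(n, j1, j2, γ)` -/
def ix3 {k : ℕ} (n : Ix) (J : I2) (γ : Fin k → Ix) : Fin (k + 3) → Ix :=
  Matrix.vecCons n (Matrix.vecCons J.1 (Matrix.vecCons J.2 γ))

/-- `w(T_aa, Θ)` -/
def w0 (w : I2 → I2 → S2 →L[ℂ] Completion D) (F : S2) : Completion D := ∑ k, ∑ l, ∑ n,
  ((eta k * va k * (eta l * va l) * eta n : ℝ) : ℂ) • w (k, l) (n, n) F

/-- multiplets that are covariant up to multiples of the vacuum -/
structure CovM (Q : Theory D) (k : ℕ) (d : ℝ) (O : (Fin k → Ix) → Sch →L[ℂ] Completion D) :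
    Prop where
  cov : ∀ μ s L a (f g : Sch), 0 < s → IsLor L → (∀ x, g x = f (sim s L a x)) → ∃ κ : ℂ,
    O μ f = ∑ ν : Fin k → Ix, ((s ^ (4 - d) * ∏ i, L (ν i) (μ i) : ℝ) : ℂ) •
      Ue Q s L a (O ν g) + κ • om Q

/-- the potential in momentum space -/
structure Ell (c : Ctx D) (ell : (V → ℂ) → Completion D) (c0 : ℝ) : Prop where
  nonneg : 0 ≤ c0
  lin : ∀ ψ ψ' (a : ℂ), MemLp ψ 2 (volume.restrict Fc) → MemLp ψ' 2 (volume.restrict Fc) →
    ell (fun p => ψ p + a * ψ' p) = ell ψ + a • ell ψ'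
  inn : ∀ ψ ψ', MemLp ψ 2 (volume.restrict Fc) → MemLp ψ' 2 (volume.restrict Fc) →
    inner ℂ (ell ψ) (ell ψ') = c0 * ∫ p in Fc, conj (ψ p) * ψ' p
  pot : ∀ f, IsTest f → ell (ft f) = c.l f
  th : ∀ f, IsTest f → c.Th f = (-3 : ℂ) • ell fun p => (mu p : ℝ) * ft f p
  phi : ∀ g ψ, SN.Bd g → MemLp ψ 2 (volume.restrict Fc) →
    c.bt.Phi g (ell ψ) = ell fun p => g p * ψ p
  cov : ∀ s L a ψ ψ', 0 < s → IsLor L → MemLp ψ 2 (volume.restrict Fc) →
    (∀ p, ψ' (sim 1 L 0 p) =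
      (s ^ 2 : ℝ) * Complex.exp (I * mdot (sim 1 L 0 p) a) * ψ (s • p)) →
    Ug c.Q s L a (ell ψ) = ell ψ'
  s0 : ∀ (t : ℝ) (g g' : 𝓢(P3, ℂ)) (φ : ℝ → ℝ → ℂ), Measurable (Function.uncurry φ) →
    (∀ y : P3, g' y = g (y.1 - t * d2 y.2 y.2, y.2)) →
    MemLp (fun p => ft3 g (pm p) * φ (be p) (mu p)) 2 (volume.restrict Fc) →
    MemLp (fun p => ft3 g' (pm p) * φ (be p) (mu p)) 2 (volume.restrict Fc) ∧
    c.S0 t (ell fun p => ft3 g (pm p) * φ (be p) (mu p)) =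
      ell fun p => ft3 g' (pm p) * φ (be p) (mu p)

/-- `Tht(γ, φ) = -3 ell(μ γ(p_a, q) φ^(μ / 2 p_a))` -/
def Tht (ell : (V → ℂ) → Completion D) (γ : P3 → ℂ) (φ : ℝ → ℝ) : Completion D :=
  (-3 : ℂ) • ell fun p => (mu p : ℝ) * γ (pm p) * ft1 (cx φ) (mu p / (2 * be p))

/-- the measure `p^2 dp d^2q` on `p > 0` -/
def m3 : Measure P3 :=
  (volume.restrict {k : P3 | 0 < k.1}).withDensity fun k => ENNReal.ofReal (k.1 ^ 2)

/-- the form of `Kt` on the vectors `Tht` -/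
structure Schur (c : Ctx D) (ell : (V → ℂ) → Completion D) (cc : (ℝ → ℝ) → (ℝ → ℝ) → ℂ)
    (dd : (ℝ → ℝ) → ℝ) : Prop where
  dom : ∀ γ φ, MemLp γ 2 m3 → D0 φ → Dm c.Sk (Tht ell γ φ)
  form : ∀ γ' φ' γ φ, MemLp γ' 2 m3 → D0 φ' → MemLp γ 2 m3 → D0 φ →
    inner ℂ (Tht ell γ' φ') (gen c.Sk (Tht ell γ φ)) = cc φ' φ * ∫ k, conj (γ' k) * γ k ∂m3
  nrm : ∀ γ φ, MemLp γ 2 m3 → D0 φ →
    ‖gen c.Sk (Tht ell γ φ)‖ ^ 2 = dd φ * ∫ k, ‖γ k‖ ^ 2 ∂m3
  scc : ∀ φ' φ s, D0 φ' → D0 φ → 0 < s → cc (dil s φ') (dil s φ) = cc φ' φ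
  sdd : ∀ φ s, D0 φ → 0 < s → dd (dil s φ) = s * dd φ
  cont : ∀ φ' φ, D0 φ' → D0 φ → ContinuousOn (fun s => cc (dil s φ') φ) (Set.Ioi 0)
  int : ∀ φ' φ, D0 φ' → D0 φ →
    IntegrableOn (fun s : ℝ => cc (dil s φ') φ / s) (Set.Ioi 0)

/-- `Y(φ', φ) = ∫ cc(φ'_s, φ) ds / s` -/
def YY (cc : (ℝ → ℝ) → (ℝ → ℝ) → ℂ) (φ' φ : ℝ → ℝ) : ℂ :=
  ∫ s in Set.Ioi (0 : ℝ), cc (dil s φ') φ / s

end

end Vale.Agent.P352X
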