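import Vale.Agent.P352X.Pub

open MeasureTheory Filter Topology
open scoped SchwartzMap

namespace Vale.Agent.P352X

open Vale.Agent.P352 Vale.Agent.P352.GF Vale.Agent.P352.BW
open UniformSpace (Completion)

noncomputable section

variable {D : Type*} [NormedAddCommGroup D] [InnerProductSpace ℂ D]

/-- `w I J` is the time ordered (`e = true`) or the anti-time ordered (`e = false`) product of the
components `I` and `J` of `T`, applied to the vacuum: a tempered distribution, symmetric, causally
factorizing, and covariant under the similitudes up to multiples of the vacuum. -/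
structure TP2 (Q : Theory D) (T : Ix → Ix → Fld D) (e : Bool)
    (w : I2 → I2 → S2 →L[ℂ] Completion D) : Prop where
  fac : ∀ I J (f g : Sch) (F : S2), (∀ x y, F (x, y) = f x * g y) →
    Late (tsupport f) (tsupport g) → w I J F =
      ((if e then T I.1 I.2 (ev f) (T J.1 J.2 (ev g) Q.vac)
        else T J.1 J.2 (ev g) (T I.1 I.2 (ev f) Q.vac) : D) : Completion D)
  swap : ∀ I J (F G : S2), (∀ x y, G (x, y) = F (y, x)) → w I J F = w J I G
  ind : ∀ I J, w I J = w I.swap J
  cov : ∀ s L a I J (F G : S2), 0 < s → IsLor L →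
    (∀ x y, G (x, y) = F (sim s L a x, sim s L a y)) → ∃ κ : ℂ,
      w I J F = ∑ K, ∑ M, (L2 L K I * L2 L M J) • Ue Q s L a (w K M G) + κ • om Q

/-- **Time ordered products of the stress tensor.** `wp` and `wm` are the time ordered and the
anti-time ordered products of two components of `T`, applied to the vacuum, and `t` is the vacuum
expectation value of the time ordered product of three components: a tempered distribution,
symmetric, causally factorizing, Poincare covariant, and dilation covariant off the diagonal. -/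
structure TP (Q : Theory D) (T : Ix → Ix → Fld D) (wp wm : I2 → I2 → S2 →L[ℂ] Completion D)
    (t : I2 → I2 → I2 → S3 →L[ℂ] ℂ) : Prop where
  tp : TP2 Q T true wp
  tm : TP2 Q T false wm
  fac1 : ∀ I J K (f : Sch) (G : S2) (F : S3), (∀ x y z, F (x, y, z) = f x * G (y, z)) →
    Late (tsupport f) (Prod.fst '' tsupport G ∪ Prod.snd '' tsupport G) →
      t I J K F = inner ℂ ((T I.1 I.2 (bar (ev f)) Q.vac : D) : Completion D) (wp J K G)
  fac3 : ∀ I J K (G G' : S2) (f : Sch) (F : S3), (∀ x y z, F (x, y, z) = G (x, y) * f z) →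
    (∀ x, G' x = star (G x)) →
    Late (Prod.fst '' tsupport G ∪ Prod.snd '' tsupport G) (tsupport f) →
      t I J K F = inner ℂ (wm I J G') ((T K.1 K.2 (ev f) Q.vac : D) : Completion D)
  swap1 : ∀ I J K (F G : S3), (∀ x y z, G (x, y, z) = F (y, x, z)) → t I J K F = t J I K G
  swap2 : ∀ I J K (F G : S3), (∀ x y z, G (x, y, z) = F (x, z, y)) → t I J K F = t I K J G
  ind : ∀ I J K, t I J K = t I.swap J K
  cov : ∀ s L a I J K (F G : S3), 0 < s → IsLor L →
    (∀ x y z, G (x, y, z) = F (sim s L a x, sim s L a y, sim s L a z)) →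
    (s = 1 ∨ ∀ x, (x, x, x) ∉ tsupport F) →
      t I J K F = ∑ I', ∑ J', ∑ K', L2 L I' I * L2 L J' J * L2 L K' K * t I' J' K' G

end

end Vale.Agent.P352X
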