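import Vale.Agent.P352X.Wire
import Vale.Agent.P352X.Fin0
import Vale.Agent.P352X.R.TWO
import Vale.Agent.P352X.R.POLY
import Vale.Agent.P352X.R.IX

/-!
# P352X: all rows
-/

set_option linter.all false

namespace Vale.Agent.P352X

variable {D : Type*} [NormedAddCommGroup D] [InnerProductSpace ℂ D]

theorem t2_thm (c : Ctx D) : T2 c := t2_of c (two_row c (t1_thm c))

theorem t3_thm (c : Ctx D) : T3 c := ⟨t2_thm c, a2_row c (t2_thm c), poly_row c (t2_thm c)⟩

theorem main (c : Ctx D) [Fact c.tp] : G1 c ∧ G2 c ∧ (Rec c.Q → G3 c) :=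
  wire c (two_row c) (poly_row c) (ix_row c)

end Vale.Agent.P352X
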