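import Vale.Agent.P352X.Spec

/-!
# P352X: the dependency graph of the rows
-/

set_option linter.all false

namespace Vale.Agent.P352X

open Vale.Agent.P352 Vale.Agent.P352.GF Vale.Agent.P352.BW

variable {D : Type*} [NormedAddCommGroup D] [InnerProductSpace ℂ D]

/-- the rows, with their dependencies -/
structure Rows (c : Ctx D) : Prop where
  lie : LIE
  ker : KER
  null : NULL
  gff : GFF
  uq : UQ
  sym : SYM
  grp : GRP c
  gen : T0 c → GEN c
  bas : T0 c → BAS c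
  jc : T0 c → JC c
  ch : T0 c → CH c
  struct : T0 c → STRUCT c
  zc : T1 c → ZC c
  two : T1 c → TWO c
  ell : T1 c → ELL c
  kd : T1 c → KD c
  good : T1 c → GOOD c
  f2 : T1 c → F2 c
  pw : T1 c → PW c
  mir : T1 c → MIR c
  kt : T1 c → KT c
  wk : T1 c → WK c
  a2 : T2 c → A2 c
  poly : T2 c → POLY c
  bb : T3 c → BB c
  bp : T3 c → BB c → BP c
  res : T3 c → RES c
  far : T3 c → FAR c
  ix : T3 c → FAR c → IX c
  conm : T3 c → CONM c
  conk : T3 c → BP c → CONK c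
  cont : T3 c → FAR c → CONM c → CONK c → CONT c
  sch : T3 c → SCH c
  ib : T3 c → IB c
  sw : T3 c → SW c
  yz : T3 c → RES c → FAR c → IX c → CONT c → IB c → SW c → YZ c
  d1 : T3 c → SCH c → YZ c → D1 c
  dd : T3 c → D1 c → DD c
  ee : T3 c → BB c → DD c → EE c
  g1 : T3 c → DD c → EE c → G1 c
  g2 : T3 c → G1 c → G2 c
  g3 : T3 c → G2 c → Rec c.Q → G3 c

theorem Rows.main {c : Ctx D} (r : Rows c) : G1 c ∧ G2 c ∧ (Rec c.Q → G3 c) := by
  have t0 : T0 c := ⟨r.lie, r.ker, r.null, r.gff, r.uq, r.sym, r.grp⟩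
  have t1 : T1 c := ⟨t0, r.gen t0, r.bas t0, r.jc t0, r.ch t0, r.struct t0⟩
  have t2 : T2 c := ⟨t1, r.zc t1, r.two t1, r.ell t1, r.kd t1, r.good t1, r.f2 t1, r.pw t1,
    r.mir t1, r.kt t1, r.wk t1⟩
  have t3 : T3 c := ⟨t2, r.a2 t2, r.poly t2⟩
  have bb := r.bb t3
  have far := r.far t3
  have yz := r.yz t3 (r.res t3) far (r.ix t3 far)
    (r.cont t3 far (r.conm t3) (r.conk t3 (r.bp t3 bb))) (r.ib t3) (r.sw t3)
  have dd := r.dd t3 (r.d1 t3 (r.sch t3) yz)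
  have g1 := r.g1 t3 dd (r.ee t3 bb dd)
  exact ⟨g1, r.g2 t3 g1, r.g3 t3 (r.g2 t3 g1)⟩

/-- row CTX: the context exists -/
def CTX (D : Type*) [NormedAddCommGroup D] [InnerProductSpace ℂ D] : Prop :=
  ∀ (Q : Theory D) (T : Ix → Ix → Fld D) (A : (V → V) → D → D)
    (N : Set V → VonNeumannAlgebra (UniformSpace.Completion D)) wp wm t (tp : Prop),
    Q.IsStress T → ND.PCh Q T A → TfGen Q → LNm Q A N → UVac Q → (tp → TP Q T wp wm t) →
    ∃ c : Ctx D, c.Q = Q ∧ c.T = T ∧ c.tp = tp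

end Vale.Agent.P352X
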