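import Vale.Agent.P352.BW.Lm
import Vale.Agent.P352.N86.FormDefs

open MeasureTheory Filter Topology
open scoped SchwartzMap

namespace Vale.Agent.P352X

open Vale.Agent.P352 Vale.Agent.P352.GF Vale.Agent.P352.BW
open UniformSpace (Completion)

noncomputable section

/-- Pairs of indices. -/
abbrev I2 := Ix × Ix

/-- Test functions of two points. -/
abbrev S2 := 𝓢(V × V, ℂ)

/-- Test functions of three points. -/
abbrev S3 := 𝓢(V × V × V, ℂ)

/-- No point of `B` is in the causal future of a point of `A`. -/
def Late (A B : Set V) : Prop :=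
  ∀ x ∈ A, ∀ y ∈ B, ¬ (0 ≤ (y - x) o ∧ 0 ≤ mdot (y - x) (y - x))

/-- The matrix `L` acting on pairs of indices. -/
def L2 (L : Ix → V) (K I : I2) : ℂ := (L K.1 I.1 * L K.2 I.2 : ℝ)

variable {D : Type*} [NormedAddCommGroup D] [InnerProductSpace ℂ D]

/-- The vacuum is the only translation invariant vector. -/
def UVac (Q : Theory D) : Prop :=
  ∀ z : Completion D, (∀ a, Ue Q 1 one a z = z) → ∃ c : ℂ, z = c • om Q

/-- The values of a test function of two points. -/
def ev2 (F : S2) (x y : V) : ℂ := F (x, y)

/-- The values of a test function of three points. -/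
def ev3 (F : S3) (x y z : V) : ℂ := F (x, y, z)

/-- The points at which the support of a test function of two points has a leg. -/
def Legs2 (G : S2) : Set V := Prod.fst '' tsupport G ∪ Prod.snd '' tsupport G

/-- The support of a test function of three points does not meet the diagonal. -/
def OffD (F : S3) : Prop := ∀ x, (x, x, x) ∉ tsupport F

/-- Tempered distributions: continuous linear maps on Schwartz space. -/
def Dist {E H : Type*} [NormedAddCommGroup E] [NormedSpace ℝ E] [NormedAddCommGroup H]
    [NormedSpace ℂ H] (w : 𝓢(E, ℂ) → H) : Prop :=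
  IsLinearMap ℂ w ∧ Continuous w

/-- `w I J` is the time ordered (`e = true`) or the anti-time ordered (`e = false`) product of the
components `I` and `J` of `T`, applied to the vacuum: a tempered distribution, symmetric, causally
factorizing, and covariant under the similitudes up to multiples of the vacuum. -/
structure TO2 (Q : Theory D) (T : Ix → Ix → Fld D) (e : Bool)
    (w : I2 → I2 → S2 → Completion D) : Prop where
  dist : ∀ I J, Dist (w I J)
  fac : ∀ I J f g F, IsTest f → IsTest g → (∀ x y, ev2 F x y = f x * g y) →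
    Late (tsupport f) (tsupport g) → w I J F =
      ((if e then T I.1 I.2 f (T J.1 J.2 g Q.vac) else T J.1 J.2 g (T I.1 I.2 f Q.vac) : D) :
        Completion D)
  swap : ∀ I J F G, (∀ x y, ev2 G x y = ev2 F y x) → w I J F = w J I G
  ind : ∀ I J, w I J = w I.swap J
  cov : ∀ s L a I J F G, 0 < s → IsLor L →
    (∀ x y, ev2 G x y = ev2 F (sim s L a x) (sim s L a y)) → ∃ κ : ℂ,
      w I J F = ∑ K, ∑ M, (L2 L K I * L2 L M J) • Ue Q s L a (w K M G) + κ • om Q

/-- `t` is a tempered distribution of three points, symmetric, Poincare covariant, and dilation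
covariant off the diagonal. -/
structure TO3 (t : I2 → I2 → I2 → S3 → ℂ) : Prop where
  dist : ∀ I J K, Dist (t I J K)
  swap1 : ∀ I J K F G, (∀ x y z, ev3 G x y z = ev3 F y x z) → t I J K F = t J I K G
  swap2 : ∀ I J K F G, (∀ x y z, ev3 G x y z = ev3 F x z y) → t I J K F = t I K J G
  ind : ∀ I J K, t I J K = t I.swap J K
  cov : ∀ s L a I J K F G, 0 < s → IsLor L →
    (∀ x y z, ev3 G x y z = ev3 F (sim s L a x) (sim s L a y) (sim s L a z)) →
    (s = 1 ∨ OffD F) →
      t I J K F = ∑ I', ∑ J', ∑ K', L2 L I' I * L2 L J' J * L2 L K' K * t I' J' K' G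

/-- **Time ordered products of the stress tensor.** `wp` and `wm` are the time ordered and the
anti-time ordered products of two components of `T`, applied to the vacuum, and `t` is the vacuum
expectation value of the time ordered product of three components, which factorizes causally. -/
structure TO (Q : Theory D) (T : Ix → Ix → Fld D) (wp wm : I2 → I2 → S2 → Completion D)
    (t : I2 → I2 → I2 → S3 → ℂ) : Prop where
  tp : TO2 Q T true wp
  tm : TO2 Q T false wm
  t3 : TO3 t
  fac1 : ∀ I J K f G F, IsTest f → (∀ x y z, ev3 F x y z = f x * ev2 G y z) →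
    Late (tsupport f) (Legs2 G) →
      t I J K F = inner ℂ ((T I.1 I.2 (bar f) Q.vac : D) : Completion D) (wp J K G)
  fac3 : ∀ I J K G G' f F, IsTest f → (∀ x y z, ev3 F x y z = ev2 G x y * f z) →
    (∀ x y, ev2 G' x y = star (ev2 G x y)) → Late (Legs2 G) (tsupport f) →
      t I J K F = inner ℂ (wm I J G') ((T K.1 K.2 f Q.vac : D) : Completion D)

/-- A covariant tensor multiplet of tempered distributions with values in the Hilbert space, of rank
`k` and scaling dimension `d`. -/
structure Mult (Q : Theory D) (k : ℕ) (d : ℝ) (φ : (Fin k → Ix) → Fn → Completion D) : Prop where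
  lin : ∀ μ (f g : Fn) (c : ℂ), IsTest f → IsTest g →
    φ μ (fun x => f x + c * g x) = φ μ f + c • φ μ g
  cont : ∀ μ, Continuous fun g => φ μ (ev g)
  cov : ∀ μ s L a f, 0 < s → IsLor L → IsTest f → φ μ f = ∑ ν : Fin k → Ix,
    ((s ^ (4 - d) * ∏ i, L (ν i) (μ i) : ℝ) : ℂ) • Ue Q s L a (φ ν fun x => f (sim s L a x))

/-- **Field reconstruction.** Every covariant multiplet that is weakly local relative to the fields
is generated from the vacuum by local fields of the theory. -/
def Rec (Q : Theory D) : Prop :=
  ∀ k d φ, Mult Q k d φ → (∀ μ, N86.WeakLoc Q (φ μ)) → ∃ Φ : (Fin k → Ix) → Fld D,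
    ∀ μ, Q.bose (Φ μ) ∧ ∀ f, IsTest f → ((Φ μ f Q.vac : D) : Completion D) = φ μ f

end

end Vale.Agent.P352X
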