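import Vale.Agent.P352X.Fin0
import Vale.Agent.P352X.R.LIE
import Vale.Agent.P352X.R.KER
import Vale.Agent.P352X.R.NULL
import Vale.Agent.P352X.R.GFF
import Vale.Agent.P352X.R.UQ
import Vale.Agent.P352X.R.SYM
import Vale.Agent.P352X.R.GRP
import Vale.Agent.P352X.R.GEN
import Vale.Agent.P352X.R.BAS
import Vale.Agent.P352X.R.JC
import Vale.Agent.P352X.R.CH
import Vale.Agent.P352X.R.STRUCT
import Vale.Agent.P352X.R.ZC
import Vale.Agent.P352X.R.ELL
import Vale.Agent.P352X.R.KD
import Vale.Agent.P352X.R.GOOD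
import Vale.Agent.P352X.R.F2
import Vale.Agent.P352X.R.PW
import Vale.Agent.P352X.R.MIR
import Vale.Agent.P352X.R.KT
import Vale.Agent.P352X.R.WK
import Vale.Agent.P352X.R.A2
import Vale.Agent.P352X.R.BP
import Vale.Agent.P352X.R.RES
import Vale.Agent.P352X.R.FAR
import Vale.Agent.P352X.R.CONM
import Vale.Agent.P352X.R.CONK
import Vale.Agent.P352X.R.CONT
import Vale.Agent.P352X.R.SCH
import Vale.Agent.P352X.R.IB
import Vale.Agent.P352X.R.SW
import Vale.Agent.P352X.R.YZ
import Vale.Agent.P352X.R.D1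
import Vale.Agent.P352X.R.DD
import Vale.Agent.P352X.R.EE
import Vale.Agent.P352X.R.G1
import Vale.Agent.P352X.R.G2
import Vale.Agent.P352X.R.G3
import Vale.Agent.P352X.R.BB.L1
import Vale.Agent.P352X.R.BB.Flux
import Vale.Agent.P352X.R.BB.Low
import Vale.Agent.P352X.R.BB.Rate
import Vale.Agent.P352X.R.BB.Kt
import Vale.Agent.P352X.R.BB.KS
import Vale.Agent.P352X.R.BB.Half
import Vale.Agent.P352X.R.BB.MI
import Vale.Agent.P352X.R.BB.Dom
import Vale.Agent.P352X.R.BB.LIP
import Vale.Agent.P352X.R.BB.Dec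
import Vale.Agent.P352X.R.BB.Far
import Vale.Agent.P352X.R.BB.Main
import Vale.Agent.P352X.R.BB.Cross
import Vale.Agent.P352X.R.BB.Fin
import Vale.Agent.P352X.R.BB.Core
import Vale.Agent.P352X.R.BB.Tra

/-!
# P352X: the composition of the rows
-/

set_option linter.all false

namespace Vale.Agent.P352X

variable {D : Type*} [NormedAddCommGroup D] [InnerProductSpace ℂ D]

theorem t0_thm (c : Ctx D) : T0 c :=
  ⟨lie_row, ker_row, null_row, gff_row, uq_row, sym_row, grp_row c⟩

theorem t1_thm (c : Ctx D) : T1 c :=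
  have t := t0_thm c
  ⟨t, gen_row c t, bas_row c t, jc_row c t, ch_row c t, struct_row c t⟩

theorem t2_of (c : Ctx D) (two : TWO c) : T2 c :=
  have t := t1_thm c
  ⟨t, zc_row c t, two, ell_row c t, kd_row c t, good_row c t, f2_row c t, pw_row c t,
    mir_row c t, kt_row c t, wk_row c t⟩

theorem bb_of (c : Ctx D) : T3 c → BB c :=
  BX.Rows.bb ⟨BX.l1_row c, BX.flux_row c, BX.low_row c, BX.rate_row c, BX.kt_row c, BX.ks_row c,
    BX.half_row c, BX.mi_row c, BX.dom_row c, BX.lip_row c, BX.dec_row c, BX.gap_row c,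
    BX.far_row c, BX.main_row c, BX.cross_row c, BX.fin_row c, BX.core_row c, BX.tra_row c⟩

theorem wire3 (c : Ctx D) [Fact c.tp] (t : T3 c) (ix : IX c) : G1 c ∧ G2 c ∧ (Rec c.Q → G3 c) := by
  have bb := bb_of c t
  have far := far_row c t
  have yz := yz_row c t (res_row c t) far ix
    (cont_row c t far (conm_row c t) (conk_row0 c t (bp0_row c t bb))) (ib_row c t) (sw_row c t)
  have dd := dd_row c t (d1_row c t (sch_row c t) yz)
  have g1 := g1_row c t dd (ee_row c t bb dd)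
  exact ⟨g1, g2_row c t g1, g3_row c t (g2_row c t g1)⟩

theorem wire (c : Ctx D) [Fact c.tp] (two : T1 c → TWO c) (poly : T2 c → POLY c)
    (ix : T3 c → FAR c → IX c) : G1 c ∧ G2 c ∧ (Rec c.Q → G3 c) :=
  have t2 := t2_of c (two (t1_thm c))
  have t3 : T3 c := ⟨t2, a2_row c t2, poly t2⟩
  wire3 c t3 (ix t3 (far_row c t3))

end Vale.Agent.P352X
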